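import Crest.Agent.N49.Md.St
import Crest.Agent.N49.Md.Fw
import Crest.Agent.N49.Sd.Stc
import Crest.Agent.N49.Sd.Bk
import Crest.Agent.N49.Rf.Nar

/-!
# Row 49 (helper15): removal of the pending families (definitions and statements, FROZEN)
-/

set_option autoImplicit false
set_option linter.unusedSectionVars false

open Matrix MvPolynomial Finset

noncomputable section

namespace Crest.Agent.N49

/-- pending families as new families -/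
def Sd.Bk.nw {T : Tw.TS Unit} (P : Sd.Bk T.C Unit) (μ : ℝ) : Tw.Nw T :=
  @Tw.Nw.mk T P.N P.fin P.dec (fun a => (P.wd a).degree) (fun a => X (.inr a) - P.Θ a) μ

namespace Mv

open Po Tw Sy Sd Md Rm

variable {τ L : Type} [Fintype τ] [DecidableEq τ] [Fintype L] [DecidableEq L]

/-- real word functions -/
def wr {C : Type} (y : C → Finset τ → ℤ) : C → Finset τ → ℝ := fun c A => (y c A : ℝ)

/-- the errors of a word function -/
def ue (T : TS Unit) (y : T.C → Finset τ → ℝ) (c : T.C) (A : Finset τ) : ℝ := sy T.lev (T.Φ c) y A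

section rel
variable (T : TS Unit) (W : Finset (Finset τ)) (blk : τ → L) (la : L → ℝ) (x : L)

/-- the fibre of the block `x` over `Y` -/
def Fb (Y : T.C → Finset τ → ℤ) (ξ : T.C → Finset τ → ℝ) : Prop :=
  ∀ c, ∀ A ∈ W, x ∉ A.image blk → #A = T.lev c → ξ c A = Y c A

/-- `F` is trivial on the fibre over `Y` -/
def Rx (Y : T.C → Finset τ → ℤ) (q : ℕ) (Bd : ℝ) (F : (T.C → Finset τ → ℝ) → ℝ) : Prop :=
  ∃ I : (T.C → Finset τ → ℝ) → ℝ,
    (∀ (a b : ℝ) ξ1 ξ2 ξ, Fb T W blk x Y ξ1 → Fb T W blk x Y ξ2 → Fb T W blk x Y ξ →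
      (∀ c, ∀ A ∈ W, x ∈ A.image blk → #A = T.lev c → ξ c A = a * ξ1 c A + b * ξ2 c A) →
      I ξ = a * I ξ1 + b * I ξ2) ∧
    (∀ ξ, Fb T W blk x Y (wr ξ) → ∃ k : ℤ, I (wr ξ) = k) ∧
    ∀ ξ (t : ℝ), Fb T W blk x Y ξ → 0 ≤ t → (∀ c, ∀ A ∈ W, x ∈ A.image blk → #A = T.lev c →
      |(∏ a ∈ A, la (blk a)) * ue T ξ c A| ≤ t) → |F ξ - I ξ / q| ≤ t * Bd

end rel

section state
variable (B : Bs L) (W : Finset (Finset τ)) (blk : τ → L) (x : L) (P : Bk B.T.C Unit)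

/-- the point of the `x`-fibre with the old coordinates of `ξ` -/
def pt (ξ : (Bk.ext B.T P).C → Finset τ → ℝ) : B.SC W ⊕ L → ℝ :=
  Sum.elim (fun w => ξ (.inl w.1.1) w.1.2) fun ℓ => if ℓ = x then 0 else 1

/-- **the state with symbols**: `F d - ∑ (Π d U) ^ U` is trivial on the extended fibres -/
def RP (H : Set (B.SC W → ℤ)) (q n : ℕ) {D : Type} (F : D → Fm L (B.SC W))
    (Pi : D → Finset τ → MvPolynomial (Bk.ext B.T P).C ℝ) : Prop :=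
  ∀ y ∈ H, ∃ Y : (Bk.ext B.T P).C → Finset τ → ℤ, (∀ w : B.SC W, Y (.inl w.1.1) w.1.2 = y w) ∧
    (∀ a, ∀ A ∈ W, x ∉ A.image blk → #A = (P.wd a).degree →
      |ue (Bk.ext B.T P) (wr Y) (.inr a) A| ≤ 2 ^ n) ∧
    ∀ d, Rx (Bk.ext B.T P) W blk B.la x Y q (2 ^ n) fun ξ => F d (pt B W x P ξ) -
      ∑ U ∈ W with x ∈ U.image blk, sy (Bk.ext B.T P).lev (Pi d U) ξ U

/-- **the state**: the data are trivial on the fibres of the tower with the pending families -/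
def RS (H : Set (B.SC W → ℤ)) (q n : ℕ) {D : Type} (F : D → Fm L (B.SC W)) : Prop :=
  ∀ y ∈ H, ∃ Y : (Bk.ext B.T P).C → Finset τ → ℤ, (∀ w : B.SC W, Y (.inl w.1.1) w.1.2 = y w) ∧
    (∀ a, ∀ A ∈ W, x ∉ A.image blk → #A = (P.wd a).degree →
      |ue (Bk.ext B.T P) (wr Y) (.inr a) A| ≤ 2 ^ n) ∧
    ∀ d, Rx (Bk.ext B.T P) W blk B.la x Y q (2 ^ n) fun ξ => F d (pt B W x P ξ)

/-- pending families: at most `n`, of level at most `l` -/
structure Pn (n l : ℕ) : Prop where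
  ok : P.Ok B.T.deg
  card : Fintype.card P.N ≤ n
  lv : ∀ a, (P.wd a).degree ≤ l

/-- sizes of a base -/
structure Sb (s n : ℕ) : Prop where
  two : 2 ≤ n
  ok : B.Ok s n
  wf : Wf s W blk
  cC : Fintype.card B.T.C ≤ 2 ^ n
  cτ : Fintype.card τ ≤ n

end state

/-- the extension `E.T` sits in the frame as the pure families -/
structure Pu {T : TS Unit} (E : Nw T) (f : Fr T τ L) (e : T.C ⊕ E.N → f.T.C) : Prop where
  lev : ∀ c, f.T.lev (e c) = E.lev c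
  Φ : ∀ c, f.T.Φ (e c) = rename e (E.Φa c)
  top : ∀ F, f.θ.top F = e (.inl F)

/-- the number of stages after a move -/
def mM (s M : ℕ) : ℕ := tM (M * (s + 1) ^ s)

/-- **dilate, add new families, recentre** -/
def RCN (s M C' : ℕ) : Prop := ∃ C K : ℕ, ∀ (τ L : Type) [Fintype τ] [DecidableEq τ] [Fintype L]
  [DecidableEq L] (B : Bs L) (W : Finset (Finset τ)) (blk : τ → L) (E : Nw B.T) (ν h n Y : ℕ)
  (H : Set (B.SC W → ℤ)), Sb B W blk s h → h ≤ n → h ≤ Y → B.M = M → E.Wf s →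
  Fintype.card E.N ≤ h → 1 ≤ ν → ν ≤ 2 ^ Y → ν ^ s * E.μ * 2 ^ (h * s + s) ≤ 1 → 1 / 2 ^ Y ≤ E.μ →
  (∀ l, E.ct l ≤ 2 ^ Y) → B.Rg C (n ^ K) (1 / 2 ^ n ^ K) (1 / 2 ^ n ^ K) →
  E.T.RgS (E.st B.st M s) (M * (s + 1) ^ s) C (n ^ K) (1 / 2 ^ n ^ K) (1 / 2 ^ n ^ K) →
  ∃ (f : Fr B.T τ L) (e : B.T.C ⊕ E.N → f.T.C) (H' : Set (f.SC W → ℤ)), f.Ok s (Y ^ K) ∧
    f.M = mM s M ∧ f.θ.St B.st f.st ∧ f.Fw ν 0 ∧ Fintype.card f.T.C ≤ 2 ^ h ^ K ∧
    f.Rg C' n (1 / 2 ^ n) (1 / 2 ^ n) ∧ Pu E f e ∧ Ov (ka B W blk f) H' H ∧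
    (B.SY W blk).pr H / 2 - 1 / 2 ^ n ≤ (f.SY W blk).pr H'

/-- **one move**: the levels of the pending families drop -/
def MOVE (s M : ℕ) : Prop := ∃ e : ℕ, ∀ K' : ℕ, ∃ K : ℕ, ∀ (τ L : Type) [Fintype τ] [DecidableEq τ]
  [Fintype L] [DecidableEq L] (B : Bs L) (W : Finset (Finset τ)) (blk : τ → L) (x : L)
  (P : Bk B.T.C Unit) (n l q : ℕ) (H : Set (B.SC W → ℤ)) (D : Type) (F : D → Fm L (B.SC W)),
  Sb B W blk s n → B.M = M → Pn B P n l → l ≤ s → 1 ≤ q → q ≤ 2 ^ n →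
  1 / 2 ^ n ≤ (B.SY W blk).pr H → B.Rg 1 (n ^ K) (1 / 2 ^ n ^ K) (1 / 2 ^ n ^ K) →
  RS B W blk x P H q n F →
  ∃ (f : Fr B.T τ L) (ν : ℕ) (P' : Bk f.T.C Unit) (H' : Set (f.SC W → ℤ)), f.Ok s (n ^ K) ∧
    f.M = mM s M ∧ f.θ.St B.st f.st ∧ f.Fw ν 0 ∧ q ∣ ν ∧ Fintype.card f.T.C ≤ 2 ^ n ^ e ∧
    f.Rg 1 (n ^ K') (1 / 2 ^ n ^ K') (1 / 2 ^ n ^ K') ∧ Ov (ka B W blk f) H' H ∧
    1 / 2 ^ n ^ e ≤ (f.SY W blk).pr H' ∧ Pn f.toBs P' (n ^ e) (l - 1) ∧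
    RS f.toBs W blk x P' H' q (n ^ e) (fun d p => F d (ka B W blk f p)) ∧
    (IsEmpty P.N → RS f.toBs W blk x P' H' 1 (n ^ e) fun d p => F d (ka B W blk f p))

/-! ### the rings and the frame of a move -/

section rings
variable (s : ℕ) (W : Finset (Finset τ)) (la : Finset τ → ℝ)

/-- the value of a configuration at a family and a word -/
def wc (T : TS Unit) {R : Type} [AddCommMonoid R] (y : T.Cw (shp W la) → R) (F : T.C)
    (A : Finset τ) : R := ∑ p : T.Cw (shp W la) with p.1.1 = F ∧ p.1.2.1 = ind A, y p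

/-- the free ring of the centres -/
def fr : Sh Unit τ := Sh.mono (fun _ => ()) (full τ s) 0 (dk fun μ =>
  if μ ∈ W.image ind then (la μ.support ^ 2)⁻¹ - (2 ^ #μ.support - 1) else 1)

/-- the ring of the directions -/
abbrev dr : Sh Unit τ := shp W fun _ => 1

/-- centres and directions -/
abbrev r3 : Sh Unit Unit := (fr s W la).ten (dr W) 1

/-- the monomial of a word of centres -/
def om (o : Option (fr s W la).W) : τ →₀ ℕ := o.elim 0 Subtype.val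

/-- the words as words of centres -/
def jm : Matrix (fr s W la).W (shp W la).W ℤ := Matrix.of fun w' w => if w'.1 = w.1 then 1 else 0

/-- `c, v ↦ t` -/
def mu : Matrix (shp W la).W (r3 s W la).W ℤ := Matrix.of fun w z =>
  if om s W la z.1.1 + z.1.2.elim 0 Subtype.val = w.1 then 1 else 0

/-- a twist moved to the centres -/
def lf (T : TS Unit) (Ψ : T.Twd (shp W la)) : T.Twd (fr s W la) :=
  T.tp (shp W la) (fr s W la) (jm s W la) Ψ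

variable {T : TS Unit} (E : Nw T) (ν : ℕ) (r : T.C → Finset τ → ℤ) (Ψ : E.T.Twd (shp W la))

/-- on the old families the twist is the shift by the residues -/
def Sft : Prop := ∀ F, Ψ (.inl F) =
  aeval (fun c => MvPolynomial.C (E.T.Yw (shp W la) (fun p => Sum.elim
      (fun c => (r c p.1.2.1.support : ℝ) / ν ^ T.lev c) (fun _ => 0) p.1.1) c) + X c)
    (MvPolynomial.map MvPolynomial.C (E.Φa (.inl F)) :
      MvPolynomial E.T.C (MvPolynomial (shp W la).W ℝ))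

variable (b : E.T.Cw (fr s W la) → ℤ)

/-- the new tower -/
abbrev rT : TS Unit := E.T.tan (fr s W la) (lf s W la E.T Ψ) 1 b

/-- its substitution -/
def rθ (h : ∀ c, 0 < E.T.lev c) : Md.Tan T (rT s W la E Ψ b) τ where
  fam := fun z : E.T.Tc (fr s W la) => Sum.elim some (fun _ => none) z.1.1
  mon := fun z : E.T.Tc (fr s W la) =>
    monomial (om s W la z.1.2) ((ν : ℤ) ^ (om s W la z.1.2).degree)
  sc := fun _ => E.μ
  be F := ∑ A ∈ W with #A = T.lev F, monomial (ind A) (r F A) +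
    ∑ p : E.T.Cw (fr s W la) with p.1.1 = .inl F, monomial p.1.2.1 ((ν : ℤ) ^ T.lev F * b p)
  bu F := ∑ p : E.T.Cw (fr s W la) with p.1.1 = .inl F, monomial p.1.2.1
    ((ν : ℝ) ^ T.lev F * E.μ * (E.T.tw _ (lf s W la E.T Ψ)).u (zc b) p)
  top F := (⟨(.inl F, none), h (.inl F)⟩ : E.T.Tc (fr s W la))

end rings

/-- **the frame of a move** -/
def rf (B : Bs L) (s : ℕ) (W : Finset (Finset τ)) (la : Finset τ → ℝ) (E : Nw B.T) (ν : ℕ)
    (r : B.T.C → Finset τ → ℤ) (Ψ : E.T.Twd (shp W la)) (b : E.T.Cw (fr s W la) → ℤ)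
    (h : ∀ c, 0 < E.T.lev c) : Fr B.T τ L where
  T := rT s W la E Ψ b
  st := E.T.ts (fr s W la) (E.st B.st B.M s) (B.M * (s + 1) ^ s)
  M := mM s B.M
  la := fun _ => 1
  m := fun _ => ν
  θ := rθ s W la E ν r Ψ b h

/-- the widths after the dilation -/
def la1 (blk : τ → L) (la : L → ℝ) (ν : ℕ) (μ : ℝ) : Finset τ → ℝ :=
  fun A => ν ^ #A * μ * ∏ a ∈ A, la (blk a)

/-- the old configuration -/
def dl (B : Bs L) (W : Finset (Finset τ)) (la : Finset τ → ℝ) (E : Nw B.T) (ν : ℕ)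
    (r : B.T.C → Finset τ → ℤ) (y : E.T.Cw (shp W la) → ℤ) : B.SC W → ℤ :=
  fun w => r w.1.1 w.1.2 + ν ^ B.T.lev w.1.1 * wc W la E.T y (.inl w.1.1) w.1.2

/-! ### leaves -/

/-- pending families are well-formed new families -/
def NWB : Prop := ∀ (T : TS Unit) (P : Bk T.C Unit) (s : ℕ) (μ : ℝ), T.Tri → P.Ok T.deg →
  (∀ a, (P.wd a).degree ≤ s) → 0 < μ → μ ≤ 1 →
  (P.nw μ).Wf s ∧ ∀ l, (P.nw μ).ct l ≤ 2 ^ Fintype.card P.N

/-- residues and new families (exact) -/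
def RESN : Prop := ∀ (τ L : Type) [Fintype τ] [DecidableEq τ] [Fintype L] [DecidableEq L]
  (B : Bs L) (W : Finset (Finset τ)) (blk : τ → L) (s h ν : ℕ) (E : Nw B.T)
  (H : Set (B.SC W → ℤ)), B.Ok s h → Wf s W blk → E.Wf s → 1 ≤ ν →
  ∃ (r : B.T.C → Finset τ → ℤ) (Ψ : E.T.Twd (shp W (la1 blk B.la ν E.μ))),
    E.T.Adm _ (E.st B.st B.M s) Ψ ∧ Sft W _ E ν r Ψ ∧
    (B.T.tw (mr blk B.la (W.image ind)) (B.T.tw0 _)).N (Set.indicator
      {y | (fun w : B.SC W => wv blk B.la B.T y w.1.1 (ind w.1.2)) ∈ H} 1) ≤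
    (E.T.tw _ Ψ).N (Set.indicator {y | dl B W (la1 blk B.la ν E.μ) E ν r y ∈ H} 1)

/-- centre plus direction -/
def LIFT : Prop := ∀ (τ : Type) [Fintype τ] [DecidableEq τ] (s n : ℕ) (W : Finset (Finset τ))
  (la : Finset τ → ℝ), Dw W → (∀ A ∈ W, #A ≤ s ∧ 0 < la A ∧ 2 ^ s * la A ^ 2 ≤ 1) →
  ((Fintype.card τ + 1) ^ s + 1) ^ 2 ≤ n →
  ((fr s W la).Sz n 1 ∧ (dr W).Sz n 1 ∧ (shp W la).Sz n 1 ∧ (r3 s W la).Sz n 1 ∧
    (fr s W la).Tk 1 1 ∧ Fintype.card (fr s W la).W ≤ (Fintype.card τ + 1) ^ s) ∧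
  (∃ (J : Type) (_ : Fintype J) (_ : DecidableEq J) (ψ N Q cj : _),
    (r3 s W la).Spl (J := J) (shp W la) n (mu s W la) ψ N Q cj) ∧
  ∀ (T : TS Unit) (st : T.C → ℕ) (Ψ : T.Twd (shp W la)), T.Adm _ st Ψ →
    T.Adm _ st (lf s W la T Ψ) ∧
      T.tp (r3 s W la) (shp W la) (mu s W la) (T.tin _ _ 1 (lf s W la T Ψ)) = Ψ

/-- the hypotheses on the data of a move -/
structure Rd (B : Bs L) (s h : ℕ) (W : Finset (Finset τ)) (blk : τ → L) (la : Finset τ → ℝ)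
    (E : Nw B.T) (ν : ℕ) (r : B.T.C → Finset τ → ℤ) (Ψ : E.T.Twd (shp W la)) : Prop where
  ok : B.Ok s h
  wf : Wf s W blk
  nw : E.Wf s
  one : 1 ≤ ν
  fr : (fr s W la).Ok
  adm : E.T.Adm _ (E.st B.st B.M s) (lf s W la E.T Ψ)
  sft : Sft W la E ν r Ψ

/-- Taylor's formula for the frame of a move; the pure families -/
def TAY : Prop := ∀ (τ L : Type) [Fintype τ] [DecidableEq τ] [Fintype L] [DecidableEq L]
  (B : Bs L) (s h : ℕ) (W : Finset (Finset τ)) (blk : τ → L) (la : Finset τ → ℝ) (E : Nw B.T)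
  (ν : ℕ) (r : B.T.C → Finset τ → ℤ) (Ψ : E.T.Twd (shp W la)) (b : E.T.Cw (fr s W la) → ℤ)
  (hp : ∀ c, 0 < E.T.lev c) (x : ℝ), Rd B s h W blk la E ν r Ψ → ν ^ s * E.μ ≤ 1 → x⁻¹ ≤ E.μ →
  0 < x → (rθ s W la E ν r Ψ b hp).Ok x ∧ (rf B s W la E ν r Ψ b hp).Fw ν 0 ∧
    Pu E (rf B s W la E ν r Ψ b hp) fun c => (⟨(c, none), hp c⟩ : E.T.Tc (fr s W la))

/-- the stages of the frame of a move -/
def STM : Prop := ∀ (τ L : Type) [Fintype τ] [DecidableEq τ] [Fintype L] [DecidableEq L]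
  (B : Bs L) (s h : ℕ) (W : Finset (Finset τ)) (blk : τ → L) (la : Finset τ → ℝ) (E : Nw B.T)
  (ν : ℕ) (r : B.T.C → Finset τ → ℤ) (Ψ : E.T.Twd (shp W la)) (b : E.T.Cw (fr s W la) → ℤ)
  (hp : ∀ c, 0 < E.T.lev c), Rd B s h W blk la E ν r Ψ →
  (rθ s W la E ν r Ψ b hp).St B.st (rf B s W la E ν r Ψ b hp).st

/-- `c, v ↦ t` on configurations is the morphism of the frame of a move -/
def HMM : Prop := ∀ (τ L : Type) [Fintype τ] [DecidableEq τ] [Fintype L] [DecidableEq L]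
  (B : Bs L) (s h : ℕ) (W : Finset (Finset τ)) (blk : τ → L) (la : Finset τ → ℝ) (E : Nw B.T)
  (ν : ℕ) (r : B.T.C → Finset τ → ℤ) (Ψ : E.T.Twd (shp W la)) (b : E.T.Cw (fr s W la) → ℤ)
  (hp : ∀ c, 0 < E.T.lev c) (ho : (dr W).Ok) (Y : E.T.Cw (r3 s W la) → ℤ)
  (y : (rT s W la E Ψ b).Cw (mr blk (fun _ => 1) (W.image ind)) → ℤ), B.Ok s h → Wf s W blk →
  (∀ p, Y (E.T.tE _ _ 1 (lf s W la E.T Ψ) b ho (.inl p)) = b p) →
  (∀ p, Y (E.T.tE _ _ 1 (lf s W la E.T Ψ) b ho (.inr p)) = y p) →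
  ka B W blk (rf B s W la E ν r Ψ b hp)
      (TT.cf fun w => wv blk (fun _ => 1) _ y w.1.1 (ind w.1.2)) =
    TT.cf (dl B W la E ν r (E.T.hm _ _ (mu s W la) Y))

/-- central configurations -/
def CNB : Prop := ∀ M C : ℕ, MAST M C → ∀ (τ L : Type) [Fintype τ] [DecidableEq τ] [Fintype L]
  [DecidableEq L] (B : Bs L) (W : Finset (Finset τ)) (blk : τ → L) (s h n k m : ℕ) (a : ℝ),
  B.M = M → B.Ok s h → Wf s W blk → (Fintype.card τ + 1) ^ s ≤ n → a ≤ 1 / 2 ^ (2 * h * s) →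
  Fintype.card (B.SC W) ≤ 2 ^ k → B.Rg C n a (1 / 2) →
  (B.SY W blk).pr {y | ¬ (B.SY W blk).Cen (2 ^ (k + m)) y} ≤ 1 / 2 ^ m

/-- the relation is pulled back, the background of the pending families is pigeonholed -/
def PUL (s : ℕ) : Prop := ∃ K : ℕ, ∀ (τ L : Type) [Fintype τ] [DecidableEq τ] [Fintype L]
  [DecidableEq L] (B : Bs L) (W : Finset (Finset τ)) (blk : τ → L) (x : L) (P : Bk B.T.C Unit)
  (n l q ν h : ℕ) (μ : ℝ) (H : Set (B.SC W → ℤ)) (D : Type) (F : D → Fm L (B.SC W)) (E : Nw B.T)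
  (ρ : P.N → MvPolynomial (B.T.C ⊕ E.N) ℤ) (G : P.N → MvPolynomial (B.T.C ⊕ E.N) ℝ)
  (f : Fr B.T τ L) (e : B.T.C ⊕ E.N → f.T.C) (H1 : Set (f.SC W → ℤ)), Sb B W blk s n →
  Pn B P n l → l ≤ s → 1 ≤ q → q ∣ ν → RS B W blk x P H q n F → E.Wf s →
  (P.nw μ).Hom s E ν (2 ^ n) ρ G → f.Ok s h → f.Fw ν 0 → Fintype.card f.T.C ≤ 2 ^ n → Pu E f e →
  Ov (ka B W blk f) H1 H → (∀ y ∈ H1, (f.SY W blk).Cen (2 ^ n) y) →
  ∃ (P' : Bk f.T.C Unit) (H' : Set (f.SC W → ℤ)), H' ⊆ H1 ∧ Pn f.toBs P' (n ^ K) (l - 1) ∧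
    (f.SY W blk).pr H1 ≤ 2 ^ n ^ K * (f.SY W blk).pr H' ∧
    RS f.toBs W blk x P' H' q (n ^ K) (fun d p => F d (ka B W blk f p)) ∧
    (IsEmpty P.N → RS f.toBs W blk x P' H' 1 (n ^ K) fun d p => F d (ka B W blk f p))

/-- symbols are absorbed as pending families -/
def ABS : Prop := ∀ (τ L : Type) [Fintype τ] [DecidableEq τ] [Fintype L] [DecidableEq L]
  (B : Bs L) (W : Finset (Finset τ)) (blk : τ → L) (x : L) (P : Bk B.T.C Unit) (s n q : ℕ)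
  (H : Set (B.SC W → ℤ)) (D : Type) [Fintype D] (F : D → Fm L (B.SC W))
  (Pi : D → Finset τ → MvPolynomial (Bk.ext B.T P).C ℝ), Sb B W blk s n → Pn B P n s →
  Fintype.card D ≤ n → 1 ≤ q → (∀ d U, (Pi d U).IsWeightedHomogeneous (Bk.ext B.T P).lev #U) →
  RP B W blk x P H q n F Pi →
  ∃ P' : Bk B.T.C Unit, Pn B P' (n ^ (2 * s + 3)) s ∧ RS B W blk x P' H q (n ^ (2 * s + 3)) F

/-- from the relation of a typed tower to the relation on word functions -/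
def RX1 : Prop := ∀ (τ L : Type) [Fintype τ] [DecidableEq τ] [Fintype L] [DecidableEq L]
  (T : TS Unit) (p : T.C → Prop) [DecidablePred p] (W : Finset (Finset τ)) (blk : τ → L)
  (la : L → ℝ) (x : L) (s q : ℕ) (Bd : ℝ) (y : SC T p W → ℤ) (Y : T.C → Finset τ → ℤ)
  (F : Fm L (SC T p W)), T.Tri → (∀ c, p c) → Wf s W blk → (∀ ℓ, 0 < la ℓ) →
  (∀ w : SC T p W, Y w.1.1 w.1.2 = y w) →
  (symT T p W (fun A => ∏ a ∈ A, la (blk a)) blk).Dat univ {x} F →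
  (symT T p W (fun A => ∏ a ∈ A, la (blk a)) blk).Rel univ {x} y q Bd F →
  Rx T W blk la x Y q Bd fun ξ => F (Sum.elim (fun w => ξ w.1.1 w.1.2) fun ℓ => if ℓ = x then 0 else 1)

/-- no pending family: the relation of the symbol tower -/
def RX0 : Prop := ∀ (τ L : Type) [Fintype τ] [DecidableEq τ] [Fintype L] [DecidableEq L]
  (B : Bs L) (W : Finset (Finset τ)) (blk : τ → L) (x : L) (P : Bk B.T.C Unit) (s h m n q : ℕ)
  (H : Set (B.SC W → ℤ)) (D : Type) (F : D → Fm L (B.SC W)), B.Ok s h → Wf s W blk →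
  Pn B P m 0 → RS B W blk x P H q n F → ∀ y ∈ H, ∀ d, (B.SY W blk).Rel univ {x} y q (2 ^ n) (F d)

end Mv

end Crest.Agent.N49

end
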