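import Crest.Agent.N49.Mv.Defs

/-!
# Row 49 (helper72): symbols are absorbed as pending families
-/

set_option autoImplicit false
set_option linter.unusedSectionVars false

open Matrix MvPolynomial Finset

noncomputable section

namespace Crest.Agent.N49.Mv

open Po Tw Sy Sd Md Rm

namespace Ab

variable {τ : Type} [Fintype τ] [DecidableEq τ]

/-- short sets of letters are few -/
theorem card_le {W : Finset (Finset τ)} {s : ℕ} (h : ∀ A ∈ W, #A ≤ s) :
    #W ≤ (Fintype.card τ + 1) ^ s := by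
  have k : ∀ A ∈ W, ∀ a, a ∈ A ↔ ∃ i : Fin s, A.toList[(i : ℕ)]? = some a := fun A m a => by
    rw [← mem_toList, List.mem_iff_getElem?]
    refine ⟨fun ⟨i, e⟩ => ⟨⟨i, ?_⟩, e⟩, fun ⟨i, e⟩ => ⟨i, e⟩⟩
    have := (List.getElem?_eq_some_iff.1 e).1
    rw [length_toList] at this
    exact this.trans_le (h A m)
  refine (card_le_card_of_injOn (t := univ) (fun A (i : Fin s) => A.toList[(i : ℕ)]?)
    (fun _ _ => mem_coe.2 (mem_univ _)) fun A m A' m' e => ?_).trans_eq (by simp)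
  ext a
  rw [k A m, k A' m']
  exact exists_congr fun i => by rw [congrFun e i]

theorem sy_rn {ι ι' : Type} {lev : ι → ℕ} {lev' : ι' → ℕ} (j : ι → ι') (h : ∀ c, lev' (j c) = lev c)
    (P : MvPolynomial ι ℝ) (y : ι' → Finset τ → ℝ) (S : Finset τ) :
    sy lev' (rename j P) y S = sy lev P (fun c => y (j c)) S := by
  rw [sy, sy, aeval_rename]
  congr 3
  funext c
  simp only [Function.comp, Yp, h]

theorem hom_rn {A B M : Type} [AddCommMonoid M] (f : A → B) {w : B → M} {w' : A → M}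
    (e : ∀ a, w (f a) = w' a) {P : MvPolynomial A ℝ} {n : M} (h : P.IsWeightedHomogeneous w' n) :
    (rename f P).IsWeightedHomogeneous w n := fun m z => by
  obtain ⟨u, rfl, k⟩ := coeff_rename_ne_zero f P m z
  rw [TS.weight_map, funext e]; exact h k

variable {C N : Type} [Fintype N] [DecidableEq N] (P : Bk C Unit) (l : N → ℕ)
  (Q : N → MvPolynomial (C ⊕ P.N) ℝ)

/-- new brackets on top of a system -/
def ad : Bk C Unit where
  N := P.N ⊕ N
  wd := Sum.elim P.wd fun z => Finsupp.single () (l z)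
  rk := Sum.elim P.rk fun _ => univ.sup P.rk + 1
  Θ a := rename (Sum.map id .inl) (Sum.elim P.Θ Q a)

theorem ad_ok {dg : C → Unit →₀ ℕ} (h : P.Ok dg) (h0 : ∀ c, dg c ≠ 0) (hl : ∀ z, l z ≠ 0)
    (hQ : ∀ z, (Q z).IsWeightedHomogeneous (fun v => (P.wg dg v).degree) (l z)) :
    (ad P l Q).Ok dg where
  ne := by
    rintro (a | z)
    exacts [h.ne a, Finsupp.single_ne_zero.2 (hl z)]
  hom a := by
    refine hom_rn (w' := P.wg dg) _ (by rintro (c | a) <;> rfl) ?_
    rcases a with a | z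
    · exact h.hom a
    · intro m k
      exact unit_ext ((weight_hom Finsupp.degree _ m).symm.trans
        ((hQ z k).trans (Finsupp.degree_single _ _).symm))
  live _ c _ := h0 c
  tri a a' k := by
    obtain ⟨v, m, e⟩ := mem_vars_rename _ _ k
    rcases v with c | b
    · cases e
    · obtain rfl : Sum.inl b = a' := Sum.inr_injective e
      rcases a with a | z
      · exact h.tri a b m
      · exact Nat.lt_succ_of_le (le_sup (f := P.rk) (mem_univ b))

section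
variable {T : TS Unit} (P : Bk T.C Unit) (l : N → ℕ) (Q : N → MvPolynomial (T.C ⊕ P.N) ℝ)

/-- the old families -/
def jj : (Bk.ext T P).C → (Bk.ext T (ad P l Q)).C :=
  (Sum.map id .inl : T.C ⊕ P.N → T.C ⊕ P.N ⊕ N)

theorem lev_jj (c : (Bk.ext T P).C) : (Bk.ext T (ad P l Q)).lev (jj P l Q c) = (Bk.ext T P).lev c := by
  rcases c with c | a <;> rfl

theorem lev_nw (z : N) : (Bk.ext T (ad P l Q)).lev (.inr (.inr z)) = l z :=
  Finsupp.degree_single _ _

theorem phi_jj (c : (Bk.ext T P).C) :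
    (Bk.ext T (ad P l Q)).Φ (jj P l Q c) = rename (jj P l Q) ((Bk.ext T P).Φ c) := by
  rcases c with c | a
  · exact (rename_rename (R := ℝ) (Sum.inl : T.C → T.C ⊕ P.N)
      (Sum.map id .inl : T.C ⊕ P.N → T.C ⊕ P.N ⊕ N) (T.Φ c)).symm
  · have : rename (Sum.map id .inl : T.C ⊕ P.N → T.C ⊕ P.N ⊕ N) (X (.inr a) - P.Θ a) =
        X (.inr (.inl a)) - rename (Sum.map id .inl) (P.Θ a) := by rw [map_sub, rename_X]; rfl
    exact this.symm

theorem ue_jj (ξ : (Bk.ext T (ad P l Q)).C → Finset τ → ℝ) (c : (Bk.ext T P).C) (A : Finset τ) :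
    ue (Bk.ext T (ad P l Q)) ξ (jj P l Q c) A = ue (Bk.ext T P) (fun c => ξ (jj P l Q c)) c A := by
  rw [ue, ue, ← sy_rn _ (lev_jj P l Q), phi_jj]

theorem ue_nw (ξ : (Bk.ext T (ad P l Q)).C → Finset τ → ℝ) (z : N) (A : Finset τ) (e : #A = l z) :
    ue (Bk.ext T (ad P l Q)) ξ (.inr (.inr z)) A =
      ξ (.inr (.inr z)) A - sy (Bk.ext T P).lev (Q z) (fun c => ξ (jj P l Q c)) A := by
  have : (Bk.ext T (ad P l Q)).Φ (.inr (.inr z)) = X (.inr (.inr z)) - rename (jj P l Q) (Q z) := rfl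
  refine (congrArg (fun R => sy (Bk.ext T (ad P l Q)).lev R ξ A) this).trans ?_
  have k := sy_X (Bk.ext T (ad P l Q)).lev ξ A (.inr (.inr z))
  rw [if_pos (e.trans (lev_nw P l Q z).symm)] at k
  exact (sy_sub _ _ _ _ _).trans (congrArg₂ (· - ·) k (sy_rn _ (lev_jj P l Q) _ _ _))

end

theorem num1 {n s : ℕ} (h : 2 ≤ n) : n + n * (n + 1) ^ s ≤ n ^ (2 * s + 3) := by
  have a : (n + 1) ^ s ≤ n ^ (2 * s) := by
    rw [pow_mul]; exact Nat.pow_le_pow_left (by nlinarith) _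
  have b : 1 ≤ n ^ (2 * s) := Nat.one_le_pow _ _ (by omega)
  have c : 2 * n ≤ n ^ 3 := by nlinarith [Nat.mul_le_mul h h]
  calc _ ≤ n * n ^ (2 * s) + n * n ^ (2 * s) := by
        gcongr; exact Nat.le_mul_of_pos_right _ b
    _ = n ^ (2 * s) * (2 * n) := by ring
    _ ≤ _ := by rw [pow_add]; gcongr

theorem num2 {n s : ℕ} (h : 2 ≤ n) : n * (s + 1) + 1 ≤ n ^ (2 * s + 3) := by
  have a : 2 * s + 2 < 2 ^ (2 * s + 2) := Nat.lt_two_pow_self
  have b : 2 ^ (2 * s + 2) ≤ n ^ (2 * s + 2) := Nat.pow_le_pow_left h _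
  rw [pow_succ']
  nlinarith

end Ab

open Ab in
/-- **ABS** -/
theorem abs : ABS := by
  classical
  intro τ L _ _ _ _ B W blk x P s n q H D _ F Pi hb hp hD hq hh h
  let Wx := W.filter fun U => x ∈ U.image blk
  let l : D × Wx → ℕ := fun z => #z.2.1
  let Q : D × Wx → MvPolynomial (B.T.C ⊕ P.N) ℝ := fun z => (q : ℝ) • Pi z.1 z.2.1
  let P' := ad P l Q
  let j := jj P l Q
  have hj := lev_jj P l Q
  have hl : ∀ z, (Bk.ext B.T P').lev (.inr (.inr z)) = #z.2.1 := lev_nw P l Q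
  have u1 := ue_jj (τ := τ) P l Q
  have u2 : ∀ ξ z (A : Finset τ), #A = #z.2.1 → ue (Bk.ext B.T P') ξ (.inr (.inr z)) A =
      ξ (.inr (.inr z)) A - q * sy (Bk.ext B.T P).lev (Pi z.1 z.2.1) (fun c => ξ (j c)) A :=
    fun ξ z A e => (ue_nw P l Q ξ z A e).trans (congrArg _ (sy_smul _ _ _ _ _))
  have cW : #Wx ≤ (n + 1) ^ s := (card_filter_le _ _).trans ((card_le hb.wf.le).trans
    (Nat.pow_le_pow_left (Nat.succ_le_succ hb.cτ) _))
  have cW' : (#Wx : ℝ) ≤ 2 ^ n := by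
    exact_mod_cast (card_le_univ _).trans ((Fintype.card_finset (α := τ)).trans_le
      (Nat.pow_le_pow_right two_pos hb.cτ))
  have n1 : n ≤ n ^ (2 * s + 3) := Nat.le_self_pow (by omega) _
  have n2 : (2 : ℝ) ^ n ≤ 2 ^ n ^ (2 * s + 3) := pow_le_pow_right₀ one_le_two n1
  refine ⟨P', ⟨ad_ok P l Q hp.ok hb.ok.old.ok.ne (fun z => ?_) fun z m k => ?_, ?_, ?_⟩, ?_⟩
  · obtain ⟨a, m, -⟩ := mem_image.1 (mem_filter.1 z.2.2).2
    exact card_ne_zero_of_mem m
  · exact hh z.1 z.2.1 (right_ne_zero_of_mul ((coeff_smul _ _ _).symm.trans_ne k))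
  · refine le_trans ?_ (num1 hb.two)
    change Fintype.card (P.N ⊕ D × Wx) ≤ _
    rw [Fintype.card_sum, Fintype.card_prod, Fintype.card_coe]
    exact Nat.add_le_add hp.card (Nat.mul_le_mul hD cW)
  · rintro (a | z)
    exacts [hp.lv a, (hl z).trans_le (hb.wf.le _ (mem_filter.1 z.2.2).1)]
  intro y hy
  obtain ⟨Y, y1, y2, y3⟩ := h y hy
  let Y' : (Bk.ext B.T P').C → Finset τ → ℤ := Sum.elim (fun c => Y (.inl c))
    (Sum.elim (fun a => Y (.inr a)) fun z A =>
      round (q * sy (Bk.ext B.T P).lev (Pi z.1 z.2.1) (wr Y) A))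
  have hY : ∀ c, Y' (j c) = Y c := by rintro (c | a) <;> rfl
  have hY' : (fun c => wr Y' (j c)) = wr Y := funext fun c => funext fun A =>
    congrArg (fun f : Finset τ → ℤ => (f A : ℝ)) (hY c)
  have fb : ∀ ξ, Fb (Bk.ext B.T P') W blk x Y' ξ → Fb (Bk.ext B.T P) W blk x Y fun c => ξ (j c) :=
    fun ξ k c A m o e => (k (j c) A m o (e.trans (hj c).symm)).trans (by rw [hY])
  refine ⟨Y', y1, ?_, fun d => ?_⟩
  · rintro (a | z) A m o e
    · exact ((congrArg _ ((u1 _ (.inr a) A).trans (by rw [hY']))).trans_le (y2 a A m o e)).trans n2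
    · rw [u2 _ z A (e.trans (hl z)), hY', abs_sub_comm]
      exact (abs_sub_round _).trans (le_trans (by norm_num) (one_le_pow₀ one_le_two))
  obtain ⟨I, i1, i2, i3⟩ := y3 d
  refine ⟨fun ξ => I (fun c => ξ (j c)) + ∑ U : Wx, ξ (.inr (.inr (d, U))) U.1, ?_, ?_, ?_⟩
  · intro a b ξ1 ξ2 ξ f1 f2 f k
    have : ∀ U : Wx, ξ (.inr (.inr (d, U))) U.1 =
        a * ξ1 (.inr (.inr (d, U))) U.1 + b * ξ2 (.inr (.inr (d, U))) U.1 := fun U =>
      k _ _ (mem_filter.1 U.2).1 (mem_filter.1 U.2).2 (hl (d, U)).symm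
    simp only [this, sum_add_distrib, ← mul_sum]
    rw [i1 a b _ _ _ (fb _ f1) (fb _ f2) (fb _ f) fun c A m o e =>
      k (j c) A m o (e.trans (hj c).symm)]
    ring
  · intro ξ f
    obtain ⟨k, e⟩ := i2 (fun c => ξ (j c)) (fb _ f)
    exact ⟨k + ∑ U : Wx, ξ (.inr (.inr (d, U))) U.1, by
      rw [Int.cast_add, Int.cast_sum, ← e]; rfl⟩
  · intro ξ t f t0 k
    have q1 : (1 : ℝ) ≤ q := by exact_mod_cast hq
    have a := i3 _ t (fb _ f) t0 fun c A m o e => by
      rw [← u1]; exact k (j c) A m o (e.trans (hj c).symm)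
    have b : ∀ U : Wx, |ue (Bk.ext B.T P') ξ (.inr (.inr (d, U))) U.1 / q| ≤ t * 2 ^ (n * s) := by
      intro U
      have m := (mem_filter.1 U.2).1
      have c := k _ _ m (mem_filter.1 U.2).2 (hl (d, U)).symm
      have e : (1 / 2 ^ n : ℝ) ^ #U.1 ≤ ∏ a ∈ U.1, B.la (blk a) := by
        rw [← prod_const]
        exact prod_le_prod (fun _ _ => by positivity) fun a _ => (hb.ok.la (blk a)).1
      have e' : (1 / 2 ^ n : ℝ) ^ s ≤ (1 / 2 ^ n) ^ #U.1 := pow_le_pow_of_le_one (by positivity)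
        (div_le_one_of_le₀ (one_le_pow₀ one_le_two) (by positivity)) (hb.wf.le _ m)
      rw [abs_mul, abs_of_nonneg (le_trans (by positivity) e)] at c
      rw [abs_div, Nat.abs_cast]
      refine (div_le_self (abs_nonneg _) q1).trans ?_
      rw [← div_le_iff₀ (by positivity), pow_mul, div_eq_inv_mul, ← inv_pow, ← one_div]
      exact (mul_le_mul_of_nonneg_right (e'.trans e) (abs_nonneg _)).trans c
    have c : F d (pt B W x P' ξ) - (I (fun c => ξ (j c)) +
        ∑ U : Wx, ξ (.inr (.inr (d, U))) U.1) / q = F d (pt B W x P fun c => ξ (j c)) -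
          ∑ U ∈ Wx, sy (Bk.ext B.T P).lev (Pi d U) (fun c => ξ (j c)) U - I (fun c => ξ (j c)) / q -
          ∑ U : Wx, ue (Bk.ext B.T P') ξ (.inr (.inr (d, U))) U.1 / q := by
      rw [← sum_coe_sort Wx, sum_congr rfl fun U _ => congrArg (· / (q : ℝ)) (u2 ξ (d, U) _ rfl),
        ← sum_div, sum_sub_distrib, ← mul_sum]
      change F d (pt B W x P fun c => ξ (j c)) - _ = _
      field_simp
      ring
    refine (congrArg _ c).trans_le ((abs_sub _ _).trans ((add_le_add a ((abs_sum_le_sum_abs _ _).trans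
      (sum_le_card_nsmul _ _ _ fun U _ => b U))).trans ?_))
    have e : (2 : ℝ) ^ (n * (s + 1) + 1) ≤ 2 ^ n ^ (2 * s + 3) :=
      pow_le_pow_right₀ one_le_two (num2 hb.two)
    have e' : (1 : ℝ) ≤ 2 ^ (n * s) := one_le_pow₀ one_le_two
    rw [card_univ, Fintype.card_coe, nsmul_eq_mul]
    rw [pow_succ, mul_add, mul_one, pow_add] at e
    have : (2 : ℝ) ^ n + #Wx * 2 ^ (n * s) ≤ 2 ^ n ^ (2 * s + 3) := by
      nlinarith [mul_le_mul_of_nonneg_right cW' (zero_le_one.trans e'),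
        mul_le_mul_of_nonneg_left e' (by positivity : (0 : ℝ) ≤ 2 ^ n)]
    nlinarith [mul_le_mul_of_nonneg_left this t0]

end Crest.Agent.N49.Mv

end
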