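import Crest.Agent.N49.Mv.Defs
import Crest.Agent.N49.Md.Syu
import Crest.Agent.N49.Md.Szb
import Crest.Agent.N49.Sw.Tail

/-!
# Row 49 (helper1): most configurations are central (`CNB`)
-/

set_option autoImplicit false

open Matrix MvPolynomial Finset

noncomputable section

namespace Crest.Agent.N49.Mv

open Po Tw Sy Md Rm Sw

theorem Cn.exp_le (m : ℕ) : Real.exp (-(Real.pi * (m + 1))) ≤ 1 / 8 * (1 / 2 ^ m) := by
  have h4 : (8 : ℝ) ≤ Real.exp Real.pi := by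
    have a := pow_le_pow_left₀ zero_le_two (show 2 ≤ Real.exp 1 by
      linarith [Real.add_one_le_exp 1]) 3
    rw [← Real.exp_nat_mul] at a
    exact le_trans (by norm_num) (a.trans (Real.exp_le_exp.2 (by
      push_cast; linarith [Real.pi_gt_three])))
  have e : Real.exp (Real.pi * (m + 1)) = Real.exp Real.pi ^ (m + 1) := by
    rw [← Real.exp_nat_mul, mul_comm]; push_cast; rfl
  have h5 : (8 : ℝ) * 2 ^ m ≤ Real.exp Real.pi ^ (m + 1) := by
    rw [pow_succ']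
    exact mul_le_mul h4 (pow_le_pow_left₀ zero_le_two (by linarith) m) (by positivity)
      (by linarith)
  rw [Real.exp_neg, e, one_div_mul_one_div, one_div]
  exact inv_anti₀ (by positivity) h5

theorem Cn.tail {τ : Type} (V : TS τ) (h : V.Tri) (m : ℕ) {N : ℕ}
    (eN : Fintype.card V.C = N) {c : ℝ} (ec : c = 1 + 1 / (N : ℝ))
    (h' : (V.setK (c • V.K)).Tri) (m1 : V.Mas (1 / 2)) (m2 : (V.setK (c • V.K)).Mas (1 / 2)) :
    V.P {y | ∃ p, (N + 1) * (m + 1) * V.K p p < V.u (zc y) p ^ 2} ≤ 1 / 2 ^ m := by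
  rcases isEmpty_or_nonempty V.C with hC | hC
  · rw [Set.eq_empty_of_forall_notMem (s := {y | ∃ p, _}) fun y ⟨p, _⟩ => hC.elim p, TS.P_empty]
    positivity
  have hN : 0 < N := eN ▸ Fintype.card_pos
  have hp : (0 : ℝ) < N := Nat.cast_pos.2 hN
  have hc : 0 < c := by rw [ec]; positivity
  set V' := V.setK (c • V.K) with eV
  set s : Set (V.C → ℤ) := {y | ∃ p, (N + 1) * (m + 1) * V.K p p < V.u (zc y) p ^ 2}
  set E := Real.exp (-(Real.pi * (m + 1)))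
  have w : ∀ y, V.wt y * s.indicator 1 y ≤ E * V'.wt y := fun y => by
    by_cases hy : y ∈ s
    · obtain ⟨p, hp'⟩ := id hy
      have k := Ta.coord_sq h.pd (V.u (zc y)) p
      have kp : 0 < V.K p p := h.pd.diag_pos
      have q : ((N : ℝ) + 1) * (m + 1) < qf V.K⁻¹ (V.u (zc y)) := by
        by_contra z
        nlinarith [mul_le_mul_of_nonneg_left (not_lt.1 z) kp.le]
      rw [Set.indicator_of_mem hy, Pi.one_apply, mul_one]
      change gs V.K⁻¹ (V.u (zc y)) ≤ E * gs (c • V.K)⁻¹ (V.u (zc y))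
      rw [inv_smul' h.pd hc.ne', gs, gs, qf_smul, ← Real.exp_add]
      refine Real.exp_le_exp.2 ?_
      have e : c⁻¹ = 1 - 1 / ((N : ℝ) + 1) := by rw [ec]; field_simp; ring
      have q' : (m : ℝ) + 1 ≤ 1 / ((N : ℝ) + 1) * qf V.K⁻¹ (V.u (zc y)) := by
        rw [one_div_mul_eq_div, le_div_iff₀ (by positivity)]; linarith
      rw [e]
      nlinarith [mul_le_mul_of_nonneg_left q' Real.pi_pos.le]
    · rw [Set.indicator_of_notMem hy, mul_zero]
      exact mul_nonneg (Real.exp_pos _).le (V'.wt_pos y).le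
  have s1 : V.S (s.indicator 1) ≤ E * V'.Z := by
    rw [TS.Z, ← tsum_mul_left]
    exact (h.sm (.ind s)).tsum_le_tsum w (h'.summable.mul_left E)
  have z1 : V'.Zc = (√c) ^ N * V.Zc := by
    rw [TS.Zc_eq, TS.Zc_eq]
    change dt (c • V.K)⁻¹ / |V.A.det| = _
    rw [inv_smul' h.pd hc.ne', dt_smul (inv_pos.2 hc).le, Real.sqrt_inv, inv_inv, mul_div_assoc,
      eN]
  have z0 := h.Zc_pos
  have z2 : V'.Zc ≤ 2 * V.Zc := z1 ▸ mul_le_mul_of_nonneg_right (ec ▸ Ta.sqrt_pow N hN) z0.le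
  have z3 := (abs_le.1 m1).1
  have z4 := (abs_le.1 m2).2
  have z5 : V'.Z ≤ 3 * V.Zc := by linarith
  have e1 : E ≤ 1 / 8 * (1 / 2 ^ m) := Cn.exp_le m
  have e0 : (0 : ℝ) < 1 / 2 ^ m := by positivity
  rw [TS.P, TS.E, div_le_iff₀ h.Z_pos]
  calc V.S (s.indicator 1) ≤ 1 / 8 * (1 / 2 ^ m) * (3 * V.Zc) :=
        s1.trans (mul_le_mul e1 z5 h'.Z_pos.le (by positivity))
    _ ≤ _ := by nlinarith [mul_le_mul_of_nonneg_left z3 e0.le, mul_pos e0 z0]

theorem Cn.num {N k m : ℕ} (h : N ≤ 2 ^ k) : (N + 1) * (m + 1 + 1) ≤ (2 ^ (k + (m + 1))) ^ 2 := by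
  have a : 1 ≤ 2 ^ k := Nat.one_le_two_pow
  have b : m < 2 ^ m := Nat.lt_two_pow_self
  have c : (N + 1) * (m + 1 + 1) ≤ (2 * 2 ^ k) * (2 * 2 ^ m) := Nat.mul_le_mul (by omega) (by omega)
  have d : 1 ≤ 2 ^ k * 2 ^ m := Nat.mul_pos a (by omega)
  rw [pow_add, pow_succ 2 m]
  generalize 2 ^ k = x at *
  generalize 2 ^ m = y at *
  calc _ ≤ 4 * (x * y) * 1 := by linarith
    _ ≤ 4 * (x * y) * (x * y) := Nat.mul_le_mul_left _ d
    _ = _ := by ring

theorem cnb : CNB := by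
  intro M C hM τ L _ _ _ _ B W blk s h n k m a eM o hW hn ha hk rg
  subst eM
  have sz := Sb.mr_sz (blk := blk) (fun ℓ => ⟨Su.la_pos o ℓ, (o.la ℓ).2⟩) hn ha
    (Swt.dn_ind hW.dw) (Sb.img hW)
  have hs := o.old.stg
  have ad := hs.adm sz.toOk
  have t := TS.tw_tri hs.cl ad sz.toOk
  have hm : B.T.HM B.st n a (1 / 2) := fun τ S Ψ ad sz =>
    hM _ _ _ S _ Ψ n a _ ⟨hs, ad, by norm_num, by norm_num, rg, sz⟩
  rw [syp τ L B W blk s h _ o hW]
  rcases m with _ | m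
  · simpa using t.P_le_one _
  obtain ⟨g, f, i, j, v, -, u⟩ := syu τ L B W blk s h _ o hW (Swt.dn_ind hW.dw) subset_rfl
  have w := Ta.wide_mas (c := 1 + 1 / (Fintype.card (B.SC W) : ℝ)) hs ad sz
    (le_add_of_nonneg_right (by positivity)) hm
  refine le_trans (t.P_mono fun y hy => ?_) (Cn.tail _ t (m + 1)
    (Fintype.card_congr (Equiv.ofBijective g ⟨i, j rfl⟩)).symm rfl w.1
    ((TS.lw_mas hs ad sz.toOk).1 (hm _ _ _ ad sz)) w.2)
  obtain ⟨c, hc⟩ := not_forall.1 hy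
  refine ⟨g c, ?_⟩
  have e : TT.cf (L := L) (fun w : B.SC W => wv blk B.la B.T y w.1.1 (ind w.1.2)) =
      Sum.elim (fun w' => zc y (g w')) fun _ => 1 := by
    rw [funext (v ℤ y)]; rfl
  rw [e, u, not_le, ← (f c).2] at hc
  have kp := Su.kw_pos blk B.la (Su.la_pos o) (g c).1.2.1
  have eK : (B.T.tw (mr blk B.la (W.image ind)) (B.T.tw0 _)).K (g c) (g c) =
      (kw blk B.la (g c).1.2.1 ^ 2)⁻¹ := by
    change B.T.K _ _ * (mr blk B.la (W.image ind)).K _ _ = _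
    rw [o.old.K, Su.mr_K, one_apply_eq, diagonal_apply_eq, one_mul]
  have a1 := pow_lt_pow_left₀ hc (by positivity) two_ne_zero
  have a2 : ((Fintype.card (B.SC W) : ℝ) + 1) * ((m + 1 : ℕ) + 1) ≤ (2 ^ (k + (m + 1))) ^ 2 := by
    exact_mod_cast Cn.num hk
  rw [sq_abs, mul_pow] at a1
  rw [eK, ← div_eq_mul_inv, div_lt_iff₀ (by positivity)]
  linarith

end Crest.Agent.N49.Mv

end
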