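import Crest.Agent.N49.Mv.Move
import Crest.Agent.N49.Md.Morw

/-!
# Row 49 (helper57): dilation frames
-/

set_option autoImplicit false
set_option linter.unusedSectionVars false

open Finset

noncomputable section

namespace Crest.Agent.N49.Mv

open Po Tw Sy Sd Md Rm

/-- no pending family -/
def nil (C : Type) : Bk C Unit := ⟨Empty, Empty.elim, Empty.elim, Empty.elim⟩

/-- **a frame whose multiplier is divisible by `q`** -/
def DILF (s M : ℕ) : Prop := ∃ e : ℕ, ∀ K' : ℕ, ∃ K : ℕ, ∀ (τ L : Type) [Fintype τ] [DecidableEq τ]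
  [Fintype L] [DecidableEq L] (B : Bs L) (W : Finset (Finset τ)) (blk : τ → L) (_ : L) (n q : ℕ)
  (H : Set (B.SC W → ℤ)), Sb B W blk s n → B.M = M → 1 ≤ q → q ≤ 2 ^ n →
  1 / 2 ^ n ≤ (B.SY W blk).pr H → B.Rg 1 (n ^ K) (1 / 2 ^ n ^ K) (1 / 2 ^ n ^ K) →
  ∃ (f : Fr B.T τ L) (ν : ℕ) (H' : Set (f.SC W → ℤ)), f.Ok s (n ^ K) ∧
    f.M = mM s M ∧ f.θ.St B.st f.st ∧ f.Fw ν 0 ∧ q ∣ ν ∧ Fintype.card f.T.C ≤ 2 ^ n ^ e ∧
    f.Rg 1 (n ^ K') (1 / 2 ^ n ^ K') (1 / 2 ^ n ^ K') ∧ Ov (ka B W blk f) H' H ∧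
    1 / 2 ^ n ^ e ≤ (f.SY W blk).pr H' ∧
    Mor (f.SY W blk) (B.SY W blk) (ka B W blk f) (2 ^ n ^ e)

theorem dil {s M : ℕ} (h : MOVE s M) : DILF s M := by
  obtain ⟨e, h⟩ := h
  refine ⟨e + s + 2, fun K' => (h K').imp fun K h τ L _ _ _ _ B W blk x n q H sb hM q1 q2 pH rg => ?_⟩
  obtain ⟨f, ν, P', H', a1, a2, a3, a4, a5, a6, a7, a8, a9, -⟩ := h τ L B W blk x (nil _) n 0 q H
    Empty Empty.elim sb hM ⟨⟨fun a => a.elim, fun a => a.elim, fun a => a.elim, fun a => a.elim⟩,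
      Nat.zero_le _, fun a => a.elim⟩ (Nat.zero_le _) q1 q2 pH rg fun y _ =>
      ⟨Sum.elim (fun F A => if k : B.st F < B.M + 1 ∧ A ∈ W ∧ #A = B.T.lev F then y ⟨(F, A), k⟩
        else 0) fun _ _ => 0, fun w => dif_pos w.2, fun a => a.elim, fun d => d.elim⟩
  have n2 := sb.two
  have b : n ^ e ≤ n ^ (e + s + 1) := pow_mono' n2 (by omega)
  have c : n ^ e + 0 + (n + 0) * s ≤ n ^ (e + s + 2) := by
    have := (lin_le_pow n2 s 0).trans (pow_mono' n2 (show _ ≤ e + s + 1 by omega))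
    have := Nat.mul_le_mul_left (n ^ (e + s + 1)) n2
    rw [pow_succ _ (e + s + 1), add_zero, add_zero, mul_comm n s]
    omega
  have m := morw sb.ok a1 a4 sb.wf a6
  exact ⟨f, ν, H', a1, a2, a3, a4, a5, a6.trans (Nat.pow_le_pow_right two_pos (by omega)), a7, a8,
    (hf (by omega)).trans a9, m.toLm, m.int, fun N p w r r0 b1 b2 b3 =>
      (m.cube N p w r r0 b1 b2 b3).trans (mul_le_mul_of_nonneg_right (two_pow_mono c) r0)⟩

end Crest.Agent.N49.Mv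

end
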