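import Crest.Agent.N49.Mv.Defs
import Crest.Agent.N49.Md.Syu
import Crest.Agent.N49.Md.Uft
import Crest.Agent.N49.Tn.Alg

/-!
# Row 49 (helper10): the morphism of the frame of a move on configurations
-/

set_option autoImplicit false
set_option linter.unusedSectionVars false

open Matrix MvPolynomial Finset

noncomputable section

namespace Crest.Agent.N49.Mv

open Po Tw Sy Sd Md Rm

namespace Hmm

variable {τ L : Type} [Fintype τ] [DecidableEq τ] [Fintype L] [DecidableEq L]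

/-- the polynomial of a configuration of the ring of the words -/
theorem Yp_wv {T : TS Unit} {p : T.C → Prop} [DecidablePred p] {W : Finset (Finset τ)}
    (blk : τ → L) (la : L → ℝ) (y : T.Cw (mr blk la (W.image ind)) → ℤ) {G : T.C} (hG : p G) :
    Sy.Yp T.lev (sx T p W fun w => ((wv blk la T y w.1.1 (ind w.1.2) : ℤ) : ℝ)) G =
      ∑ q : T.Cw (mr blk la (W.image ind)) with q.1.1 = G, monomial q.1.2.1 (y q : ℝ) := by
  ext μ
  have e : coeff μ (∑ q : T.Cw (mr blk la (W.image ind)) with q.1.1 = G,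
      monomial q.1.2.1 (y q : ℝ)) = ((wv blk la T y G μ : ℤ) : ℝ) := by
    rw [coeff_sum, wv, Int.cast_sum, ← filter_filter, sum_filter (p := fun q => _ = μ)]
    exact sum_congr rfl fun q _ => coeff_monomial _ _ _
  rw [e]
  by_cases k : ∃ A ∈ W, #A = T.lev G ∧ ind A = μ
  · obtain ⟨A, a, b, rfl⟩ := k
    rw [Uf.coeff_Yp, if_pos b, sx, dif_pos ⟨hG, a, b⟩]
  · rw [Sy.Yp, coeff_sum, sum_eq_zero fun B _ => ?_, wv, sum_eq_zero fun q hq => ?_, Int.cast_zero]
    · obtain ⟨A, a, n⟩ := mem_image.1 (mem_of_mem_erase q.1.2.2)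
      obtain ⟨-, rfl, rfl⟩ := mem_filter.1 hq
      exact absurd ⟨A, a, (Swt.deg_ind A).symm.trans ((congrArg _ n).trans (Su.cw_deg blk la q)),
        n⟩ k
    · rw [coeff_monomial]
      split_ifs with n
      · exact dif_neg fun z => k ⟨B, z.2.1, z.2.2, n⟩
      · rfl

theorem prod_deg (c : ℝ) (μ : τ →₀ ℕ) : (μ.prod fun _ k => c ^ k) = c ^ μ.degree := by
  rw [Finsupp.prod, prod_pow_eq_pow_sum, Finsupp.degree_apply]

theorem scl_one' (P : MvPolynomial τ ℝ) : scl (fun _ => (1 : ℝ)) P = P := by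
  ext μ
  rw [Uf.coeff_scl, prod_deg, one_pow, one_mul]

theorem term {α : Type} (I : Finset α) (c : ℝ) (o : τ →₀ ℕ) (μ : α → τ →₀ ℕ) (y : α → ℝ)
    (t : τ →₀ ℕ) : coeff t (monomial o (c ^ o.degree) * scl (fun _ => c)
      (∑ q ∈ I, monomial (μ q) (y q))) =
      c ^ t.degree * ∑ q ∈ I, (if o + μ q = t then 1 else 0) * y q := by
  rw [map_sum, mul_sum, coeff_sum, mul_sum]
  refine sum_congr rfl fun q _ => ?_
  rw [Uf.scl_monomial, monomial_mul, coeff_monomial, prod_deg]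
  split_ifs with e
  · rw [← e, map_add, pow_add]; ring
  · simp

variable {s : ℕ} {W : Finset (Finset τ)} {la : Finset τ → ℝ} {T : TS Unit}

theorem wc_hm {Ψ : T.Twd (fr s W la)} {b : T.Cw (fr s W la) → ℤ} (ho : (dr W).Ok)
    {Y : T.Cw (r3 s W la) → ℤ} {y : (T.tan (fr s W la) Ψ 1 b).Cw (dr W) → ℤ}
    (h1 : ∀ p, Y (T.tE _ _ 1 Ψ b ho (.inl p)) = b p)
    (h2 : ∀ p, Y (T.tE _ _ 1 Ψ b ho (.inr p)) = y p) {G : T.C} {A : Finset τ} (hA : A ∈ W)
    (dA : (ind A).degree = T.lev G) (hp : 0 < T.lev G) :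
    ((wc W la T (T.hm _ _ (mu s W la) Y) G A : ℤ) : ℝ) = ∑ x : T.Tc (fr s W la) with x.1.1 = G,
      (∑ q : (T.tan (fr s W la) Ψ 1 b).Cw (dr W) with q.1.1 = x,
        (if om s W la x.1.2 + q.1.2.1 = ind A then 1 else 0) * (y q : ℝ)) +
      ∑ p : T.Cw (fr s W la) with p.1.1 = G, (if p.1.2.1 = ind A then 1 else 0) * (b p : ℝ) := by
  have ne : ind A ≠ 0 := fun z => hp.ne' (dA.symm.trans (by rw [z, map_zero]))
  let p0 : T.Cw (shp W la) := ⟨(G, ⟨ind A, mem_erase.2 ⟨ne, mem_image_of_mem _ hA⟩⟩),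
    unit_ext ((degree_col _ _).trans dA)⟩
  have e1 : wc W la T (T.hm _ _ (mu s W la) Y) G A = T.hm _ _ (mu s W la) Y p0 :=
    sum_eq_single_of_mem p0 (mem_filter.2 ⟨mem_univ _, rfl, rfl⟩) fun x k n =>
      absurd (Subtype.ext (Prod.ext (mem_filter.1 k).2.1 (Subtype.ext (mem_filter.1 k).2.2))) n
  have c : ∀ (P : Prop) [Decidable P] (z : ℤ), (((if P then 1 else 0) * z : ℤ) : ℝ) =
      (if P then 1 else 0) * (z : ℝ) := fun P _ z => by split_ifs <;> simp
  refine (congrArg Int.cast e1).trans ((Int.cast_sum _ _).trans ((TS.sum_tE b Ψ ho G _).trans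
    (congrArg₂ _ (sum_congr rfl fun x _ => sum_congr rfl fun q hq => ?_)
      (sum_congr rfl fun p _ => ?_))))
  · rw [← (mem_flt.1 hq).2]
    exact (congrArg (fun z : ℤ => ((_ * z : ℤ) : ℝ)) (h2 q)).trans (c _ _)
  · exact (congrArg₂ (fun u z : ℤ => ((u * z : ℤ) : ℝ))
      (if_congr (Eq.congr_left (add_zero _)) rfl rfl) (h1 p)).trans (c _ _)

theorem be_cf (b : T.Cw (fr s W la) → ℤ) (G : T.C) (r : Finset τ → ℤ) (ν l : ℕ) {A : Finset τ}
    (hA : A ∈ W) (hl : #A = l) : coeff (ind A) (zr (∑ A ∈ W with #A = l, monomial (ind A) (r A) +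
      ∑ p : T.Cw (fr s W la) with p.1.1 = G, monomial p.1.2.1 ((ν : ℤ) ^ l * b p))) =
      r A + (ν : ℝ) ^ l * ∑ p : T.Cw (fr s W la) with p.1.1 = G,
        (if p.1.2.1 = ind A then 1 else 0) * (b p : ℝ) := by
  rw [coeff_map, coeff_add, coeff_sum, coeff_sum, sum_eq_single_of_mem A
    (mem_filter.2 ⟨hA, hl⟩) fun A' _ n => (coeff_monomial _ _ _).trans
      (if_neg fun z => n (ind_inj z)), coeff_monomial, if_pos rfl, map_add, map_sum, mul_sum]
  refine congrArg _ (sum_congr rfl fun p _ => ?_)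
  rw [coeff_monomial]
  split_ifs <;> simp

end Hmm

open Hmm in
theorem hmm : HMM := by
  intro τ L _ _ _ _ B s h W blk la E ν r Ψ b hp ho Y y o hW h1 h2
  refine funext fun v => ?_
  rcases v with ⟨⟨F, A⟩, k0, hA, hl⟩ | ℓ
  swap
  · rfl
  have dA : (ind A).degree = B.T.lev F := (Swt.deg_ind A).trans hl
  let G : E.T.C := .inl F
  have e2 := wc_hm ho h1 h2 (G := G) hA dA (hp _)
  have e3 : ∀ x : E.T.Tc (fr s W la), x.1.1 = .inl F →
      E.T.ts (fr s W la) (E.st B.st B.M s) (B.M * (s + 1) ^ s) x < mM s B.M + 1 := fun x hx => by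
    have a : E.st B.st B.M s x.1.1 ≤ B.M * (s + 1) ^ s := by
      rw [hx]
      exact (o.old.stg.le F).1.trans (Nat.le_mul_of_pos_right _ (by positivity))
    refine Nat.lt_succ_of_le (Nat.pow_le_pow_right (Nat.succ_pos _) ?_)
    rw [Nat.succ_mul]
    exact add_le_add (Nat.mul_le_mul_right _ a) ((Nat.sub_le _ _).trans (Nat.le_succ _))
  have e5 : ∀ x : B.T.C ⊕ E.N, Sum.elim some (fun _ => none) x = some F ↔ x = .inl F := fun x => by
    cases x <;> simp
  have z : ∀ μ : τ →₀ ℕ, scl (fun _ => (1 : ℝ)) (zr (monomial μ ((ν : ℤ) ^ μ.degree))) =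
      monomial μ ((ν : ℝ) ^ μ.degree) := fun μ => by rw [scl_one', zr, map_monomial]; simp
  refine ((coeff_add _ _ _).trans (congrArg₂ (· + ·) ((congrArg _ (scl_one' _)).trans
    (be_cf b G (r F) ν _ hA hl)) ((coeff_sum _ _ _).trans (sum_congr
      (s₂ := univ.filter fun x : E.T.Tc (fr s W la) => x.1.1 = G)
      (Finset.ext fun x => ⟨fun k => mem_flt.2 ⟨mem_univ _, (e5 _).1 (mem_flt.1 k).2⟩,
        fun k => mem_flt.2 ⟨mem_univ _, (e5 _).2 (mem_flt.1 k).2⟩⟩)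
      fun x hx => (congrArg₂ (fun P Q => coeff (ind A) (P * scl (fun _ => (ν : ℝ)) Q)) (z _)
        (Yp_wv (T := (rf B s W la E ν r Ψ b hp).T) blk (fun _ => 1) y (e3 x (mem_flt.1 hx).2))).trans
          (term _ _ _ _ _ _))))).trans ?_
  change _ = ((r F A + ν ^ B.T.lev F * wc W la E.T (E.T.hm _ _ (mu s W la) Y) G A : ℤ) : ℝ)
  rw [Int.cast_add, Int.cast_mul, Int.cast_pow, Int.cast_natCast, e2, dA, ← mul_sum, add_assoc,
    ← mul_add, add_comm (∑ p ∈ _, _)]
  rfl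

end Crest.Agent.N49.Mv

end
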