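import Crest.Agent.N49.Tn.Mul
import Crest.Agent.N49.Tw.ConH
import Crest.Agent.N49.Tw.Cgen

/-!
# Row 49 (helper90): multiplication of monomial rings is split
-/

set_option autoImplicit false
set_option linter.unusedSectionVars false

open Matrix MvPolynomial Finset

noncomputable section

namespace Crest.Agent.N49.Tw.Sh

open Po

section gen
variable {τ0 τ τ2 : Type} {S0 : Sh Unit τ0} {S : Sh Unit τ} {S2 : Sh Unit τ2}
  {v : Matrix (Option S0.W) (Option S0.W) ℝ} {g : Matrix S2.W S0.W ℤ} {f : Matrix S2.W S.W ℤ}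

/-- the mirror image of `mu_sec`: `f` is a renaming of the words -/
theorem mu_sec1 {n : ℕ} (e : S2.W ≃ S.W) (hf : ∀ w w1, f w w1 = if e w = w1 then 1 else 0)
    (hm : (S0.ten S v).Hm S2 (mu g f)) (hg : S0.Hm0 S2 g) (he : ∀ w, S.dg (e w) = S2.dg w)
    (o0 : S0.Ok) (o : S.Ok) (o2 : S2.Ok)
    (g0 : S0.Gen fun _ => False) (g1 : S.Gen fun _ => False)
    (hK : S2.K = rl (mu g f) * tK S v * (rl (mu g f))ᵀ) (ht : ∀ w z, |mu g f w z| ≤ n) :
    (S0.ten S v).Sec S2 n (mu g f) fun w => Tz.i1 (none, e w) where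
  ok := o2
  hm := hm
  K := hK
  sec w w' := (mu_i1 o2 w _).trans ((hf _ _).trans (if_congr
    ⟨fun k => e.injective k, fun k => k ▸ rfl⟩ rfl rfl))
  ht := ht
  gen (κ : TW S0 S → ℤ) hκ (x : TW S0 S) hx := by
    obtain ⟨a, c, a1, c1, a2, c2, k⟩ :=
      ten_gen2 o0 o (((lgen _ _ _).1 _).1 g0) (((lgen _ _ _).1 _).1 g1) κ hx
    have d : a.degree + c.degree = (S0.ten S v).dg x := (congrArg₂ _ a1 c1).trans (ten_dg x).symm
    clear a1 c1
    by_contra n
    push Not at n
    induction ha : a.degree generalizing a c with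
    | zero =>
      obtain rfl := (Finsupp.degree_eq_zero_iff _).1 ha
      refine k (sum_eq_zero fun y _ => ?_)
      rcases y with ⟨⟨_ | w, _ | w1⟩, ne⟩
      · exact absurd rfl ne
      · obtain ⟨w, rfl⟩ := e.surjective w1
        exact mul_eq_zero_of_left (hκ w) _
      · simp [Xt.ru_zero o0]
      · simp [Xt.ru_zero o0]
    | succ l ih =>
      obtain ⟨w0, hw⟩ := Finsupp.support_nonempty_iff.2 fun z : a = 0 => by
        rw [z, map_zero] at ha; omega
      obtain ⟨a', rfl⟩ : ∃ a', a = Finsupp.single w0 1 + a' := exists_add_of_le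
        (Finsupp.single_le_iff.2 (Nat.one_le_iff_ne_zero.2 (Finsupp.mem_support_iff.1 hw)))
      have a3 : ∀ w ∈ a'.support, S0.dg w = 1 := fun w k => a2 w (Finsupp.mem_support_iff.2 fun z =>
        Finsupp.mem_support_iff.1 k (Nat.add_eq_zero_iff.1 z).2)
      rw [map_add, Finsupp.degree_single] at ha d
      have := n (i0 S w0) (jn a' c) (by rintro ⟨w, z⟩; cases z)
        ((ten_dg _).trans (a2 w0 hw))
        ((congrArg (· + 1) (jn_degree a' c)).trans (by omega))
        fun y hy => (ten_dg y).trans (jn_td a3 c2 y hy)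
      have e1 : Finsupp.single (i0 S w0) 1 + jn a' c = jn (Finsupp.single w0 1 + a') c := by
        rw [← zero_add c, jn_add, zero_add]; simp [jn]
      have e2 : ∀ w, Finsupp.single (Tz.i1 (none, w)) 1 + jn a' c =
          jn a' (Finsupp.single w 1 + c) :=
        fun w => by rw [← zero_add a', jn_add, zero_add]; simp [jn]
      have e3 : ∀ y a c, Tz.rt y (jn a c) = S0.ru y.1.1 a * S.ru y.1.2 c := r_jn (v := v)
      replace this : ∑ y : TW S0 S, κ y * (Tz.rt y (Finsupp.single (i0 S w0) 1 +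
        jn a' c) - ∑ w, mu g f w (i0 S w0) * Tz.rt y
          (Finsupp.single (Tz.i1 (none, e w)) 1 + jn a' c)) = 0 := this
      simp only [e1, e2, e3, mu_i0 o2, mul_sub, sum_sub_distrib, mul_sum] at this
      rw [sub_eq_zero, sum_comm] at this
      refine k (this.trans (sum_eq_zero fun w _ => ?_))
      by_cases z : g w w0 = 0
      · simp [z]
      · simp only [mul_left_comm _ (g w w0)]
        rw [← mul_sum]
        refine mul_eq_zero_of_right _ (of_not_not fun k' => ih a' (Finsupp.single (e w) 1 + c) a3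
          (fun w' k => ?_) k' (by rw [map_add, Finsupp.degree_single]; omega) (by omega))
        classical
        rcases mem_union.1 (Finsupp.support_add k) with k | k
        · rw [mem_singleton.1 (Finsupp.support_single_subset k), he, hg.dg _ _ z, a2 w0 hw]
        · exact c2 w' k

end gen

variable {τ : Type} [Fintype τ] [DecidableEq τ] {U U' : Finset (τ →₀ ℕ)}
  {K K' K2 : (τ →₀ ℕ) → (τ →₀ ℕ) → ℝ}

variable (U U') in
/-- the same monomials -/
def pj : Matrix (MW U') (MW U) ℤ := Matrix.of fun w' w => if w'.1 = w.1 then 1 else 0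

theorem smat_id (ν μ : τ →₀ ℕ) :
    smat (fun a b : τ => if a = b then (1 : ℤ) else 0) ν μ = if ν = μ then 1 else 0 := by
  have : lsub (R := ℤ) (fun a b : τ => if a = b then (1 : ℤ) else 0) = AlgHom.id ℤ _ :=
    algHom_ext fun a => by simp [lsub]
  rw [smat, this, AlgHom.id_apply, coeff_monomial]
  exact if_congr eq_comm rfl rfl

theorem pj_hm (h : Dn U') (k : U' ⊆ U) :
    (mono (fun _ => ()) U 0 K).Hm0 (mono (fun _ => ()) U' 0 K') (pj U U') := by
  have := (hm_mono (Kw := K) (Kw' := K') (col := fun _ => ()) (col' := fun _ => ()) (ε := 0)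
    (ε' := 0) (W := U) (φ := fun a b : τ => if a = b then (1 : ℤ) else 0) h
    ⟨fun _ _ _ => rfl, fun ν a μ z => by
      rw [smat_id] at z; exact (of_not_not fun n => z (if_neg n) : ν = μ) ▸ k a,
      fun _ => by simp⟩).hm0
  rwa [show smm (fun _ => ()) U 0 K (mono (fun _ => ()) U' 0 K')
    (fun a b : τ => if a = b then (1 : ℤ) else 0) = pj U U' from
    Matrix.ext fun w' w => smat_id _ _] at this

variable (U U') in
/-- the ring map of `pj` -/
def pA : MvPolynomial (MW U) ℤ →ₐ[ℤ] MvPolynomial (MW U') ℤ :=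
  aeval fun w => ∑ w', pj U U' w' w • X w'

theorem rz_pj (o : Option (MW U)) :
    rz U' ℤ (pA U U' (monomial (o.elim 0 fun w => Finsupp.single w 1) 1)) =
      if o.elim 0 Subtype.val ∈ insert 0 U' then monomial (o.elim 0 Subtype.val) 1 else 0 := by
  rcases o with _ | w
  · simp
  · have : ∑ w' : MW U', (if w'.1 = w.1 then (monomial w'.1 1 : MvPolynomial τ ℤ) else 0) =
        if w.1 ∈ insert 0 U' then monomial w.1 1 else 0 := by
      rw [sum_coe_sort (U'.erase 0) fun ν => if ν = w.1 then (monomial ν 1 : MvPolynomial τ ℤ)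
        else 0, sum_ite_eq']
      exact if_congr (by simp [w.ne]) rfl rfl
    refine Eq.trans ?_ this
    change rz U' ℤ (pA U U' (X w)) = _
    rw [pA, aeval_X, map_sum]
    refine sum_congr rfl fun w' _ => ?_
    rw [map_zsmul, rz, aeval_X, pj, of_apply, ite_smul, one_smul, zero_smul]

theorem coeff_pj (h : Dn U') {ν : τ →₀ ℕ} (k : ν ∈ U') (a b : τ →₀ ℕ) :
    coeff ν ((if a ∈ insert 0 U' then monomial a 1 else 0 : MvPolynomial τ ℤ) *
      if b ∈ insert 0 U' then monomial b 1 else 0) = if a + b = ν then 1 else 0 := by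
  by_cases e : a + b = ν
  · rw [if_pos (mem_insert_of_mem (h _ k a (e ▸ le_self_add))),
      if_pos (mem_insert_of_mem (h _ k b (e ▸ le_add_self))), monomial_mul, coeff_monomial, one_mul]
  · rw [if_neg e]
    split_ifs
    · rw [monomial_mul, coeff_monomial, if_neg e]
    all_goals simp

theorem mu_pj (h : Dn U') (w : MW U') (z : TW (mono (fun _ => ()) U 0 K)
    (mono (fun _ => ()) U' 0 K')) :
    mu (S2 := mono (fun _ => ()) U' 0 K2) (pj U U') (pj U' U') w z =
      if z.1.1.elim 0 Subtype.val + z.1.2.elim 0 Subtype.val = w.1 then 1 else 0 :=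
  (cf_rz w _).trans ((congrArg (coeff w.1) ((map_mul (rz U' ℤ) _ _).trans
    (congrArg₂ (· * ·) (rz_pj z.1.1) (rz_pj z.1.2)))).trans (coeff_pj h w.mem _ _))

end Crest.Agent.N49.Tw.Sh

end
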