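import Crest.Agent.N49.Mv.Defs
import Crest.Agent.N49.Mv.Lift0
import Crest.Agent.N49.Md.Szb
import Crest.Agent.N49.Tw.Mono

/-!
# Row 49 (helper90): centre plus direction (leaf LIFT)
-/

set_option autoImplicit false
set_option linter.unusedSectionVars false

open Matrix MvPolynomial Finset

noncomputable section

namespace Crest.Agent.N49.Mv

open Po Tw Sy Tw.Sh

namespace Lf

variable {τ : Type} [Fintype τ] [DecidableEq τ] {s n : ℕ} {W : Finset (Finset τ)}
  {la : Finset τ → ℝ}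

theorem msz {U : Finset (τ →₀ ℕ)} (h : Dn U) {v : (τ →₀ ℕ) → ℝ} (k : ∀ μ ∈ U, 1 ≤ v μ)
    (c : #U ≤ n) : (Sh.mono (fun _ => ()) U 0 (dk v)).Sz n 1 :=
  Sh.mono_sz h (kb_dk (b := ∑ μ ∈ U, v μ) fun μ e => ⟨k μ e,
    single_le_sum (fun ν a => zero_le_one.trans (k ν a)) e⟩) one_pos (Sh.dk_blk _) c

theorem img (h : ∀ A ∈ W, #A ≤ s) : W.image ind ⊆ full τ s := fun μ k => by
  obtain ⟨B, hB, rfl⟩ := mem_image.1 k
  exact mem_full.2 ((Md.Sb.deg_ind' B).trans_le (h B hB))

theorem mu_eq (h : Dw W) : Mv.mu s W la = Sh.mu (S0 := fr s W la) (S := dr W) (S2 := shp W la)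
    (pj (full τ s) (W.image ind)) (pj (W.image ind) (W.image ind)) :=
  Matrix.ext fun w z => (mu_pj h.dn w z).symm

theorem cnt (h : Dw W) (w : MW (W.image ind)) :
    ∑ u : MW (W.image ind), (if u.1 ≤ w.1 then (1 : ℝ) else 0) = 2 ^ #w.1.support - 1 := by
  obtain ⟨A, hA, e⟩ := mem_image.1 w.mem
  rw [sum_coe_sort ((W.image ind).erase 0) fun ν => if ν ≤ w.1 then (1 : ℝ) else 0, ← e,
    sum_boole]
  have : ((W.image ind).erase 0).filter (· ≤ ind A) = (A.powerset.erase ∅).image ind := by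
    ext ν
    simp only [mem_filter, mem_erase, mem_image, mem_powerset]
    refine ⟨fun ⟨⟨a, _⟩, c⟩ => ⟨_, ⟨fun z => a (Finsupp.support_eq_empty.1 z), (ind_of_le c).1⟩,
      (ind_of_le c).2⟩, ?_⟩
    rintro ⟨B, ⟨a, b⟩, rfl⟩
    refine ⟨⟨fun z => a (ind_eq_zero.1 z), B, h A hA B b, rfl⟩, fun i => ?_⟩
    simp only [ind_apply]
    split_ifs with p q
    exacts [le_rfl, absurd (b p) q, zero_le_one, le_rfl]
  rw [this, card_image_of_injective _ fun _ _ => ind_inj, card_erase_of_mem (by simp),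
    card_powerset, Nat.cast_sub Nat.one_le_two_pow]
  simp [ind]

/-- the variances of the product -/
def kz (z : TW (fr s W la) (dr W)) : ℝ :=
  z.1.2.elim (z.1.1.elim 0 fun w => (fr s W la).K w w) fun _ => 1

theorem tK_eq : tK (S0 := fr s W la) (dr W) 1 = diagonal (kz (s := s) (W := W) (la := la)) := by
  ext ⟨⟨o, w⟩, a⟩ ⟨⟨o', w'⟩, a'⟩
  rw [diagonal_apply]
  rcases w with _ | w <;> rcases w' with _ | w'
  · rcases o with _ | o
    · exact absurd rfl a
    rcases o' with _ | o'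
    · exact absurd rfl a'
    by_cases e : o = o'
    · subst e; rw [if_pos rfl]; rfl
    · rw [if_neg (by simpa using e)]; exact if_neg fun z => e (Subtype.ext z)
  · rw [if_neg (by simp)]; rfl
  · rw [if_neg (by simp)]; rfl
  · change (if o = o' then (1 : ℝ) else 0) * (if w.1 = w'.1 then ((1 : ℝ) ^ 2)⁻¹ else 0) =
      if _ then 1 else 0
    by_cases e' : w = w'
    · by_cases e : o = o' <;> simp [e, e']
    · rw [if_neg fun z => e' (Subtype.ext z), mul_zero, if_neg (by simp [e'])]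

theorem one_o (h : ∀ A ∈ W, #A ≤ s) (w u : MW (W.image ind)) :
    ∑ o : Option (fr s W la).W, (if om s W la o + u.1 = w.1 then (1 : ℝ) else 0) =
      if u.1 ≤ w.1 then 1 else 0 := by
  split_ifs with k
  · obtain ⟨c, e⟩ := exists_add_of_le k
    have : ∃ o, om s W la o = c := by
      by_cases z : c = 0
      · exact ⟨none, z.symm⟩
      · exact ⟨some ⟨c, mem_erase.2 ⟨z, dn_full _ (img h w.mem) _ (e ▸ le_add_self)⟩⟩, rfl⟩
    obtain ⟨o, rfl⟩ := this
    rw [sum_eq_single o (fun o' _ n => if_neg fun z => n ?_) (by simp), if_pos (by rw [e, add_comm])]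
    rw [e, add_comm, add_right_inj] at z
    rcases o with _ | o <;> rcases o' with _ | o'
    exacts [rfl, absurd z (MW.ne o'), absurd z.symm (MW.ne o), congrArg _ (Subtype.ext z)]
  · exact sum_eq_zero fun o _ => if_neg fun z => k (le_add_self.trans_eq z)

theorem tri_apply {A B : Type} [Fintype B] [DecidableEq B] (M : Matrix A B ℤ) (d : B → ℝ)
    (w w' : A) : (rl M * diagonal d * (rl M)ᵀ) w w' = ∑ z, M w z * d z * M w' z := by
  rw [mul_apply]; simp only [mul_diagonal, transpose_apply, rl, map_apply]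

theorem hK (hW : Dw W) (h : ∀ A ∈ W, #A ≤ s) : (shp W la).K =
    rl (Mv.mu s W la) * (r3 s W la).K * (rl (Mv.mu s W la))ᵀ := by
  refine shp_K.trans (Eq.trans ?_ (congrArg (fun K : Matrix (r3 s W la).W (r3 s W la).W ℝ =>
    rl (Mv.mu s W la) * K * (rl (Mv.mu s W la))ᵀ) tK_eq).symm)
  ext (w : MW (W.image ind)) (w' : MW (W.image ind))
  refine Eq.trans ?_ (tri_apply (Mv.mu s W la) kz w w').symm
  by_cases e : w = w'
  · subst e
    refine (diagonal_apply_eq _ _).trans (Eq.trans ?_ (tsplit' _).symm)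
    have a : ∑ u : MW (full τ s), (if u.1 = w.1 then (fr s W la).K u u else 0) =
        (la w.1.support ^ 2)⁻¹ - (2 ^ #w.1.support - 1) := by
      rw [sum_eq_single (⟨w.1, mem_erase.2 ⟨w.ne, img h w.mem⟩⟩ : MW (full τ s))
        (fun u _ n => if_neg fun z => n (Subtype.ext z)) (by simp), if_pos rfl]
      exact (if_pos rfl).trans (if_pos w.mem)
    have b := (sum_congr rfl fun u _ => one_o (la := la) h w u).trans (cnt hW w)
    refine (sub_add_cancel _ _).symm.trans (congrArg₂ (· + ·) (a.symm.trans ?_)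
      (b.symm.trans (sum_comm.trans (Eq.trans ?_ (Fintype.sum_prod_type _).symm))))
    · refine sum_congr rfl fun u _ => ?_
      change _ = ((if u.1 + 0 = w.1 then 1 else 0 : ℤ) : ℝ) * (fr s W la).K u u *
        ((if u.1 + 0 = w.1 then 1 else 0 : ℤ) : ℝ)
      rw [add_zero]; split_ifs <;> simp
    · refine sum_congr rfl fun o _ => sum_congr rfl fun u _ => ?_
      change _ = ((if om s W la o + u.1 = w.1 then 1 else 0 : ℤ) : ℝ) * 1 *
        ((if om s W la o + u.1 = w.1 then 1 else 0 : ℤ) : ℝ)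
      split_ifs <;> simp
  · refine (diagonal_apply_ne _ e).trans (sum_eq_zero fun z _ => ?_).symm
    rw [Mv.mu, of_apply, of_apply]
    split_ifs with p q
    · exact absurd (Subtype.ext (p.symm.trans q)) e
    all_goals simp

theorem pu_X {τ1 τ2 : Type} {S : Sh Unit τ1} {S' : Sh Unit τ2} {φ : Matrix S'.W S.W ℤ} {w : S.W}
    {u : S'.W} (h : ∀ w', φ w' w = if w' = u then 1 else 0) : S.pu S' φ (X w) = X u :=
  (aeval_X _ _).trans (by simp [el, h])

theorem pu_C {τ1 τ2 : Type} {S : Sh Unit τ1} {S' : Sh Unit τ2} {φ : Matrix S'.W S.W ℤ} (a : ℝ) :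
    S.pu S' φ (C a) = C a := aeval_C _ _

theorem back (h : ∀ A ∈ W, #A ≤ s) : ((r3 s W la).pu (shp W la) (Mv.mu s W la)).comp
    ((rename (R := ℝ) (Sh.i0 (S0 := fr s W la) (dr W))).toRingHom.comp
      ((shp W la).pu (fr s W la) (jm s W la))) = RingHom.id _ := by
  refine ringHom_ext (fun a => ?_) fun w => ?_
  · exact (congrArg _ ((congrArg _ (pu_C a)).trans (rename_C _ _))).trans (pu_C a)
  · let u : (fr s W la).W := ⟨w.1, mem_erase.2 ⟨MW.ne w, img h (MW.mem w)⟩⟩
    exact (congrArg _ ((congrArg _ (pu_X (u := u) fun w' =>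
      (if_congr (Subtype.ext_iff (a1 := w') (a2 := u)).symm rfl rfl :
        (if w'.1 = u.1 then (1 : ℤ) else 0) = _))).trans (rename_X _ _))).trans
        (pu_X (S' := shp W la) (u := w) fun w' =>
        (if_congr ⟨fun z => Subtype.ext ((add_zero _).symm.trans z).symm,
          fun z => z ▸ add_zero _⟩ rfl rfl : (if w.1 + 0 = w'.1 then (1 : ℤ) else 0) = _))

end Lf

open Lf in
/-- **LIFT** -/
theorem lift : LIFT := fun τ _ _ s n W la hW h hn => by
  have h1 : ∀ A ∈ W, #A ≤ s := fun A k => (h A k).1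
  have c := En.card_full τ s
  have c' := (card_le_card (img h1)).trans c
  have lo : ∀ A ∈ W, (2 : ℝ) ^ s ≤ (la A ^ 2)⁻¹ := fun A k => by
    have := (h A k).2.1
    rw [← one_div, le_div_iff₀ (by positivity)]; exact (h A k).2.2
  have z0 : (fr s W la).Sz ((Fintype.card τ + 1) ^ s) 1 := msz dn_full (fun μ _ => by
    split_ifs with k
    · obtain ⟨A, hA, rfl⟩ := mem_image.1 k
      have := lo A hA
      have := pow_le_pow_right₀ (one_le_two (α := ℝ)) (h1 A hA)
      change 1 ≤ (la A ^ 2)⁻¹ - (2 ^ #A - 1); linarith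
    · exact le_rfl) c
  have z1 : (dr W).Sz ((Fintype.card τ + 1) ^ s) 1 := msz hW.dn (fun _ _ => by simp) c'
  have z2 : (shp W la).Sz ((Fintype.card τ + 1) ^ s) 1 := msz hW.dn (fun μ k => by
    obtain ⟨A, hA, rfl⟩ := mem_image.1 k
    exact (one_le_pow₀ one_le_two).trans (lo A hA)) c'
  have tk : (fr s W la).Tk 1 1 := ⟨PosDef.one, fun o o' z => by
    rw [of_not_not fun n => z (one_apply_ne n)], fun x => by simp [qf, dotProduct, sq]⟩
  have e : (Fintype.card τ + 1) ^ s ≤ n := by nlinarith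
  have e1 : 1 ≤ n := le_trans (Nat.one_le_pow _ _ (by omega)) hn
  have g0 : (fr s W la).Hm0 (shp W la) (pj _ _) := pj_hm hW.dn (img h1)
  have g1 : (dr W).Hm0 (shp W la) (pj _ _) := pj_hm hW.dn (Subset.refl (W.image ind))
  refine ⟨⟨z0.mono e le_rfl, z1.mono e le_rfl, z2.mono e le_rfl,
    (tsz _ _ _ _ _ _ _ 1 1 1 1 z0 z1 tk one_pos one_pos le_rfl (by simp)).mono (by rwa [← sq])
      le_rfl, tk, z0.card⟩, ?_, fun T st Ψ a => ⟨a.tp fun w' w z =>
        congrArg Finsupp.degree (of_not_not fun n => z (if_neg n) : w'.1 = w.1), funext fun F => ?_⟩⟩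
  · refine lsec _ _ _ _ _ n _ _ (mu_eq (la := la) hW ▸ mu_sec1 (S0 := fr s W la) (S := dr W)
      (S2 := shp W la) (Equiv.refl _) (fun w w1 => if_congr Subtype.ext_iff.symm rfl rfl)
      (mu_hm g0 g1 z0.toOk z1.toOk z2.toOk ?_) g0 (fun _ => rfl) z0.toOk z1.toOk z2.toOk z0.gen
      z1.gen (mu_eq (la := la) hW ▸ hK hW h1) fun w z => ?_) e1
    · have q : ∀ (U : Finset (τ →₀ ℕ)) K, (Sh.mono (fun _ => ()) U 0 K).ε = 0 := fun U K =>
        funext fun w => sum_eq_zero fun _ _ => ite_self _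
      exact (congrArg₂ (· + ·) ((congrArg _ (q _ _)).trans (mulVec_zero _))
        ((congrArg _ (q _ _)).trans (mulVec_zero _))).trans ((add_zero _).trans (q _ _).symm)
    · refine (congrArg abs (mu_pj hW.dn w z)).trans_le ?_
      split_ifs <;> simp [e1]
  · refine MvPolynomial.ext _ _ fun m => ?_
    simp only [TS.tp, TS.tin, lf, coeff_map]
    exact DFunLike.congr_fun (back h1) _

end Crest.Agent.N49.Mv

end
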