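import Crest.Agent.N49.Mv.Defs
import Crest.Agent.N49.Md.Idf
import Crest.Agent.N49.Rn.Q
import Crest.Agent.N49.Rm.Ar
import Crest.Agent.N49.Rm.Pr
import Crest.Agent.N49.Tw.Mono
import Crest.Agent.N49.Top.Pl

/-!
# Row 49 (helper27): one move from its leaves
-/

set_option autoImplicit false
set_option linter.unusedSectionVars false

open Finset

namespace Crest.Agent.N49.Mv

open Po Tw Sy Sd Md Rm N49.Top

theorem hf {a b : ℕ} (e : a ≤ b) : (1 : ℝ) / 2 ^ b ≤ 1 / 2 ^ a :=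
  one_div_le_one_div_of_le (by positivity) (pow_le_pow_right₀ one_le_two e)

section rg
variable {T : TS Unit} {st : T.C → ℕ} {M s C C' a a' n K : ℕ}

theorem rg_dn (o : Old T st M s) (h : T.RgS st M C a (1 / 2 ^ a) (1 / 2 ^ a)) (hC : C' ≤ C)
    (e : a' ≤ a) : T.RgS st M C' a' (1 / 2 ^ a') (1 / 2 ^ a') :=
  h.mono o.stg.tri (by positivity) (by simpa using hf (Nat.zero_le a)) hC e (hf e) (hf e)

theorem rg_up (o : Old T st M s) (h : T.RgS st M 1 (n ^ K) (1 / 2 ^ n ^ K) (1 / 2 ^ n ^ K))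
    (h2 : 2 ≤ n) (e : (a + 1) * C + a ≤ K) :
    T.RgS st M C (n ^ a) (1 / 2 ^ n ^ a) (1 / 2 ^ n ^ a) := by
  have p : (((n ^ a : ℕ) : ℝ) + 1) ^ C ≤ ((n ^ K : ℕ) + 1) ^ 1 := by
    have b : n ^ a + 1 ≤ n ^ (a + 1) := by
      have : 0 < n ^ a := by positivity
      rw [pow_succ]; nlinarith
    have := (Nat.pow_le_pow_left b C).trans ((pow_mul n _ C).ge.trans
      (Nat.pow_le_pow_right (by omega) (show _ ≤ K by omega)))
    rw [pow_one]; exact_mod_cast this.trans (Nat.le_succ _)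
  have q := hf (Nat.pow_le_pow_right (n := n) (by omega) (show a ≤ K by omega))
  have r : (1 / 2 ^ n ^ K : ℝ) ≤ 1 := by simpa using hf (Nat.zero_le _)
  exact (h.mono' o.stg.tri (by positivity) r p (mul_le_mul p q (by positivity) (by positivity))).mono
    o.stg.tri (by positivity) r le_rfl le_rfl le_rfl q

theorem Hom.card {E E' : Nw T} {ν : ℕ} {x : ℝ} {ρ : E.N → MvPolynomial (T.C ⊕ E'.N) ℤ}
    {G : E.N → MvPolynomial (T.C ⊕ E'.N) ℝ} (h : E.Hom s E' ν x ρ G) (w : E.Wf s) (w' : E'.Wf s) :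
    Fintype.card E'.N ≤ Fintype.card E.N := by
  have k : ∀ E : Nw T, E.Wf s → Fintype.card E.N = ∑ l ∈ Icc 1 s, E.R l := fun E w =>
    card_eq_sum_card_fiberwise (f := E.lv) fun c _ => mem_coe.2 (mem_Icc.2 (w.lv c))
  rw [k E w, k E' w']
  exact sum_le_sum fun l _ => h.R l

end rg

variable {τ L : Type} [Fintype τ] [DecidableEq τ] [Fintype L] [DecidableEq L] {B : Bs L}
  {W : Finset (Finset τ)} {blk : τ → L} {x : L} {P : Bk B.T.C Unit} {s n n' l q : ℕ}

theorem Rx.mono {T : TS Unit} {la : L → ℝ} {Y : T.C → Finset τ → ℤ} {b b' : ℝ}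
    {F : (T.C → Finset τ → ℝ) → ℝ} (h : Rx T W blk la x Y q b F) (e : b ≤ b') :
    Rx T W blk la x Y q b' F :=
  let ⟨I, h1, h2, h3⟩ := h
  ⟨I, h1, h2, fun ξ t a k c => (h3 ξ t a k c).trans (mul_le_mul_of_nonneg_left e k)⟩

theorem RS.mono {H H' : Set (B.SC W → ℤ)} {D : Type} {F : D → Fm L (B.SC W)}
    (h : RS B W blk x P H q n F) (k : H' ⊆ H) (e : n ≤ n') : RS B W blk x P H' q n' F := fun y hy =>
  let ⟨Y, h1, h2, h3⟩ := h y (k hy)
  ⟨Y, h1, fun a A b c d => (h2 a A b c d).trans (pow_le_pow_right₀ one_le_two e),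
    fun d => (h3 d).mono (pow_le_pow_right₀ one_le_two e)⟩

theorem Pn.mono {l' : ℕ} (h : Pn B P n l) (e : n ≤ n') (e' : l ≤ l') : Pn B P n' l' :=
  ⟨h.ok, h.card.trans e, fun a => (h.lv a).trans e'⟩

theorem Sb.mono (h : Sb B W blk s n) (e : n ≤ n') : Sb B W blk s n' :=
  ⟨h.two.trans e, Idf.bs_mono h.ok e, h.wf, h.cC.trans (Nat.pow_le_pow_right two_pos e),
    h.cτ.trans e⟩

theorem card_SC (B : Bs L) (W : Finset (Finset τ)) :
    Fintype.card (B.SC W) ≤ Fintype.card B.T.C * 2 ^ Fintype.card τ :=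
  (Fintype.card_subtype_le _).trans_eq (by simp)

/-- **one move** -/
theorem move_of {s M : ℕ} (hs : 1 ≤ s) (rc : ∀ C', RCN s M C') (nw : NWB) (cn : CNB) (pu : PUL s)
    (rq : ∃ C0, ∀ C, C0 ≤ C → REGNEWQ s M C) (ma : ∃ C, MAST (mM s M) C) : MOVE s M := by
  obtain ⟨C', ma⟩ := ma
  obtain ⟨C, K1, rc⟩ := rc (C' + 1)
  obtain ⟨K3, pu⟩ := pu
  obtain ⟨C0, rq⟩ := rq
  obtain ⟨K2, rq⟩ := rq (C + C0) (by omega)
  obtain ⟨e2, e1, he2⟩ := (show Pl fun n => n ^ K1 + n + (n + 3) + n * (s * n * s) by pl).ge 1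
  obtain ⟨e, he⟩ := show Pl fun n => (n ^ e2) ^ K3 + (n + 3) + n ^ K1 by pl
  refine ⟨e, fun K' => ?_⟩
  obtain ⟨a, a1, ha⟩ := (show Pl fun n => n + 2 + (n + 1) ^ s by pl).ge K'
  obtain ⟨u, hu⟩ := show Pl fun n => (n ^ a) ^ K1 + (n * s + s) + n by pl
  obtain ⟨K, K4, hK⟩ := (show Pl fun n => (n ^ (u * K2) + n) ^ K1 by pl).ge
    ((u * K2 + 1) * (C + C0) + u * K2 + ((a * K1 + 1) * C + a * K1))
  refine ⟨K, fun τ L _ _ _ _ B W blk x P n l q H D F sb hM pn hl q1 q2 hH rg rs => ?_⟩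
  have n2 := sb.two
  subst hM
  have o := sb.ok.old
  specialize he2 n n2
  specialize he n n2
  specialize ha n n2
  specialize hu n n2
  beta_reduce at he hu
  obtain ⟨wf, ct⟩ := nw B.T P s (1 / 2 ^ (n * s + s)) o.ok.toTri pn.ok
    (fun a => (pn.lv a).trans hl) (by positivity) (by simpa using hf (Nat.zero_le _))
  have cN : Fintype.card (P.nw (1 / 2 ^ (n * s + s))).N ≤ n := pn.card
  obtain ⟨E, ν, ρ, G, qν, wf', hom, mu, ct', rg'⟩ := rq B.T B.st _ (n ^ u) q (by omega) q1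
    (q2.trans (Nat.pow_le_pow_right two_pos (by omega))) o wf (hf (by omega))
    (sb.cC.trans (Nat.pow_le_pow_right two_pos (by omega))) (by omega)
    (fun l => (ct l).trans (pow_le_pow_right₀ one_le_two (pn.card.trans (by omega))))
    (by rw [← pow_mul]; exact rg_up o rg n2 (by omega))
  rw [← pow_mul] at mu ct'
  have hν : (ν : ℝ) ^ s * E.μ * 2 ^ (n * s + s) ≤ 1 := (le_div_iff₀ (by positivity)).1 hom.mu
  have ν1 : (1 : ℝ) ≤ ν := by exact_mod_cast hom.one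
  obtain ⟨f, j, H1, fo, fM, fs, fw, fc, fr, fp, ov, hp⟩ := rc τ L B W blk E ν n (n ^ a)
    (n ^ (u * K2) + n) H sb (by omega) (by omega) rfl wf' ((Hom.card hom wf wf').trans cN) hom.one
    (by
      have b : (ν : ℝ) * (1 / 2 ^ n ^ (u * K2)) * 1 ≤ ν ^ s * E.μ * 2 ^ (n * s + s) := by
        have := wf'.pos
        gcongr
        exacts [le_self_pow₀ ν1 (by omega), one_le_pow₀ one_le_two]
      rw [mul_one, mul_one_div] at b
      have := (div_le_one (by positivity)).1 (b.trans hν)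
      exact le_trans (by exact_mod_cast this) (Nat.pow_le_pow_right two_pos (Nat.le_add_right _ n)))
    hν ((hf (by omega)).trans mu)
    (fun l => (ct' l).trans (pow_le_pow_right₀ one_le_two (by omega)))
    (by rw [← pow_mul]; exact rg_up o rg n2 (by omega))
    (rg_dn (nstg s _ _ _ E o wf').1 rg' (by omega) (by omega))
  have f0 : f.toBs.Ok s 0 := ⟨fo.old, fw.la⟩
  have so := Idf.sy_ok f0 sb.wf
  have ce := cn _ (C' + 1) (ma.mono (by omega)) τ L f.toBs W blk s 0 (n ^ a) (n ^ K1 + n) (n + 3)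
    (1 / 2 ^ n ^ a) fM f0 sb.wf ((Nat.pow_le_pow_left (Nat.add_le_add_right sb.cτ 1) s).trans (by omega))
    (hf (by omega)) ((card_SC _ W).trans (by
      rw [pow_add]; exact Nat.mul_le_mul fc (Nat.pow_le_pow_right two_pos sb.cτ)))
    (fr.mono fo.old.stg.tri (by positivity) (by simpa using hf (Nat.zero_le _)) le_rfl le_rfl le_rfl
      (by simpa using hf (show 1 ≤ n ^ a by omega)))
  obtain ⟨P', H', sub, pn', hp', rs', rs1⟩ := pu τ L B W blk x P (n ^ e2) l q ν _ _ H D F E ρ G f j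
    (H1 ∩ {y | (f.SY W blk).Cen (2 ^ (n ^ K1 + n + (n + 3))) y}) (sb.mono (by omega))
    (pn.mono (by omega) le_rfl) hl q1 qν (rs.mono le_rfl (by omega)) wf'
    { hom with l1 := fun c => (hom.l1 c).trans (by
        have b : (Fintype.card (P.nw (1 / 2 ^ (n * s + s))).N + 1) ^
            (s * Fintype.card (P.nw (1 / 2 ^ (n * s + s))).N * s) ≤ (2 ^ n) ^ (s * n * s) :=
          (Nat.pow_le_pow_left ((Nat.succ_le_succ cN).trans Nat.lt_two_pow_self) _).trans
            (Nat.pow_le_pow_right (by positivity) (by gcongr))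
        rw [← pow_mul] at b
        exact_mod_cast b.trans (Nat.pow_le_pow_right two_pos (by omega))) }
    fo fw (fc.trans (Nat.pow_le_pow_right two_pos (by omega))) fp
    (ov.mono Set.inter_subset_left le_rfl)
    fun y hy c => (hy.2 c).trans (pow_le_pow_right₀ one_le_two (by omega))
  refine ⟨f, ν, P', H', Idf.fr_mono o.ok.toTri fo (hK n n2), fM, fs, fw, qν,
    fc.trans (Nat.pow_le_pow_right two_pos (by omega)),
    rg_dn fo.old fr (by omega) (Nat.pow_le_pow_right (by omega) a1),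
    ov.mono (sub.trans Set.inter_subset_left) le_rfl, ?_, pn'.mono (by omega) le_rfl,
    rs'.mono le_rfl (by omega), fun z => (rs1 z).mono le_rfl (by omega)⟩
  have b := (so.pr_inter H1 _).trans hp'
  have c := hf (show n + 2 ≤ n ^ a by omega)
  have d : (1 : ℝ) / 2 ^ (n + 3) ≤ 2 ^ (n ^ e2) ^ K3 * (f.SY W blk).pr H' := by
    refine le_trans ?_ (le_trans (sub_le_sub hp ce) b)
    rw [pow_add, ← div_div] at c ⊢
    linarith
  refine (hf (show (n ^ e2) ^ K3 + (n + 3) ≤ _ by omega)).trans ?_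
  rwa [pow_add, mul_comm, ← div_div, div_le_iff₀' (by positivity)]

end Crest.Agent.N49.Mv
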