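import Crest.Agent.N49.Mv.Defs
import Crest.Agent.N49.Sp.Sp2

/-!
# Row 49 (helper21): pending families are well-formed new families
-/

set_option autoImplicit false

open Matrix MvPolynomial Finset

noncomputable section

namespace Crest.Agent.N49.Mv

open Po Tw Sd

namespace Nb

variable {N : Type} [Fintype N] [DecidableEq N] {lev : N → ℕ} {Z : Matrix N N ℝ}

theorem tri0 (h : ∀ a a', Z a a' ≠ 0 → lev a' < lev a) {v : N → ℝ} :
    ∀ r, (∀ j, lev j < r → ((1 - Z) *ᵥ v) j = 0) → ∀ j, lev j < r → v j = 0 := by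
  intro r
  induction r with
  | zero => intro _ a z; omega
  | succ r ih =>
    intro k a z
    have := k a z
    rw [sub_mulVec, one_mulVec, Pi.sub_apply, sub_eq_zero] at this
    rw [this]
    refine sum_eq_zero fun a' _ => ?_
    by_cases y : Z a a' = 0
    · exact mul_eq_zero_of_left y _
    · exact mul_eq_zero_of_right _ (ih (fun j hj => k j (by omega)) a' (by have := h a a' y; omega))

theorem det_ne (h : ∀ a a', Z a a' ≠ 0 → lev a' < lev a) : (1 - Z).det ≠ 0 := fun e => by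
  obtain ⟨v, v0, k⟩ := Matrix.exists_mulVec_eq_zero_iff.2 e
  exact v0 (funext fun j => tri0 h _ (fun j _ => congrFun k j) j (Nat.lt_succ_self _))

/-- the theta function of a unitriangular lattice -/
theorem th_uni (h : ∀ a a', Z a a' ≠ 0 → lev a' < lev a) :
    Summable (fun n : N → ℤ => gs ((1 - Z)⁻¹ᵀ * (1 - Z)⁻¹) (zc n)) ∧
      ∑' n : N → ℤ, gs ((1 - Z)⁻¹ᵀ * (1 - Z)⁻¹) (zc n) ≤ 2 ^ Fintype.card N := by
  have u : ∀ x, (1 - Z) *ᵥ ((1 - Z)⁻¹ *ᵥ x) = x := fun x => by
    rw [mulVec_mulVec, mul_nonsing_inv _ (det_ne h).isUnit, one_mulVec]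
  let Θ : (N → ℤ) → N → ℝ := fun n => zc n - (1 - Z)⁻¹ *ᵥ zc n
  have e : (fun n : N → ℤ => gs ((1 - Z)⁻¹ᵀ * (1 - Z)⁻¹) (zc n)) = Rw.wt 1 Θ := funext fun n => by
    simp only [Rw.wt, Θ, gs, qf, sub_sub_cancel, one_mulVec, ← mulVec_mulVec]
    rw [dotProduct_mulVec, vecMul_transpose]
  have t : Rw.Tri lev Θ := fun y y' i k => by
    have a := tri0 h (v := (1 - Z)⁻¹ *ᵥ (zc y - zc y')) (lev i) fun j hj => by
      rw [u]; simp [zc, k j hj]
    have b := congrFun (u (zc y - zc y')) i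
    rw [sub_mulVec, one_mulVec, Pi.sub_apply, show (Z *ᵥ ((1 - Z)⁻¹ *ᵥ (zc y - zc y'))) i = 0 from
      sum_eq_zero fun a' _ => (em (Z i a' = 0)).elim (mul_eq_zero_of_left · _)
        fun y => mul_eq_zero_of_right _ (a a' (h _ _ y)), mulVec_sub] at b
    simp only [Θ, Pi.sub_apply] at b ⊢
    linarith
  have b : Rw.Blk lev (1 : Matrix N N ℝ) := fun i j k => one_apply_ne fun e => k (e ▸ rfl)
  have hs : ∀ i, lev i < univ.sup lev + 1 := fun i => Nat.lt_succ_of_le (le_sup (mem_univ i))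
  rw [e, Rw.Z_eq hs]
  refine ⟨Rw.summable_wt' t b PosDef.one, (Rw.Zl_le t b PosDef.one _).trans ?_⟩
  rw [← card_univ, card_eq_sum_card_fiberwise (f := lev) (t := range (univ.sup lev + 1))
    fun i _ => by simpa using hs i, ← prod_pow_eq_pow_sum]
  refine prod_le_prod (fun _ _ => th_nonneg _ _) fun l _ => ?_
  rw [Rw.blk, submatrix_one _ Subtype.val_injective, ← Fintype.card_subtype]
  exact Sp.th_one

omit [DecidableEq N] in
theorem th_sub {M : Matrix N N ℝ} (s : Summable fun n : N → ℤ => gs M (zc n)) (p : N → Prop)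
    [DecidablePred p] : th (M.submatrix (Subtype.val : {n // p n} → N) Subtype.val) 0 ≤
      ∑' n : N → ℤ, gs M (zc n) := by
  refine le_trans (le_of_eq (tsum_congr fun n => ?_)) (tsum_comp_le_tsum_of_inj s
    (fun _ => (gs_pos _ _).le) (i := fun n : {n // p n} → ℤ => glue p n 0) fun n n' e =>
      funext fun i => by simpa [glue, i.2] using congrFun e i)
  have := Rw.qf_sub (p := p) M (zc (glue p n 0))
  rw [show (fun i : {n // p n} => zc (glue p n 0) i) = zc n from
    funext fun i => by simp [zc, glue, i.2]] at this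
  rw [sub_zero, Function.comp_apply, gs, gs, this, qf]
  simp only [dotProduct, mulVec, mul_sum]
  congr 2
  refine sum_congr rfl fun i _ => sum_congr rfl fun j _ => ?_
  by_cases a : p i <;> by_cases b : p j <;> simp [zc, glue, a, b]

end Nb

theorem nwb : NWB := by
  intro T P s μ hT hP hs m0 m1
  let Y : Matrix P.N P.N ℝ := Matrix.of fun a a' => coeff (Finsupp.single (.inr a') 1) (P.Θ a)
  have e : @Eq (Matrix P.N P.N ℝ) (P.nw μ).A (1 - Y) := by
    refine Matrix.ext fun (a a' : P.N) => ?_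
    change coeff (Finsupp.single (.inr a' : T.C ⊕ P.N) 1) (X (.inr a) - P.Θ a) = _
    rw [coeff_sub, coeff_X, Matrix.sub_apply, Matrix.one_apply]
    simp [Y, Finsupp.single_left_inj]
  have y : ∀ a a', Y a a' ≠ 0 → P.rk a' < P.rk a := fun a a' k =>
    hP.tri a a' ((mem_vars_iff_mem_support _).2 ⟨_, mem_support_iff.2 k, by simp⟩)
  have z : ∀ a a', Yᵀ a a' ≠ 0 → univ.sup P.rk - P.rk a' < univ.sup P.rk - P.rk a := fun a a' k => by
    have := y a' a k
    have := le_sup (f := P.rk) (mem_univ a')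
    omega
  have hm : ∀ (a : P.N) (m : T.C ⊕ P.N →₀ ℕ), coeff m (X (.inr a) - P.Θ a) ≠ 0 →
      Finsupp.weight (fun c => (P.wg T.deg c).degree) m = (P.wd a).degree := fun a m k => by
    have : Finsupp.weight (P.wg T.deg) m = P.wd a := by
      by_cases b : coeff m (P.Θ a) = 0
      · exact isWeightedHomogeneous_X ℝ (P.wg T.deg) (.inr a) fun c =>
          k (by rw [coeff_sub, b, c, sub_zero])
      · exact hP.hom a b
    rw [← this, Finsupp.weight_apply, Finsupp.weight_apply, Finsupp.sum, Finsupp.sum, map_sum]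
    simp
  have w : (P.nw μ).lev = fun c => (P.wg T.deg c).degree := funext fun c => by cases c <;> rfl
  refine ⟨⟨m0, m1, fun a => ⟨Nat.pos_of_ne_zero fun k => hP.ne a ((Finsupp.degree_eq_zero_iff _).1 k),
    hs a⟩, fun a m k => w ▸ hm a m k, fun k => Nb.det_ne y (e ▸ k)⟩, fun l => ?_⟩
  have := Nb.th_uni z
  rw [show 1 - Yᵀ = (1 - Y)ᵀ by simp, ← transpose_nonsing_inv, transpose_transpose, ← e] at this
  exact (Nb.th_sub this.1 fun n : P.N => (P.wd n).degree = l).trans this.2

end Crest.Agent.N49.Mv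

end
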