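import Crest.Agent.N49.Mv.Defs
import Crest.Agent.N49.Rf.Rsn
import Crest.Agent.N49.Md.Syu
import Crest.Agent.N49.Md.Txa

/-!
# Row 49 (helper62): residues and new families on a family of words
-/

set_option autoImplicit false
set_option linter.unusedSectionVars false

open Matrix MvPolynomial Finset

noncomputable section

namespace Crest.Agent.N49.Mv

open Po Tw Sy Sd Md Rm

namespace Rs

theorem ae_map {ι ι' R : Type} [CommRing R] [Algebra ℝ R] (Z : ι → MvPolynomial ι' R)
    (P : MvPolynomial ι ℝ) (f : ℝ →+* R) (hf : ∀ x, f x = algebraMap ℝ R x) :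
    aeval Z (MvPolynomial.map f P) = aeval Z P := by
  rw [show f = algebraMap ℝ R from RingHom.ext hf, aeval_map_algebraMap]

theorem lo_sh {ι N R : Type} [CommRing R] [Algebra ℝ R] (a : ℝ) (P : MvPolynomial ι ℝ) (Z : ι → R)
    (Z' : ι ⊕ N → R) (h : ∀ c, Z' (.inl c) = Z c) (f : ℝ →+* R) (hf : ∀ x, f x = algebraMap ℝ R x) :
    C (f a) * rename .inl (aeval (fun c => C (Z c) + X c : ι → MvPolynomial ι R) P) =
      aeval (fun c => C (Z' c) + X c : ι ⊕ N → MvPolynomial (ι ⊕ N) R)
        (MvPolynomial.map f (a • rename .inl P)) := by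
  rw [ae_map _ _ _ hf, map_smul, aeval_rename, Algebra.smul_def, hf]
  refine congrArg (_ * ·) ((comp_aeval_apply _ ((rename Sum.inl).restrictScalars ℝ) P).trans ?_)
  exact congrArg (aeval · P) (funext fun c => by simp [h])

/-- the residue twist of the constant twist is a shift -/
theorem trs_tw0 {τ : Type} {T : TS Unit} (h : T.Ok) (S : Sh Unit τ) {n : ℝ} (hn : n ≠ 0)
    (r : T.Cw S → ℝ) (F : T.C) : T.trs S (fun _ => 1) n r (T.tw0 S) F =
      aeval (fun c => (MvPolynomial.C (T.Yw S (fun p => r p / n ^ T.lev p.1.1) c) + X c :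
        MvPolynomial T.C (MvPolynomial S.W ℝ))) (T.Φ F) := by
  have e : (fun c => MvPolynomial.C (T.Yw S (fun p => 1 * r p) c) +
      MvPolynomial.C (MvPolynomial.C (n ^ T.lev c)) * X c :
        T.C → MvPolynomial T.C (MvPolynomial S.W ℝ)) = fun c =>
      MvPolynomial.C (MvPolynomial.C n) ^ T.lev c *
        (MvPolynomial.C (T.Yw S (fun p => r p / n ^ T.lev p.1.1) c) + X c) := funext fun c => by
    rw [mul_add, ← map_pow, ← map_pow, ← map_mul, TS.Yw, TS.Yw, mul_sum]
    refine congrArg (fun P => MvPolynomial.C P + _) (sum_congr rfl fun p hp => ?_)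
    rw [← mul_assoc, ← map_mul, (mem_filter.1 hp).2, one_mul, mul_div_cancel₀ _ (pow_ne_zero _ hn)]
  rw [TS.trs, TS.tsb, TS.tdl, map_tw0 h, tw0_ok h, ae_map _ _ MvPolynomial.C fun _ => rfl, e,
    aeval_dil (h.hom_lev F), ← mul_assoc, ← map_pow, ← map_pow, ← map_mul, ← map_mul,
    inv_mul_cancel₀ (pow_ne_zero _ hn), map_one, map_one, one_mul]

theorem lo_trs {τ : Type} {T : TS Unit} (h : T.Ok) (E : Nw T) (S : Sh Unit τ)
    (K : Matrix S.W S.W ℝ) {n : ℝ} (hn : n ≠ 0) (r : T.Cw S → ℝ) (y : E.T.Cw (S.setK K) → ℝ)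
    (hy : ∀ p, y (Nold.io E S K p) = r p / n ^ T.lev p.1.1) (F : T.C) :
    E.lo (T.trs S (fun _ => 1) n r (T.tw0 S)) F =
      (aeval (fun c => MvPolynomial.C (E.T.Yw (S.setK K) y c) + X c)
        (MvPolynomial.map MvPolynomial.C (E.Φa (.inl F)) :
          MvPolynomial E.T.C (MvPolynomial (S.setK K).W ℝ)) :
          MvPolynomial E.T.C (MvPolynomial (S.setK K).W ℝ)) := by
  refine (congrArg (fun P => _ * rename Sum.inl P) (trs_tw0 h S hn r F)).trans ?_
  exact lo_sh (N := E.N) (R := MvPolynomial S.W ℝ) E.μ⁻¹ (T.Φ F) _ (E.T.Yw (S.setK K) y)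
    (fun c => (Nold.Yw_io E S K y c).trans (congrArg (T.Yw S · c) (funext hy))) MvPolynomial.C
    fun _ => rfl

variable {τ : Type} [Fintype τ] [DecidableEq τ] {W : Finset (Finset τ)} {la : Finset τ → ℝ}

theorem wc_eq {T : TS Unit} {R : Type} [AddCommMonoid R] (y : T.Cw (shp W la) → R)
    (x : T.Cw (shp W la)) {F : T.C} {A : Finset τ} (e : x.1.1 = F) (e' : x.1.2.1 = ind A) :
    wc W la T y F A = y x :=
  sum_eq_single_of_mem x (mem_filter.2 ⟨mem_univ _, e, e'⟩) fun _ k n => absurd (Subtype.ext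
    (Prod.ext ((mem_filter.1 k).2.1.trans e.symm)
      (Subtype.ext ((mem_filter.1 k).2.2.trans e'.symm)))) n

theorem ind_supp (w : (shp W la).W) : ind w.1.support = w.1 := by
  obtain ⟨A, -, e⟩ := Swt.wd_ex w
  rw [← e]
  rfl

theorem dg_card (w : (shp W la).W) : (shp W la).dg w = #w.1.support :=
  (congrArg Finsupp.degree (ind_supp w).symm).trans (Swt.deg_ind _)

end Rs

open Rs

/-- **residues and new families** -/
theorem resn : RESN := fun τ L _ _ _ _ B W blk s h ν E H o hW w hν => by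
  have t := o.old.stg.cl.1
  have hS : (mr blk B.la (W.image ind)).Ok := Swt.shp_ok (la := fun A => ∏ a ∈ A, B.la (blk a))
    hW.dw fun _ _ => prod_pos fun _ _ => Su.la_pos o _
  have n0 : (ν : ℝ) ≠ 0 := by positivity
  obtain ⟨r, Ψ, -, a, z, -, k⟩ := Nw.resn (S := mr blk B.la (W.image ind))
    (K := (shp W (la1 blk B.la ν E.μ)).K) o.old w hS (o.old.stg.adm hS) hν
    (fun (x x' : (shp W (la1 blk B.la ν E.μ)).W) => by
      rw [Swt.shp_K, Su.mr_K]
      by_cases e : x = x'
      · subst e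
        refine (diagonal_apply_eq _ _).trans (Eq.trans ?_
          (congrArg (_ * · * _) (diagonal_apply_eq _ _).symm))
        change _ = (ν ^ (shp W (la1 blk B.la ν E.μ)).dg x * E.μ)⁻¹ *
          ((∏ a ∈ x.1.support, B.la (blk a)) ^ 2)⁻¹ *
            (ν ^ (shp W (la1 blk B.la ν E.μ)).dg x * E.μ)⁻¹
        rw [dg_card, la1, ← mul_inv, ← mul_inv]
        exact congrArg _ (by ring)
      · exact (diagonal_apply_ne _ e).trans (Eq.trans (by rw [mul_zero, zero_mul])
          (congrArg (_ * · * _) (diagonal_apply_ne _ e).symm)))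
    (g := Set.indicator {y | (fun w : B.SC W => wv blk B.la B.T y w.1.1 (ind w.1.2)) ∈ H} 1)
    (.of_mem (B := 1) (fun _ => Set.indicator_nonneg (fun _ _ => zero_le_one) _)
      fun _ => Set.indicator_le_self' (fun _ _ => zero_le_one) _)
  refine ⟨fun c A => wv blk B.la B.T r c (ind A), Ψ, a, fun F => (z F).trans ?_,
    k.trans_eq (congrArg _ (funext fun y => ?_))⟩
  · refine lo_trs o.old.ok E _ _ n0 (zc r) _ (fun p => congrArg (fun x : ℤ => (x : ℝ) / _) ?_) F
    exact (congrArg (wv blk B.la B.T r p.1.1) (ind_supp (la := fun A => ∏ a ∈ A, B.la (blk a))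
      p.1.2)).trans (Su.wv_eq blk B.la r p)
  · have : (fun w : B.SC W => wv blk B.la B.T (fun p => r p + ν ^ (mr blk B.la (W.image ind)).dg
        p.1.2 * y (Nold.io E _ _ p)) w.1.1 (ind w.1.2)) = dl B W (la1 blk B.la ν E.μ) E ν
          (fun c A => wv blk B.la B.T r c (ind A)) y := funext fun w => by
      refine (Su.wv_eq blk B.la _ (Su.gw blk B.la t Subset.rfl w)).trans (congrArg₂ (· + ·)
        (Su.wv_eq blk B.la r (Su.gw blk B.la t Subset.rfl w)).symm (congrArg₂ (· * ·)
          (congrArg _ ((Swt.deg_ind _).trans w.2.2.2)) (wc_eq y _ rfl rfl).symm))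
    exact congrArg (fun z => Set.indicator H 1 z) this

end Crest.Agent.N49.Mv

end
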