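import Crest.Agent.N49.Mv.Defs

/-!
# Row 49 (helper78): relations on word functions and relations of the symbol tower
-/

set_option autoImplicit false
set_option linter.unusedSectionVars false

open Matrix MvPolynomial Finset

noncomputable section

namespace Crest.Agent.N49.Mv

open Po Tw Sy Sd Md Rm

namespace R0
variable {τ L : Type} [Fintype τ] [DecidableEq τ] [Fintype L] [DecidableEq L]

theorem sy_ren {ι κ : Type} (f : ι → κ) (lev : κ → ℕ) (P : MvPolynomial ι ℝ)
    (ξ : κ → Finset τ → ℝ) (A : Finset τ) :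
    sy lev (rename f P) ξ A = sy (fun c => lev (f c)) P (fun c => ξ (f c)) A := by
  rw [sy, aeval_rename]; rfl

theorem dj {A : Finset L} {x : L} : Disjoint A {x} ↔ x ∉ A := disjoint_singleton_right

variable (B : Bs L) (W : Finset (Finset τ)) (blk : τ → L) (x : L) (P : Bk B.T.C Unit)

/-- the word function of a point -/
def xi (Y : (Bk.ext B.T P).C → Finset τ → ℤ) (p : B.SC W ⊕ L → ℝ) (c : (Bk.ext B.T P).C)
    (A : Finset τ) : ℝ :=
  if x ∈ A.image blk then
    Sum.elim (fun c => sx B.T _ W (fun w => p (.inl w)) c A) (fun _ => 0) c else Y c A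

theorem xi_fb (Y : (Bk.ext B.T P).C → Finset τ → ℤ) (p : B.SC W ⊕ L → ℝ) :
    Fb (Bk.ext B.T P) W blk x Y (xi B W blk x P Y p) := fun _ _ _ h _ => if_neg h

variable {B W blk x P}

theorem xi_w {Y : (Bk.ext B.T P).C → Finset τ → ℤ} {y : B.SC W → ℤ}
    (hY : ∀ w : B.SC W, Y (.inl w.1.1) w.1.2 = y w) {p : B.SC W ⊕ L → ℝ}
    (hp : p ∈ (B.SY W blk).Fib {x} y) (w : B.SC W) :
    xi B W blk x P Y p (.inl w.1.1) w.1.2 = p (.inl w) := by
  unfold xi
  split_ifs with h
  · exact dif_pos w.2
  · rw [hY, hp.1 w (dj.2 h)]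

end R0

open R0 in
theorem rx0 : RX0 := by
  intro τ L _ _ _ _ B W blk x P s h m n q H D F hB hW hP hR y hy d
  obtain ⟨Y, hY, -, hx⟩ := hR y hy
  obtain ⟨I, i1, i2, i3⟩ := hx d
  have em : ∀ a : P.N, False := fun a =>
    hP.ok.ne a ((Finsupp.degree_eq_zero_iff _).1 (Nat.le_zero.1 (hP.lv a)))
  have st : ∀ c, B.st c < B.M + 1 := fun c => Nat.lt_succ_of_le (hB.old.stg.le c).1
  refine ⟨fun p => I (xi B W blk x P Y p), ⟨⟨fun p p' e => congrArg I ?_, fun ℓ hℓ a b p p' _ => ?_⟩,
    fun p _ ip => ?_⟩, fun p hp cu => ?_⟩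
  · funext c A
    unfold xi
    split_ifs with k
    · rcases c with c | c
      · simp only [Sum.elim_inl, sx]
        split_ifs with j
        · exact e (.inl ⟨(c, A), j⟩) (subset_univ _) ⟨x, k⟩
        · rfl
      · rfl
    · rfl
  · obtain rfl := mem_singleton.1 hℓ
    refine i1 a b _ _ _ (xi_fb B W blk _ P Y _) (xi_fb B W blk _ P Y _) (xi_fb B W blk _ P Y _) fun c A _ k _ => ?_
    simp only [xi, if_pos k]
    rcases c with c | c
    · simp only [Sum.elim_inl, sx]
      split_ifs with j
      · exact if_pos k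
      · simp
    · simp
  · have : ∀ c A, ∃ k : ℤ, xi B W blk x P Y p c A = k := fun c A => by
      unfold xi
      split_ifs with k
      · rcases c with c | c
        · simp only [Sum.elim_inl, sx]
          split_ifs with j
          · exact ip _
          · exact ⟨0, by simp⟩
        · exact ⟨0, by simp⟩
      · exact ⟨_, rfl⟩
    choose ξ hξ using this
    have e : xi B W blk x P Y p = wr ξ := funext fun c => funext fun A => hξ c A
    simp only [e]
    exact i2 ξ (e ▸ xi_fb B W blk x P Y p)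
  · have e : pt B W x P (xi B W blk x P Y p) = p := funext fun v => by
      rcases v with w | ℓ
      · exact xi_w hY hp w
      · rw [hp.2]; simp [pt]
    have := i3 (xi B W blk x P Y p) 1 (xi_fb B W blk _ P Y _) zero_le_one fun c A hA k l => ?_
    · simpa only [e, one_mul] using this
    rcases c with c | c
    · refine le_of_eq_of_le (congrArg _ (congrArg _ ?_))
        (cu ⟨(c, A), st c, hA, l⟩ (subset_univ _) (mt dj.1 (not_not.2 k)))
      refine (sy_ren Sum.inl _ _ _ _).trans (sy_congr' B.T.lev _ fun c' A' u v => ?_)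
      exact (xi_w hY hp ⟨(c', A'), st c', hW.dw A hA A' u, v⟩).trans
        (by rw [sx, dif_pos ⟨st c', hW.dw A hA A' u, v⟩])
    · exact (em c).elim

end Crest.Agent.N49.Mv

end
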