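import Crest.Agent.N49.Mv.Defs
import Crest.Agent.N49.Sy.Sok

/-!
# Row 49 (helper47): `rx1 : RX1`
-/

set_option autoImplicit false
set_option linter.unusedSectionVars false
set_option linter.unusedVariables false

open Finset

noncomputable section

namespace Crest.Agent.N49.Mv

open Po Tw Sy Sd Md Rm

namespace R1

theorem scale {g t B : ℝ} (ht : 0 ≤ t) (h : ∀ s : ℝ, 0 ≤ s → s * t ≤ 1 → s * |g| ≤ B) :
    |g| ≤ t * B := by
  rcases ht.eq_or_lt with rfl | ht
  · by_contra c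
    have g0 : 0 < |g| := by simpa using c
    have := h ((|B| + 1) / |g|) (by positivity) (by simp)
    rw [div_mul_cancel₀ _ g0.ne'] at this
    linarith [le_abs_self B]
  · have := h t⁻¹ (by positivity) (inv_mul_cancel₀ ht.ne').le
    rwa [inv_mul_le_iff₀ ht] at this

end R1

/-- **RX1** -/
theorem rx1 : RX1 := by
  intro τ L _ _ _ _ T p _ W blk la x s q Bd y Y F tri hp wf hl hY hF ⟨I, ⟨hI, iI⟩, sm⟩
  set S := symT T p W (fun A => ∏ a ∈ A, la (blk a)) blk with hS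
  let P : (T.C → Finset τ → ℝ) → SC T p W ⊕ L → ℝ := fun ξ =>
    Sum.elim (fun w => ξ w.1.1 w.1.2) fun ℓ => if ℓ = x then 0 else 1
  have fib : ∀ ξ, Fb T W blk x Y ξ → P ξ ∈ S.Fib {x} y := fun ξ h =>
    ⟨fun w d => (h _ _ w.2.2.1 (disjoint_singleton_right.1 d) w.2.2.2).trans (by rw [hY]),
      fun ℓ => by simp [P]⟩
  have lI := hI.2 x (mem_singleton_self x)
  have lF := hF.2 x (mem_singleton_self x)
  refine ⟨fun ξ => I (P ξ), fun a b ξ1 ξ2 ξ h1 h2 h e => ?_, fun ξ h => iI _ (fib _ h) ?_,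
    fun ξ t h t0 e => R1.scale t0 fun r r0 r1 => ?_⟩
  · rw [← lI a b (P ξ1) (P ξ2)]
    · refine congrArg I (funext fun v => ?_)
      rcases v with w | ℓ
      · by_cases k : x ∈ w.1.2.image blk
        · exact (e _ _ w.2.2.1 k w.2.2.2).trans
            (TT.cmb_in (T := S) (p := P ξ1) (p' := P ξ2) (v := .inl w) k).symm
        · exact ((h _ _ w.2.2.1 k w.2.2.2).trans (h1 _ _ w.2.2.1 k w.2.2.2).symm).trans
            (TT.cmb_out (T := S) (p := P ξ1) (p' := P ξ2) (v := .inl w) k).symm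
      · simp only [TT.cmb, TT.tv, P, Sum.elim_inr, mem_singleton, eq_comm (a := x)]
        split_ifs <;> simp
    · rintro (w | ℓ) k
      · exact (h1 _ _ w.2.2.1 k w.2.2.2).trans (h2 _ _ w.2.2.1 k w.2.2.2).symm
      · rfl
  · rintro (w | ℓ)
    · exact ⟨_, rfl⟩
    · by_cases k : ℓ = x
      exacts [⟨0, by simp [P, k]⟩, ⟨1, by simp [P, k]⟩]
  · have f := fib ξ h
    have := sm (S.cmb x r 0 (P ξ) (P ξ)) ⟨fun w d => (TT.cmb_out (T := S) (v := .inl w)
      (disjoint_singleton_right.1 d)).trans (f.1 w d), fun ℓ => ?_⟩ fun w _ d => ?_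
    · simp only [lF r 0 _ _ fun _ _ => rfl, lI r 0 _ _ fun _ _ => rfl] at this
      rw [← abs_of_nonneg r0, ← abs_mul]
      exact (congrArg abs (show r * (F (P ξ) - I (P ξ) / q) = _ by ring)).trans_le this
    · simp only [TT.cmb, TT.tv, P, Sum.elim_inr, mem_singleton, eq_comm (a := x)]
      split_ifs <;> simp
    · have k : x ∈ w.1.2.image blk := not_not.1 fun k => d (disjoint_singleton_right.2 k)
      have l := (sF_dat (p := p) (W := W) (la := fun A => ∏ a ∈ A, la (blk a)) tri (T.Φ w.1.1)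
        (wf.inj _ w.2.2.1)).2 x k r 0 (P ξ) (P ξ) fun _ _ => rfl
      have u : sF T p W (T.Φ w.1.1) w.1.2 (P ξ) = ue T ξ w.1.1 w.1.2 :=
        sy_congr' _ _ fun c B b n => dif_pos ⟨hp c, wf.dw _ w.2.2.1 _ b, n⟩
      change |(∏ a ∈ w.1.2, la (blk a)) * sF T p W (T.Φ w.1.1) w.1.2 (S.cmb x r 0 (P ξ) (P ξ))| ≤ 1
      rw [hS, l, u, zero_mul, add_zero, mul_left_comm, abs_mul, abs_of_nonneg r0]
      exact (mul_le_mul_of_nonneg_left (e _ _ w.2.2.1 k w.2.2.2) r0).trans r1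

end Crest.Agent.N49.Mv

end
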