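import Crest.Agent.N49.Mv.Defs
import Crest.Agent.N49.Sd.Stn
import Crest.Agent.N49.Tn.Stg

/-!
# Row 49 (helper95): the stages of the frame of a move
-/

set_option autoImplicit false

open Matrix MvPolynomial Finset

noncomputable section

namespace Crest.Agent.N49.Mv

open Po Tw Sd TS

namespace Sm

variable {τ0 : Type} {T : TS Unit} {S0 : Sh Unit τ0} {st : T.C → ℕ} {M : ℕ} {Ψ0 : T.Twd S0}
  {v : Matrix (Option S0.W) (Option S0.W) ℝ} {b : T.Cw S0 → ℤ} {a : ℝ}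

theorem ts_low (h : T.Stg st M) {x : T.Tc S0} {m : T.Tc S0 →₀ ℕ}
    (k : Finsupp.weight (fun q : T.Tc S0 => st q.1.1) m ≤ st x.1.1)
    (l : Finsupp.weight (fun q : T.Tc S0 => T.lev q.1.1) m < T.lev x.1.1) :
    Finsupp.weight (T.ts S0 st M) m ≤ T.ts S0 st M x := by
  have p := h.pos x.1.1
  have b : Finsupp.weight (T.ts S0 st M) m ≤ Finsupp.weight (fun q : T.Tc S0 => T.lev q.1.1) m *
      (M + 1) ^ (st x.1.1 * (M + 1) - 1) := by
    rw [Finsupp.weight_apply, Finsupp.weight_apply, Finsupp.sum, Finsupp.sum, sum_mul]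
    refine sum_le_sum fun q hq => ?_
    have z := Finsupp.mem_support_iff.1 hq
    have c : st q.1.1 < st x.1.1 := ((Finsupp.le_weight_of_ne_zero' _ z).trans k).lt_of_ne fun e =>
      ((Finsupp.le_weight_of_ne_zero' (fun q : T.Tc S0 => T.lev q.1.1) z).trans_lt l).ne
        (h.lev _ _ e)
    rw [smul_eq_mul, smul_eq_mul, mul_assoc]
    refine Nat.mul_le_mul_left _ (le_trans (Nat.pow_le_pow_right (by omega) ?_)
      (Nat.le_mul_of_pos_left _ (h.cl.1.lev_pos _)))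
    have := Nat.mul_le_mul_right (M + 1) (Nat.succ_le_of_lt c)
    rw [Nat.succ_mul] at this
    omega
  have := (h.le x.1.1).2
  have e : 1 ≤ st x.1.1 * (M + 1) := Nat.mul_pos p (by omega)
  refine b.trans ((Nat.mul_le_mul_right _ (by omega : _ ≤ M + 1)).trans ?_)
  rw [← pow_succ', ts_eq]
  exact Nat.pow_le_pow_right (by omega) (by omega)

theorem tan_var (h : S0.Ok) (hΨ : T.Adm S0 st Ψ0) (x : T.Tc S0) {m : T.Tc S0 →₀ ℕ}
    (z : m ∈ ((T.tan S0 Ψ0 v b).Φ x).support) {q : T.Tc S0} (hq : q ∈ m.support) :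
    q.1.1 ∈ (Ψ0 x.1.1).vars := by
  obtain ⟨-, u, hu, k, -⟩ := tq_mon (S := S0) (v := v) (b := b) (ν := 0) (m := m) h hΨ.tin x
    fun e => mem_support_iff.1 z ((coeff_zero_C _).symm.trans ((congrArg (coeff 0)
      ((coeff_map _ _ _).symm.trans (congrArg (coeff m) (tq_tin (v := v) Ψ0 b x).symm))).trans e))
  exact (mem_vars_iff_mem_support _).2 ⟨u, support_map_subset _ _ hu, Finsupp.support_mono k (mem_mapD _ hq)⟩

theorem gr_tan (hs : T.Stg st M) (h : S0.Ok) (hΨ : T.Adm S0 st Ψ0) (hv : S0.Tk v a) {γ : T.C → ℕ}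
    (g0 : ∀ c c', st c = st c' → γ c = γ c')
    (g1 : ∀ c, ∀ c' ∈ (Ψ0 c).vars, st c' < st c → γ c' < γ c) :
    Md.Gr (T.tan S0 Ψ0 v b) (T.ts S0 st M) fun x : T.Tc S0 => γ x.1.1 := by
  refine ⟨fun x y e => g0 _ _ (hs.ts_inj.1 e).1, fun (x : T.Tc S0) (m : T.Tc S0 →₀ ℕ) hm => ?_⟩
  by_cases c : ∃ q ∈ m.support, st x.1.1 ≤ st q.1.1
  · obtain ⟨q, c1, c2⟩ := c
    have z := Finsupp.mem_support_iff.1 c1
    have k := mt hs.ts_lt.2 (not_lt.2 ((Finsupp.le_weight_of_ne_zero' (T.ts S0 st M) z).trans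
      ((tan_stg (b := b) hs h hΨ hv).wt x hm)))
    have := (tan_ok (b := b) h hs.cl.1 hΨ hv).toTri.eq_single (c := x) (c' := q) hm z
      (by rw [tan_lev]; omega)
    rw [tan_lev] at this
    exact .inl ⟨q, hs.ts_inj.2 ⟨by omega, this.2.symm⟩, this.1⟩
  · exact .inr fun q hq => g1 _ _ (tan_var h hΨ x hm hq) (not_le.1 fun k => c ⟨q, hq, k⟩)

theorem gr_lt {γ : T.C → ℕ} (h : Md.Gr T st γ) {c c' : T.C} (k : c' ∈ (T.Φ c).vars)
    (l : st c' < st c) : γ c' < γ c := by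
  obtain ⟨u, hu, k⟩ := (mem_vars_iff_mem_support _).1 k
  rcases h.2 c u hu with ⟨d, e, rfl⟩ | g
  · exact absurd (mem_singleton.1 (Finsupp.support_single_subset k) ▸ e) l.ne
  · exact g c' k

theorem tk_one (S0 : Sh Unit τ0) : S0.Tk 1 1 := ⟨PosDef.one,
  fun _ _ z => congrArg _ (of_not_not fun e => z (one_apply_ne e)),
  fun x => by simp [qf, dotProduct, sq]⟩

end Sm

theorem stm : STM := fun τ L _ _ _ _ B s h W blk la E ν r Ψ b hp R => by
  have o := R.ok.old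
  have hs := Ns.stg o R.nw
  have key : ∀ (G : E.T.Tc (fr s W la)) F, (rθ s W la E ν r Ψ b hp).fam G = some F →
      G.1.1 = .inl F := by
    rintro ⟨⟨c | n, u⟩, k⟩ F e
    · exact congrArg _ (Option.some.inj e)
    · cases e
  refine ⟨fun F (μ : E.T.Tc (fr s W la) →₀ ℕ) g k a l => Sm.ts_low hs (le_trans (le_of_eq ?_) a)
    (lt_of_eq_of_lt ?_ l), fun F (G : E.T.Tc (fr s W la)) => hs.ts_inj.trans ⟨fun e => ?_, ?_⟩,
    fun γ k => ⟨_, Sm.gr_tan hs R.fr R.adm (Sm.tk_one _) (gr_nw o R.nw k).1 ?_,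
      fun G F e => congrArg (Sum.elim γ _) (key G F e)⟩⟩
  · simp only [Finsupp.weight_apply]
    exact Finsupp.sum_congr fun G m =>
      congrArg (μ G • ·) (congrArg (E.st B.st B.M s) (key G _ (k G m)))
  · simp only [Finsupp.weight_apply]
    exact Finsupp.sum_congr fun G m => congrArg (μ G • ·) (congrArg E.T.lev (key G _ (k G m)))
  · have l := nl_add G
    rw [e.2, hs.lev _ _ e.1] at l
    obtain ⟨⟨c | n, _ | w⟩, k⟩ := G
    · exact ⟨c, rfl, e.1⟩
    · exact absurd (Nat.add_right_cancel (l.trans (zero_add _).symm)) (R.fr.dg_pos w).ne'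
    all_goals exact absurd e.1 (Ns.old_lt o R.nw F n).ne'
  · rintro ⟨F', rfl, e⟩
    exact ⟨e, o.stg.lev _ _ e⟩
  · rintro (F | n) (c : B.T.C ⊕ E.N) m l
    · refine Sm.gr_lt (gr_nw o R.nw k) ?_ l
      have := vars_map _ _ m
      rw [R.sft F, aeval_eq_bind₁] at this
      obtain ⟨i, hi, j⟩ := mem_vars_bind₁ _ _ this
      have := vars_add_subset _ _ j
      rw [vars_C, empty_union, vars_X] at this
      exact mem_singleton.1 this ▸ vars_map _ _ hi
    · rcases c with c | n'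
      · exact (Nat.lt_succ_of_le (le_sup (f := γ) (mem_univ c))).trans_le (Nat.le_add_right _ _)
      · exact Nat.add_lt_add_left (lt_of_not_ge fun g => l.not_ge
          (Nat.mul_le_mul_left _ (Nat.pow_le_pow_right s.succ_pos g))) _

end Crest.Agent.N49.Mv

end
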