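import Crest.Agent.N49.Mv.Defs
import Crest.Agent.N49.Tn.Tay
import Crest.Agent.N49.Tw.ConM

/-!
# Row 49 (helper68): Taylor's formula for the frame of a move (`TAY`)
-/

set_option autoImplicit false
set_option linter.unusedSectionVars false

open Matrix MvPolynomial Finset

noncomputable section

namespace Crest.Agent.N49.Mv

open Po Tw Sy Md

namespace Ty

theorem ev_shift {A R V : Type} [CommRing A] [Algebra ℝ A] [CommRing R] [Algebra ℝ R]
    (f : A →+* R) (hf : ∀ a : ℝ, f (algebraMap ℝ A a) = algebraMap ℝ R a) (z : V → A) (Y : V → R)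
    (Q : MvPolynomial V ℝ) :
    eval₂ f Y (aeval (fun c => MvPolynomial.C (z c) + X c)
      (MvPolynomial.map (algebraMap ℝ A) Q : MvPolynomial V A)) =
      aeval (fun c => f (z c) + Y c) Q := by
  induction Q using MvPolynomial.induction_on with
  | C a => simp [hf]
  | add p q a b => simp only [map_add, eval₂_add, a, b]
  | mul_X p c a => simp only [map_mul, eval₂_mul, a]; simp [eval₂_add]

theorem l1_mon {V : Type} (m : V →₀ ℕ) (a : ℝ) : l1 (monomial m a) = |a| := by
  classical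
  by_cases z : a = 0
  · simp [z, l1]
  · rw [l1, support_monomial, if_neg z, sum_singleton, coeff_monomial, if_pos rfl]

theorem C_sm {V A : Type} [CommRing A] [Algebra ℝ A] (a : ℝ) (p : A) :
    (MvPolynomial.C (a • p) : MvPolynomial V A) = a • MvPolynomial.C p :=
  (smul_monomial (s := (0 : V →₀ ℕ)) (a := p) a).symm

theorem ae_X {V U : Type} (P : MvPolynomial V ℝ) :
    aeval (X : V → MvPolynomial V (MvPolynomial U ℝ)) P = MvPolynomial.map MvPolynomial.C P := by
  induction P using MvPolynomial.induction_on with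
  | C a => simp
  | add p q a b => simp only [map_add, a, b]
  | mul_X p c a => simp only [map_mul, a]; simp

variable {τ : Type} [Fintype τ] [DecidableEq τ]

theorem deg_ind (A : Finset τ) : (ind A).degree = #A := by
  rw [Finsupp.degree_apply]
  exact (sum_congr rfl fun i hi => if_pos hi).trans (by simp [ind])

/-- the dilated monomials -/
def ch (ν : ℝ) (μ : τ →₀ ℕ) : MvPolynomial τ ℝ := monomial μ (ν ^ μ.degree)

theorem ch_wt {V : Type} (ν : ℝ) (f : V → τ →₀ ℕ) (m : V →₀ ℕ) :
    m.prod (fun w n => ch ν (f w) ^ n) = ch ν (Finsupp.weight f m) := by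
  induction m using Finsupp.induction_linear with
  | zero => simp [ch]
  | add a b h k =>
    rw [Finsupp.prod_add_index' (by simp) (by simp [pow_add]), h, k, map_add]
    simp [ch, pow_add]
  | single a n => simp [ch, Finsupp.weight_single, monomial_pow, ← pow_mul, mul_comm]

variable {s : ℕ} {W : Finset (Finset τ)} {la : Finset τ → ℝ}

theorem od_eq (o : Option (fr s W la).W) : (fr s W la).od o = (om s W la o).degree := by
  cases o
  · exact (map_zero Finsupp.degree).symm
  · rfl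

theorem om_le (o : Option (fr s W la).W) : (om s W la o).degree ≤ s := by
  rcases o with _ | w
  · exact (map_zero Finsupp.degree).trans_le (Nat.zero_le _)
  · exact mem_full.1 (Sh.MW.mem w)

theorem chr (ν : ℝ) (m : (fr s W la).W →₀ ℕ) (h : Finsupp.weight (fr s W la).dg m ≤ s) :
    ch ν (Finsupp.weight (fun w : (fr s W la).W => (w.1 : τ →₀ ℕ)) m) =
      ∑ o, ((fr s W la).ru o m : MvPolynomial τ ℝ) * ch ν (om s W la o) := by
  rw [Fintype.sum_option]
  by_cases z : m = 0
  · subst z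
    rw [sum_eq_zero fun w _ => by
      rw [show (fr s W la).ru (some w) 0 = 0 from if_neg fun e =>
        Sh.MW.ne w (e.symm.trans (map_zero _)), Int.cast_zero, zero_mul],
      show (fr s W la).ru none 0 = 1 by simp [Sh.ru], Int.cast_one, one_mul, add_zero, map_zero]
    rfl
  · have e : (Finsupp.weight (fun w : (fr s W la).W => (w.1 : τ →₀ ℕ)) m).degree ≤ s :=
      (weight_hom Finsupp.degree _ m).symm.trans_le h
    let w0 : (fr s W la).W := ⟨_, mem_erase.2 ⟨Sh.weight_ne z, mem_full.2 e⟩⟩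
    rw [show (fr s W la).ru none m = 0 from if_neg z, Int.cast_zero, zero_mul, zero_add,
      sum_eq_single w0]
    · rw [show (fr s W la).ru (some w0) m = 1 from if_pos rfl, Int.cast_one, one_mul]; rfl
    · intro w _ ne
      rw [show (fr s W la).ru (some w) m = 0 from if_neg fun e => ne (Subtype.ext e.symm),
        Int.cast_zero, zero_mul]
    · exact fun k => absurd (mem_univ _) k

theorem sum_shp {T : TS Unit} {N : Type} [AddCommMonoid N] {F : T.C} (h : 0 < T.lev F)
    (g : (τ →₀ ℕ) → N) : ∑ p : T.Cw (shp W la) with p.1.1 = F, g p.1.2.1 =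
      ∑ A ∈ W with #A = T.lev F, g (ind A) := by
  refine (sum_bij (fun A hA => (⟨(F, ⟨ind A, mem_erase.2 ⟨fun e => h.ne' (by
      rw [← (mem_filter.1 hA).2, ← deg_ind, e, map_zero]),
      mem_image_of_mem _ (mem_filter.1 hA).1⟩⟩), unit_ext ((Sh.cd_degree _).trans
        ((deg_ind A).trans (mem_filter.1 hA).2))⟩ : T.Cw (shp W la)))
    (fun A hA => mem_filter.2 ⟨mem_univ _, rfl⟩) (fun A _ A' _ e => ?_) (fun p hp => ?_)
    fun _ _ => rfl).symm
  · exact congrArg (fun p : T.Cw (shp W la) => p.1.2.1.support) e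
  · obtain ⟨A, k, e⟩ : ∃ A ∈ W, ind A = p.1.2.1 := mem_image.1 (Sh.MW.mem p.1.2)
    refine ⟨A, mem_filter.2 ⟨k, ?_⟩, Subtype.ext (Prod.ext (mem_filter.1 hp).2.symm
      (Subtype.ext e))⟩
    rw [← deg_ind, e, ← (mem_filter.1 hp).2]
    exact (TS.lev_cw p).symm

theorem tan_pure {τ0 : Type} {T : TS Unit} {S0 : Sh Unit τ0} {st : T.C → ℕ} {Ψ0 : T.Twd S0}
    (v : Matrix (Option S0.W) (Option S0.W) ℝ) (b : T.Cw S0 → ℤ) (hΨ : T.Adm S0 st Ψ0)
    (hp : ∀ c, 0 < T.lev c) (c : T.C) (h : (T.Φ c).IsWeightedHomogeneous T.lev (T.lev c)) :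
    (T.tan S0 Ψ0 v b).Φ ⟨(c, none), hp c⟩ =
      rename (fun c => (⟨(c, none), hp c⟩ : T.Tc S0)) (T.Φ c) := by
  have e : MvPolynomial.map constantCoeff (Ψ0 c) = T.Φ c := by
    ext m
    rw [coeff_map]
    by_cases z : Finsupp.weight T.lev m = T.lev c
    · rw [hΨ.top c m z, constantCoeff_C]
    · rw [h.coeff_eq_zero m z]
      by_cases y : m ∈ (Ψ0 c).support
      · have := (hΨ.le c m y).1
        exact (hΨ.gr c m).coeff_eq_zero 0 (by rw [map_zero]; omega)
      · rw [notMem_support_iff.1 y, map_zero]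
  refine (Sh.cu_none (R := MvPolynomial (T.Tc S0) ℝ) _).trans
    ((eval₂_comp_left _ _ _ _).trans ?_)
  rw [← e, rename_eq_aeval, aeval_def, eval₂_map]
  refine congrArg₂ (fun f Y => eval₂ f Y (Ψ0 c)) ?_ (funext fun G => ?_)
  · exact MvPolynomial.ringHom_ext (fun a => by simp) fun w => by simp
  · rw [Function.comp, TS.Yt, TS.Yw, map_add, map_sum, map_sum, sum_eq_zero (s := filter _ _)
      (f := fun p : T.Cw S0 => _) fun p _ => by simp, add_zero,
      sum_eq_single (⟨(G, none), hp G⟩ : T.Tc S0)]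
    · exact (constantCoeff_monomial _ _).trans (if_pos rfl)
    · rintro ⟨⟨F, _ | w⟩, k⟩ hq ne
      · exact (ne (Subtype.ext (Prod.ext (mem_filter.1 hq).2 rfl))).elim
      · exact (constantCoeff_monomial _ _).trans
          (if_neg (Finsupp.single_ne_zero.2 one_ne_zero))
    · exact fun k => absurd (mem_filter.2 ⟨mem_univ _, rfl⟩ : (⟨(G, none), hp G⟩ : T.Tc S0) ∈
        univ.filter fun q : T.Tc S0 => q.1.1 = G) k

variable {T : TS Unit} {E : Nw T}

theorem lev_eq : E.T.lev = E.lev := funext fun c => by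
  rcases c with c | n
  · rfl
  · exact Finsupp.degree_single _ _

theorem hom_a (h : T.Ok) (w : E.Wf s) (c : T.C ⊕ E.N) :
    (E.Φa c).IsWeightedHomogeneous E.lev (E.lev c) := by
  rcases c with c | n
  · intro m z
    obtain ⟨u, rfl, k⟩ := coeff_rename_ne_zero (Sum.inl : T.C → T.C ⊕ E.N) (T.Φ c) m
      fun e => z ((coeff_smul _ _ _).trans (by rw [e, smul_zero]))
    refine (TS.weight_map _ _ _).trans ?_
    exact (TS.weight_lev u).trans (congrArg _ (h.hom c k))
  · exact w.hom n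

theorem fam_eq {c : T.C ⊕ E.N} {F : T.C} : Sum.elim some (fun _ => none) c = some F ↔ c = .inl F := by
  rcases c with c | n <;> simp

variable {ν : ℕ} {r : T.C → Finset τ → ℤ} {Ψ : E.T.Twd (shp W la)} {b : E.T.Cw (fr s W la) → ℤ}
  {st : E.T.C → ℕ}

theorem zr_mon (hp : ∀ c, 0 < E.T.lev c) (G : E.T.Tc (fr s W la)) :
    zr ((rθ s W la E ν r Ψ b hp).mon G) = ch ν (om s W la G.1.2) := by
  simp [rθ, ch]

theorem key (o : (fr s W la).Ok) (hΨ : E.T.Adm _ st (lf s W la E.T Ψ)) (hs : Sft W la E ν r Ψ)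
    (hW : ∀ A ∈ W, #A ≤ s) (hl : ∀ F, T.lev F ≤ s) (h1 : 1 ≤ ν) (hμ : 0 < E.μ)
    (hp : ∀ c, 0 < E.T.lev c) (F : T.C) :
    (aeval fun F' => (MvPolynomial.C (zr ((rθ s W la E ν r Ψ b hp).be F')) +
      ∑ G : E.T.Tc (fr s W la) with G.1.1 = .inl F', MvPolynomial.C (ch ν (om s W la G.1.2)) * X G :
        MvPolynomial (E.T.Tc (fr s W la)) (MvPolynomial τ ℝ))) (T.Φ F) =
    MvPolynomial.C ((rθ s W la E ν r Ψ b hp).bu F) +
      ∑ G : E.T.Tc (fr s W la) with G.1.1 = .inl F, MvPolynomial.C (E.μ • ch ν (om s W la G.1.2)) *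
        MvPolynomial.map MvPolynomial.C ((rT s W la E Ψ b).Φ G) := by
  let ρ : (fr s W la).W → MvPolynomial (E.T.Tc (fr s W la)) (MvPolynomial τ ℝ) :=
    fun w => MvPolynomial.C (ch ν w.1)
  have e0 : ∀ o : Option (fr s W la).W, o.elim 1 ρ = MvPolynomial.C (ch ν (om s W la o)) := by
    rintro (_ | w)
    · simp [ch, om]
    · rfl
  have t := TS.taylor (v := 1) (b := b) o hΨ ρ (hp (.inl F)) (fun m k => by
    simp only [e0, ρ, ← map_pow]
    rw [← map_finsuppProd, ch_wt, chr _ m (k.trans (hl F)), map_sum]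
    simp only [map_mul, map_intCast]) X
  have n0 : (ν : ℝ) ≠ 0 := by positivity
  have j : ∀ w : (shp W la).W, aeval (R := ℝ) ρ ((shp W la).pu _ (jm s W la) (X w)) =
      MvPolynomial.C (ch ν w.1) := fun w => by
    obtain ⟨A, k, e⟩ := mem_image.1 (Sh.MW.mem w)
    have : w.1 ∈ (full τ s).erase 0 := mem_erase.2 ⟨Sh.MW.ne w, mem_full.2 (by
      rw [← e, deg_ind]; exact hW A k)⟩
    let w0 : (fr s W la).W := ⟨_, this⟩
    rw [Sh.pu_eq, Sh.hA, aeval_X, Sh.el, map_sum]
    refine (sum_eq_single w0 (fun w' _ ne => ?_) fun k => absurd (mem_univ _) k).trans ?_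
    · exact (congrArg (fun z : ℤ => aeval (R := ℝ) ρ (z • X w'))
        (if_neg fun e => ne (Subtype.ext e) : jm s W la w' w = 0)).trans (by simp)
    · exact (congrArg (fun z : ℤ => aeval (R := ℝ) ρ (z • X w0))
        (if_pos rfl : jm s W la w0 w = 1)).trans (by rw [one_smul, aeval_X])
  have a := ev_shift ((aeval (R := ℝ) ρ).toRingHom.comp ((shp W la).pu _ (jm s W la)))
    (fun a => by simp [Sh.pu_eq]) (E.T.Yw (shp W la) fun p => Sum.elim
      (fun c => (r c p.1.2.1.support : ℝ) / ν ^ T.lev c) (fun _ => 0) p.1.1)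
    (fun G => ∑ p : E.T.Cw (fr s W la) with p.1.1 = G, b p * ρ p.1.2 +
      ∑ x : E.T.Tc (fr s W la) with x.1.1 = G, x.1.2.elim 1 ρ * X x) (E.Φa (.inl F))
  have c := a.symm.trans ((congrArg (eval₂ _ _) (hs F).symm).trans
    ((eval₂_map _ _ _ _).symm.trans t))
  have d : ∀ g : T.C ⊕ E.N → MvPolynomial (E.T.Tc (fr s W la)) (MvPolynomial τ ℝ),
      aeval (fun F' => g (.inl F')) (T.Φ F) = E.μ • aeval g (E.Φa (.inl F)) := fun g => by
    rw [Nw.Φa, Sum.elim_inl, map_smul, smul_smul, mul_inv_cancel₀ hμ.ne', one_smul, aeval_rename]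
    rfl
  refine Eq.trans (congrArg (aeval · (T.Φ F)) (funext fun G => ?_))
    ((d _).trans ((congrArg (E.μ • ·) c).trans ?_))
  · rw [← add_assoc]
    refine congrArg₂ _ ?_ (sum_congr rfl fun x _ => by rw [e0])
    rw [rθ, TS.Yw]
    simp only [map_add, map_sum, map_monomial]
    refine congrArg₂ _ ?_ (sum_congr rfl fun p hp => ?_)
    · refine (sum_shp (W := W) (la := la) (T := E.T) (F := .inl G) (hp _) fun μ =>
        (MvPolynomial.C (monomial μ ((Int.castRingHom ℝ) (r G μ.support))) :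
          MvPolynomial (E.T.Tc (fr s W la)) (MvPolynomial τ ℝ))).symm.trans
        (sum_congr rfl fun p hp => ?_)
      have l : p.1.2.1.degree = T.lev G :=
        (TS.lev_cw p).symm.trans (congrArg E.T.lev (mem_filter.1 hp).2)
      rw [map_mul, RingHom.comp_apply, RingHom.comp_apply]
      refine Eq.trans ?_ (congrArg₂ _ rfl (j p.1.2).symm)
      rw [(mem_filter.1 hp).2, Sum.elim_inl, ch, l]
      simp only [Sh.pu_eq, algHom_C, AlgHom.toRingHom_eq_coe, RingHom.coe_coe,
        MvPolynomial.algebraMap_apply, ← map_mul, C_mul_monomial, Algebra.algebraMap_self_apply]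
      rw [div_mul_cancel₀ _ (pow_ne_zero _ n0)]; rfl
    · have l : p.1.2.1.degree = T.lev G :=
        (TS.lev_cw p).symm.trans (congrArg E.T.lev (mem_filter.1 hp).2)
      simp only [ρ, ch, l]
      rw [← map_intCast (MvPolynomial.C : MvPolynomial τ ℝ →+* _), ← map_mul,
        ← map_intCast (MvPolynomial.C : ℝ →+* _), C_mul_monomial, mul_comm]
      simp
  · rw [smul_add, smul_sum, smul_sum, rθ]
    simp only [map_sum]
    refine congrArg₂ _ (sum_congr rfl fun p hp => ?_) (sum_congr rfl fun x _ => ?_)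
    · have l : p.1.2.1.degree = T.lev F :=
        (TS.lev_cw p).symm.trans (congrArg E.T.lev (mem_filter.1 hp).2)
      simp only [ρ, ch, l, MvPolynomial.algebraMap_apply, ← map_mul, C_mul_monomial,
        Algebra.algebraMap_self_apply, ← C_sm, smul_monomial, smul_eq_mul]
      congr 2; ring
    · rw [e0, ← smul_mul_assoc, ← C_sm]
      exact congrArg _ (ae_X _)

end Ty

open Ty in
theorem tay : TAY := by
  intro τ L _ _ _ _ B s h W blk la E ν r Ψ b hp x d h1 h2 h0
  have lv : ∀ G : E.T.Tc (fr s W la), (rT s W la E Ψ b).lev G = E.T.nl _ G := fun G =>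
    congrFun (TS.tan_lev _ b) G
  have ad : ∀ (G : E.T.Tc (fr s W la)) F, (rθ s W la E ν r Ψ b hp).fam G = some F →
      (om s W la G.1.2).degree + (rT s W la E Ψ b).lev G = B.T.lev F := fun G F e => by
    rw [lv, ← od_eq, TS.nl_add, fam_eq.1 e]; rfl
  have n1 : (1 : ℝ) ≤ ν := by exact_mod_cast d.one
  have μ0 := d.nw.pos
  have x1 : E.μ⁻¹ ≤ x := by rwa [inv_le_comm₀ μ0 h0]
  have l1e : ∀ G, l1 (zr ((rθ s W la E ν r Ψ b hp).mon G)) = ν ^ (om s W la G.1.2).degree :=
    fun G => by rw [zr_mon, ch, l1_mon, abs_of_nonneg (by positivity)]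
  refine ⟨⟨fun F G e => ?_, fun F => ?_, fun F => ?_, fun F => ⟨rfl, ?_, h2, lv _⟩, fun F G e k => ?_,
    fun G => ⟨?_, ?_⟩, fun F => ?_⟩, ⟨d.one, rfl, fun _ => by simp [rf], fun _ _ _ => μ0.ne',
    fun G F e => ?_⟩, fun c => (lv _).trans (congrFun lev_eq c), fun c => ?_, fun _ => rfl⟩
  · have := ad G F e
    exact ⟨by omega, isHomogeneous_monomial _ (by omega)⟩
  · refine (IsHomogeneous.sum _ _ _ fun A hA => isHomogeneous_monomial _
      ((deg_ind A).trans (mem_filter.1 hA).2)).add (IsHomogeneous.sum _ _ _ fun p k =>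
        isHomogeneous_monomial _ ?_)
    exact (TS.lev_cw p).symm.trans (congrArg E.T.lev (mem_filter.1 k).2)
  · exact IsHomogeneous.sum _ _ _ fun p k => isHomogeneous_monomial _
      ((TS.lev_cw p).symm.trans (congrArg E.T.lev (mem_filter.1 k).2))
  · simp [rθ, om]
  · have := ad G F e
    obtain ⟨⟨c, _ | w⟩, q⟩ := G
    · exact Subtype.ext (Prod.ext (fam_eq.1 e) rfl)
    · have : 0 < (om s W la (some w)).degree := d.fr.dg_pos w
      dsimp only at *
      omega
  · exact (abs_of_pos μ0).trans_le (d.nw.le.trans (((one_le_inv₀ μ0).2 d.nw.le).trans x1))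
  · rw [l1e]
    refine (pow_le_pow_right₀ n1 (om_le _)).trans (le_trans ?_ x1)
    rwa [← one_div, le_div_iff₀ μ0]
  · have := key (r := r) (b := b) d.fr d.adm d.sft d.wf.le d.ok.old.lev d.one μ0 hp F
    have e : ∀ F, (univ.filter fun G : E.T.Tc (fr s W la) =>
        (rθ s W la E ν r Ψ b hp).fam G = some F) = univ.filter fun G => G.1.1 = .inl F :=
      fun F => filter_congr fun G _ => fam_eq
    refine Eq.trans (congrArg (aeval · (B.T.Φ F)) (funext fun F' => congrArg _ ?_))
      (this.trans (congrArg _ ?_))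
    · exact sum_congr (e F') fun G _ => by rw [zr_mon]; rfl
    · exact (sum_congr (e F) fun G _ => by rw [zr_mon]; rfl).symm
  · have a := ad G F e
    refine le_trans ?_ (h1.trans_eq (pow_zero _).symm)
    refine (congrArg₂ _ (congrArg₂ _ (abs_of_pos μ0) (l1e G)) rfl).trans_le ?_
    rw [mul_assoc, ← pow_add, mul_comm]
    exact mul_le_mul_of_nonneg_right (pow_le_pow_right₀ n1 (a.trans_le (d.ok.old.lev F))) μ0.le
  · exact tan_pure 1 b d.adm hp c (lev_eq (E := E) ▸ hom_a d.ok.old.ok d.nw c)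

end Crest.Agent.N49.Mv

end
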