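import Crest.Agent.N49.Mv.Rcn
import Crest.Agent.N49.Mv.Move
import Crest.Agent.N49.Mv.Resn
import Crest.Agent.N49.Mv.Lift
import Crest.Agent.N49.Mv.Hmm
import Crest.Agent.N49.Mv.Tay
import Crest.Agent.N49.Mv.Stm
import Crest.Agent.N49.Mv.Nwb
import Crest.Agent.N49.Mv.Cnb
import Crest.Agent.N49.Mv.Abs
import Crest.Agent.N49.Mv.Rx0
import Crest.Agent.N49.Mv.Rx1
import Crest.Agent.N49.Mv.Dil
import Crest.Agent.N49.Md.Syu
import Crest.Agent.N49.Tn.All
import Crest.Agent.N49.Rn.All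
import Crest.Agent.N49.Jb.All

/-!
# Row 49 (helper12): the moves, from `PUL` alone
-/

set_option autoImplicit false

namespace Crest.Agent.N49.Mv

open Tw

theorem rcnA (s M C' : ℕ) : RCN s M C' :=
  rcn_of Md.syp resn lift hmm tay stm Tw.ma tangA s M C'

theorem regQ (s M : ℕ) : ∃ C0, ∀ C, C0 ≤ C → REGNEWQ s M C :=
  (Rn.regnew char Jb.jbs s M).imp fun _ h C e => Rn.regnewq (h C e)

theorem moveA {s : ℕ} (hs : 1 ≤ s) (pu : PUL s) (M : ℕ) : MOVE s M :=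
  move_of hs (rcnA s M) nwb cnb pu (regQ s M) ((Tw.ma _).imp fun _ h => h.1)

theorem dilA {s : ℕ} (hs : 1 ≤ s) (pu : PUL s) (M : ℕ) : DILF s M := dil (moveA hs pu M)

end Crest.Agent.N49.Mv
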