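import Crest.Agent.N49.Mv.Sk
import Crest.Agent.N49.Md.Uft

/-!
# Row 49 (helper38): polynomials in the letters with coefficients in the coordinates
-/

set_option autoImplicit false

open Finset MvPolynomial

noncomputable section

namespace Crest.Agent.N49.Mv

open Tw Sy Md

variable {τ ι ι' R : Type} [CommRing R]

/-- bihomogeneous of total degree `d` -/
def Hs (lev : ι → ℕ) (d : ℕ) (Q : MvPolynomial τ (MvPolynomial ι R)) : Prop :=
  ∀ μ m, coeff m (coeff μ Q) ≠ 0 → μ.degree + Finsupp.weight lev m = d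

variable {lev : ι → ℕ} {lev' : ι' → ℕ} {d d' : ℕ} {Q Q' : MvPolynomial τ (MvPolynomial ι R)}

theorem Hs.zero : Hs lev d (0 : MvPolynomial τ (MvPolynomial ι R)) := fun _ _ z =>
  absurd (by simp) z

theorem Hs.add (h : Hs lev d Q) (k : Hs lev d Q') : Hs lev d (Q + Q') := fun μ m z => by
  rw [coeff_add, coeff_add] at z
  by_cases e : coeff m (coeff μ Q) = 0
  · exact k μ m fun e' => z (by rw [e, e', add_zero])
  · exact h μ m e

theorem Hs.sum {α : Type*} (s : Finset α) {f : α → MvPolynomial τ (MvPolynomial ι R)}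
    (h : ∀ a ∈ s, Hs lev d (f a)) : Hs lev d (∑ a ∈ s, f a) :=
  sum_induction _ _ (fun _ _ => Hs.add) Hs.zero h

theorem Hs.mul (h : Hs lev d Q) (k : Hs lev d' Q') : Hs lev (d + d') (Q * Q') := fun μ m z => by
  classical
  rw [coeff_mul, coeff_sum] at z
  obtain ⟨x, hx, z⟩ := exists_ne_zero_of_sum_ne_zero z
  rw [coeff_mul] at z
  obtain ⟨y, hy, z⟩ := exists_ne_zero_of_sum_ne_zero z
  rw [← HasAntidiagonal.mem_antidiagonal.1 hx, ← HasAntidiagonal.mem_antidiagonal.1 hy, map_add,
    map_add, ← h _ _ (left_ne_zero_of_mul z), ← k _ _ (right_ne_zero_of_mul z)]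
  ring

theorem Hs.monomial {P : MvPolynomial ι R} (h : P.IsWeightedHomogeneous lev d) (μ : τ →₀ ℕ) :
    Hs lev (μ.degree + d) (monomial μ P) := fun μ' m z => by
  classical
  rw [coeff_monomial] at z
  split_ifs at z with e
  · rw [← e, h z]
  · exact absurd (coeff_zero _) z

theorem Hs.C {P : MvPolynomial ι R} (h : P.IsWeightedHomogeneous lev d) :
    Hs (τ := τ) lev d (C P) := by
  have := Hs.monomial (τ := τ) h 0
  rwa [map_zero, zero_add] at this

theorem Hs.map {P : MvPolynomial τ R} (h : P.IsHomogeneous d) :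
    Hs lev d (map MvPolynomial.C P) := fun μ m z => by
  classical
  rw [coeff_map, coeff_C] at z
  split_ifs at z with e
  · rw [← e, map_zero, add_zero, Finsupp.degree_eq_weight_one]; exact h z
  · exact absurd rfl z

theorem Hs.one : Hs lev 0 (1 : MvPolynomial τ (MvPolynomial ι R)) :=
  Hs.C (isWeightedHomogeneous_one R lev)

theorem Hs.pow (h : Hs lev d Q) (n : ℕ) : Hs lev (n * d) (Q ^ n) := by
  induction n with
  | zero => rw [zero_mul, pow_zero]; exact Hs.one
  | succ n ih => rw [pow_succ, add_mul, one_mul]; exact ih.mul h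

theorem Hs.prod {α : Type*} (s : Finset α) {f : α → MvPolynomial τ (MvPolynomial ι R)} {g : α → ℕ}
    (h : ∀ a ∈ s, Hs lev (g a) (f a)) : Hs lev (∑ a ∈ s, g a) (∏ a ∈ s, f a) := by
  classical
  induction s using Finset.induction_on with
  | empty => exact Hs.one
  | insert a s k ih =>
    rw [sum_insert k, prod_insert k]
    exact (h a (mem_insert_self _ _)).mul (ih fun b e => h b (mem_insert_of_mem e))

theorem Hs.aeval {σ : ι' → MvPolynomial τ (MvPolynomial ι R)} (h : ∀ v, Hs lev (lev' v) (σ v))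
    {P : MvPolynomial ι' R} (k : P.IsWeightedHomogeneous lev' d) : Hs lev d (aeval σ P) := by
  rw [P.as_sum, map_sum]
  refine Hs.sum _ fun m e => ?_
  rw [aeval_monomial, ← k (mem_support_iff.1 e), Finsupp.weight_apply, Finsupp.sum, Finsupp.prod,
    ← zero_add (∑ a ∈ _, _)]
  exact (Hs.C (isWeightedHomogeneous_C lev _)).mul (Hs.prod _ fun v _ => (h v).pow _)

theorem Hs.coeff (h : Hs lev d Q) (μ : τ →₀ ℕ) :
    (coeff μ Q).IsWeightedHomogeneous lev (d - μ.degree) := fun m z => by
  have := h μ m z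
  omega

theorem Hs.le (h : Hs lev d Q) {μ : τ →₀ ℕ} (z : MvPolynomial.coeff μ Q ≠ 0) : μ.degree ≤ d := by
  obtain ⟨m, e⟩ := ne_zero_iff.1 z
  have := h μ m e
  omega

/-- integer coefficients as real ones -/
abbrev zz (Q : MvPolynomial τ (MvPolynomial ι ℤ)) : MvPolynomial τ (MvPolynomial ι ℝ) :=
  map (map (Int.castRingHom ℝ)) Q

theorem Hs.zz {Q : MvPolynomial τ (MvPolynomial ι ℤ)} (h : Hs lev d Q) : Hs lev d (zz Q) :=
  fun μ m z => h μ m fun e => z (by rw [coeff_map, coeff_map, e, map_zero])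

/-- evaluation: the letter `a` is multiplied by `e a`, the coordinates are `Y` -/
def ev (e : τ → ℝ) (Y : ι → MvPolynomial τ ℝ) :
    MvPolynomial τ (MvPolynomial ι ℝ) →ₐ[ℝ] MvPolynomial τ ℝ :=
  aevalTower (aeval Y) fun a => C (e a) * X a

variable (e : τ → ℝ) (Y : ι → MvPolynomial τ ℝ)

theorem ev_C (P : MvPolynomial ι ℝ) : ev e Y (C P) = aeval Y P := aevalTower_C _ _ _

theorem ev_map (P : MvPolynomial τ ℝ) : ev e Y (map C P) = scl e P := by
  induction P using MvPolynomial.induction_on with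
  | C a => rw [map_C, ev_C, aeval_C, algHom_C]
  | add p q a b => simp only [map_add, a, b]
  | mul_X p a h => rw [map_mul, map_mul, map_mul, h, map_X, ev, aevalTower_X, scl, aeval_X]

theorem ev_monomial (μ : τ →₀ ℕ) (P : MvPolynomial ι ℝ) :
    ev e Y (monomial μ P) = monomial μ (μ.prod fun i k => e i ^ k) * aeval Y P := by
  have : monomial μ P = map C (monomial μ (1 : ℝ)) * C P := by
    rw [map_monomial, map_one, mul_comm, C_mul_monomial, mul_one]
  rw [this, map_mul, ev_C, ev_map, Uf.scl_monomial, mul_one]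

theorem ev_aeval (σ : ι' → MvPolynomial τ (MvPolynomial ι ℝ)) (P : MvPolynomial ι' ℝ) :
    ev e Y (aeval σ P) = aeval (fun v => ev e Y (σ v)) P := by
  rw [← AlgHom.comp_apply, comp_aeval]

theorem ev_hom {Y : ι → MvPolynomial τ ℝ} (hY : ∀ c, (Y c).IsHomogeneous (lev c))
    {Q : MvPolynomial τ (MvPolynomial ι ℝ)} (h : Hs lev d Q) : (ev e Y Q).IsHomogeneous d := by
  rw [Q.as_sum, map_sum]
  refine IsHomogeneous.sum _ _ _ fun μ k => ?_
  rw [ev_monomial, ← Nat.add_sub_cancel' (h.le (mem_support_iff.1 k))]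
  refine (isHomogeneous_monomial _ rfl).mul ?_
  have := h.coeff μ
  rw [(coeff μ Q).as_sum, map_sum]
  refine IsHomogeneous.sum _ _ _ fun m k' => ?_
  rw [aeval_monomial, ← this (mem_support_iff.1 k'), Finsupp.weight_apply, Finsupp.sum,
    Finsupp.prod, ← zero_add (∑ a ∈ _, _)]
  refine (isHomogeneous_C _ _).mul (IsHomogeneous.prod _ _ _ fun v _ => ?_)
  rw [smul_eq_mul, mul_comm]
  exact (hY v).pow _

variable [DecidableEq τ]

theorem prod_ind (A : Finset τ) : ((ind A).prod fun i k => e i ^ k) = ∏ a ∈ A, e a :=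
  prod_congr rfl fun a k => by rw [ind_apply, if_pos k]; exact pow_one _

/-- **the squarefree coefficients of an evaluation** -/
theorem coeff_ev (Q : MvPolynomial τ (MvPolynomial ι ℝ)) (B : Finset τ) :
    coeff (ind B) (ev e Y Q) = ∑ A ∈ B.powerset, (∏ a ∈ A, e a) *
      coeff (ind (B \ A)) (aeval Y (coeff (ind A) Q)) := by
  induction Q using MvPolynomial.induction_on' with
  | add p q a b => simp only [map_add, coeff_add, a, b, mul_add, sum_add_distrib]
  | monomial μ P =>
    rw [ev_monomial, coeff_ind_mul]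
    refine sum_congr rfl fun A _ => ?_
    rw [coeff_monomial, coeff_monomial]
    split_ifs with k
    · rw [k, prod_ind]
    · simp

/-- fixed points of triangular maps -/
theorem exists_fix {N : Type} {V : N → Type} (rk : N → ℕ) (Γ : (∀ n, V n) → ∀ n, V n)
    (z0 : ∀ n, V n) (h : ∀ z z' n, (∀ n', rk n' < rk n → z n' = z' n') → Γ z n = Γ z' n) :
    ∃ z, Γ z = z := by
  have a : ∀ r n k k', rk n < r → rk n < k → rk n < k' → Γ^[k] z0 n = Γ^[k'] z0 n := by
    intro r
    induction r with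
    | zero => intro n k k' h0; omega
    | succ r ih =>
      intro n k k' h0 h1 h2
      obtain ⟨k, rfl⟩ := Nat.exists_eq_succ_of_ne_zero (by omega : k ≠ 0)
      obtain ⟨k', rfl⟩ := Nat.exists_eq_succ_of_ne_zero (by omega : k' ≠ 0)
      rw [Function.iterate_succ_apply', Function.iterate_succ_apply']
      exact h _ _ _ fun n' e => ih n' k k' (by omega) (by omega) (by omega)
  refine ⟨fun n => Γ^[rk n + 1] z0 n, funext fun n => ?_⟩
  rw [Function.iterate_succ_apply']
  exact h _ _ _ fun n' e => a _ n' _ _ (Nat.lt_succ_self _) (Nat.lt_succ_self _) e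

end Crest.Agent.N49.Mv

end
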