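import Crest.Agent.N49.Mv.Hs
import Crest.Agent.N49.Mv.Defs
import Crest.Agent.N49.Md.Comp

/-!
# Row 49 (helper38): more on symbols; the substitution of a move
-/

set_option autoImplicit false
set_option linter.unusedSectionVars false

open Finset MvPolynomial

noncomputable section

namespace Crest.Agent.N49.Mv

open Tw Sy Md Sd

namespace Pl

section sy
variable {ι ι' τ : Type} [DecidableEq τ] [Fintype τ] {lev : ι → ℕ} {lev' : ι' → ℕ}

theorem sy_lin' (P : MvPolynomial ι ℝ) {S : Finset τ} {i : τ} (hi : i ∈ S)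
    {y y₁ y₂ : ι → Finset τ → ℝ} (a b : ℝ)
    (h1 : ∀ c, ∀ B ⊆ S, #B = lev c → i ∉ B → y₁ c B = y c B ∧ y₂ c B = y c B)
    (h : ∀ c, ∀ B ⊆ S, #B = lev c → i ∈ B → y c B = a * y₁ c B + b * y₂ c B) :
    sy lev P y S = a * sy lev P y₁ S + b * sy lev P y₂ S := by
  rw [sy_congr' lev (y := y) (y' := fun c B => if i ∈ B then a * y₁ c B + b * y₂ c B else y c B) P
      fun c B k e => by split_ifs with z; exacts [h c B k e z, rfl],
    sy_congr' lev (y := y₁) (y' := fun c B => if i ∈ B then y₁ c B else y c B) P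
      fun c B k e => by split_ifs with z; exacts [rfl, (h1 c B k e z).1],
    sy_congr' lev (y := y₂) (y' := fun c B => if i ∈ B then y₂ c B else y c B) P
      fun c B k e => by split_ifs with z; exacts [rfl, (h1 c B k e z).2]]
  exact sy_lin lev P hi a b (fun c B z => by simp [z]) (fun c B z => by simp [z])
    fun c B z => by simp [z]

theorem abs_sy_lin {P : MvPolynomial ι ℝ} {u : ι → Finset τ → ℝ} {S : Finset τ} {i : τ}
    (hi : i ∈ S) {r t : ℝ} {s : ℕ} (h1 : 1 ≤ r) (ht : 0 ≤ t)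
    (hu : ∀ c, ∀ B ⊆ S, #B = lev c → |u c B| ≤ if i ∈ B then t else r)
    (hs : ∀ m ∈ P.support, m.degree ≤ s) : |sy lev P u S| ≤ t * (l1 P * (2 ^ #S * r) ^ s) := by
  rw [sy_lin' P hi (y₁ := fun c B => if i ∈ B then u c B / t else u c B)
    (y₂ := fun c B => if i ∈ B then u c B / t else u c B) t 0 (fun c B _ _ z => by simp [z])
    fun c B k e z => by
      have := hu c B k e
      rw [if_pos z] at this ⊢
      rcases ht.eq_or_lt with rfl | p
      · simpa using this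
      · field_simp; simp,
    zero_mul, add_zero, abs_mul, abs_of_nonneg ht]
  refine mul_le_mul_of_nonneg_left (abs_sy_le lev h1 (fun c B k e => ?_) hs) ht
  have := hu c B k e
  split_ifs at this ⊢
  · rw [abs_div, abs_of_nonneg ht]; exact (div_le_one_of_le₀ this ht).trans h1
  · exact this

theorem sy_empty (h : ∀ c, 0 < lev c) (P : MvPolynomial ι ℝ) (y : ι → Finset τ → ℝ) :
    sy lev P y ∅ = coeff 0 P := by
  induction P using MvPolynomial.induction_on with
  | C a => simp [sy_C]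
  | add p q a b => rw [sy_add, a, b, coeff_add]
  | mul_X p c k =>
    rw [sy_mul, powerset_empty, sum_singleton, sy_X, if_neg (by simpa using (h c).ne),
      ← constantCoeff_eq]
    simp

theorem sy_rename {g : ι → ι'} (hg : ∀ c, lev' (g c) = lev c) (P : MvPolynomial ι ℝ)
    (y : ι' → Finset τ → ℝ) (S : Finset τ) :
    sy lev' (rename g P) y S = sy lev P (fun c => y (g c)) S := by
  rw [sy, sy, aeval_rename]
  exact congrArg (fun Y => coeff _ (aeval Y P)) (funext fun c => by simp [Yp, hg])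

/-- the coefficients only use the variables in `S` -/
def Cs (S : Set ι) (Q : MvPolynomial τ (MvPolynomial ι ℝ)) : Prop :=
  ∀ μ, coeff μ Q ∈ supported ℝ S

variable {S : Set ι} {Q Q' : MvPolynomial τ (MvPolynomial ι ℝ)}

theorem Cs.add (h : Cs S Q) (k : Cs S Q') : Cs S (Q + Q') := fun μ => by
  rw [coeff_add]; exact add_mem (h μ) (k μ)

theorem Cs.mul (h : Cs S Q) (k : Cs S Q') : Cs S (Q * Q') := fun μ => by
  rw [coeff_mul]; exact sum_mem fun _ _ => mul_mem (h _) (k _)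

theorem Cs.mon {P : MvPolynomial ι ℝ} (h : P ∈ supported ℝ S) (μ : τ →₀ ℕ) :
    Cs S (monomial μ P) := fun μ' => by
  rw [coeff_monomial]; split_ifs; exacts [h, zero_mem _]

theorem Cs.map (P : MvPolynomial τ ℝ) : Cs S (map C P) := fun μ => by
  rw [coeff_map]; exact Subalgebra.algebraMap_mem _ _

theorem Cs.sum {α : Type*} (s : Finset α) {f : α → MvPolynomial τ (MvPolynomial ι ℝ)}
    (h : ∀ a ∈ s, Cs S (f a)) : Cs S (∑ a ∈ s, f a) :=
  sum_induction _ _ (fun _ _ => Cs.add) (fun _ => zero_mem _) h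

theorem Cs.aeval {σ : ι' → MvPolynomial τ (MvPolynomial ι ℝ)} {P : MvPolynomial ι' ℝ}
    {S' : Set ι'} (hP : P ∈ supported ℝ S') (h : ∀ v ∈ S', Cs S (σ v)) : Cs S (aeval σ P) := by
  induction hP using Algebra.adjoin_induction with
  | mem x hx => obtain ⟨c, hc, rfl⟩ := hx; rw [aeval_X]; exact h c hc
  | algebraMap a => rw [AlgHom.commutes]; exact Cs.mon (Subalgebra.algebraMap_mem _ a) 0
  | add p q _ _ hp hq => rw [map_add]; exact hp.add hq
  | mul p q _ _ hp hq => rw [map_mul]; exact hp.mul hq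

theorem ev_sy (e : τ → ℝ) (ξ : ι → Finset τ → ℝ) (Q : MvPolynomial τ (MvPolynomial ι ℝ))
    (B : Finset τ) : coeff (ind B) (ev e (Yp lev ξ) Q) =
      ∑ A ∈ B.powerset, (∏ a ∈ A, e a) * sy lev (coeff (ind A) Q) ξ (B \ A) := coeff_ev _ _ _ _

theorem ev_congr (e : τ → ℝ) {ξ ξ' : ι → Finset τ → ℝ} (h : Cs S Q) {B : Finset τ}
    (k : ∀ c ∈ S, ∀ A ⊆ B, #A = lev c → ξ c A = ξ' c A) :
    coeff (ind B) (ev e (Yp lev ξ) Q) = coeff (ind B) (ev e (Yp lev ξ') Q) := by
  rw [ev_sy, ev_sy]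
  exact sum_congr rfl fun A _ => congrArg _
    (sy_congr lev (h _) fun c hc A' a => k c hc A' (a.trans sdiff_subset))

theorem ev_int {e : τ → ℝ} (he : ∀ a, ∃ n : ℤ, e a = n) (ξ : ι → Finset τ → ℤ)
    (Q : MvPolynomial τ (MvPolynomial ι ℤ)) (B : Finset τ) :
    ∃ n : ℤ, coeff (ind B) (ev e (Yp lev (wr ξ)) (zz Q)) = n := by
  choose g hg using he
  have : ∀ A, ∃ n : ℤ, sy lev (coeff (ind A) (zz Q)) (wr ξ) (B \ A) = n := fun A => by
    rw [coeff_map]; exact sy_int lev _ fun c B _ => ⟨_, rfl⟩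
  choose n hn using this
  exact ⟨∑ A ∈ B.powerset, (∏ a ∈ A, g a) * n A, by simp [ev_sy, hg, hn]⟩

theorem sy_ev {σ : ι' → MvPolynomial τ (MvPolynomial ι ℝ)} (h : ∀ v, Hs lev (lev' v) (σ v))
    (e : τ → ℝ) (ξ : ι → Finset τ → ℝ) (P : MvPolynomial ι' ℝ) (B : Finset τ) :
    sy lev' P (fun v A => coeff (ind A) (ev e (Yp lev ξ) (σ v))) B =
      coeff (ind B) (ev e (Yp lev ξ) (aeval σ P)) := by
  rw [ev_aeval]
  refine Uf.coeff_congr P fun v A _ => ?_
  rw [Uf.coeff_Yp]
  split_ifs with k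
  · rfl
  · exact (by_contra fun z => k (Uf.ind_hom (ev_hom e (Uf.Yp_hom lev ξ) (h v)) z) : _ = _).symm

end sy

end Pl

end Crest.Agent.N49.Mv

end
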