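import Crest.Agent.N49.Mv.Pu0
import Crest.Agent.N49.Rn.Q

/-!
# Row 49 (helper38): the substitution of a move and the new pending families
-/

set_option autoImplicit false
set_option linter.unusedSectionVars false

open Finset MvPolynomial

noncomputable section

namespace Crest.Agent.N49.Mv.Pl

open Tw Sy Md Sd

variable {τ L : Type} [Fintype τ] [DecidableEq τ] [Fintype L] [DecidableEq L] {T T2 : TS Unit}
  (P : Bk T.C Unit) (W : Finset (Finset τ)) (blk : τ → L) (x : L)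

/-- the new pending families -/
abbrev NN : Type := {z : P.N × Finset τ // z.2 ∈ W ∧ z.2 ≠ ∅ ∧ x ∉ z.2.image blk ∧
  #z.2 < (P.wd z.1).degree}

/-- the old levels -/
def l1' : T.C ⊕ P.N → ℕ := Sum.elim T.lev fun a => (P.wd a).degree

variable (T2) in
/-- the new levels -/
def l2' : T2.C ⊕ NN P W blk x → ℕ := Sum.elim T2.lev fun z => (P.wd z.1.1).degree - #z.1.2

/-- the homogenising coordinates of the fibre -/
def ex (a : τ) : ℝ := if blk a = x then 0 else 1

variable (θ : Md.Tan T T2 τ) (ν : ℕ) (ρ : P.N → MvPolynomial T2.C ℤ) (k : P.N → MvPolynomial τ ℤ)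

/-- the old families, without the background, divided by `ν` -/
def s1 (F : T.C) : MvPolynomial τ (MvPolynomial (T2.C ⊕ NN P W blk x) ℤ) :=
  ∑ G with θ.fam G = some F, map C (θ.mon G) * C (ν ^ (T2.lev G - 1) • X (.inl G))

/-- the pending families, without the background -/
def s0 (a : P.N) : MvPolynomial τ (MvPolynomial (T2.C ⊕ NN P W blk x) ℤ) :=
  ∑ z : NN P W blk x with z.1.1 = a, monomial (ind z.1.2) (X (.inr z)) + C (rename .inl (ρ a))

/-- the substitution -/
def sg : T.C ⊕ P.N → MvPolynomial τ (MvPolynomial (T2.C ⊕ NN P W blk x) ℤ) :=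
  Sum.elim (fun F => map C (θ.be F) + ν • s1 P W blk x θ ν F)
    fun a => map C (k a) + s0 P W blk x ρ a

/-- the forms after the substitution -/
def th (a : P.N) : MvPolynomial τ (MvPolynomial (T2.C ⊕ NN P W blk x) ℝ) :=
  aeval (fun v => zz (sg P W blk x θ ν ρ k v)) (P.Θ a)

/-- the new pending families -/
def nb : Bk T2.C Unit where
  N := NN P W blk x
  wd z := Finsupp.single () ((P.wd z.1.1).degree - #z.1.2)
  rk z := P.rk z.1.1
  Θ z := coeff (ind z.1.2) (th P W blk x θ ν ρ k z.1.1)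

/-- the map of word functions -/
def io (ξ : T2.C ⊕ NN P W blk x → Finset τ → ℝ) (v : T.C ⊕ P.N) (B : Finset τ) : ℝ :=
  coeff (ind B) (ev (ex blk x) (Yp (l2' T2 P W blk x) ξ) (zz (sg P W blk x θ ν ρ k v)))

theorem lev1 : (Bk.ext T P).lev = l1' P := funext fun v => by cases v <;> rfl

theorem lev2 : (Bk.ext T2 (nb P W blk x θ ν ρ k)).lev = l2' T2 P W blk x :=
  funext fun v => by
    rcases v with c | z
    · rfl
    · exact Finsupp.degree_single _ _

/-- the hypotheses -/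
structure Hy (X : ℝ) : Prop where
  t1 : T.Ok
  t2 : T2.Ok
  ok : P.Ok T.deg
  θ : θ.Ok X
  ρ : ∀ a, (ρ a).IsWeightedHomogeneous T2.lev (P.wd a).degree
  k : ∀ a, (k a).IsHomogeneous (P.wd a).degree

variable {P θ ρ k} {X : ℝ}

theorem hom_unit {C : Type} {w : C → Unit →₀ ℕ} {Q : MvPolynomial C ℝ} {d : Unit →₀ ℕ} :
    Q.IsWeightedHomogeneous w d ↔ Q.IsWeightedHomogeneous (fun c => (w c).degree) d.degree := by
  have a : ∀ m : C →₀ ℕ, (Finsupp.weight w m).degree = Finsupp.weight (fun c => (w c).degree) m :=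
    fun m => by simp only [Finsupp.weight_apply, Finsupp.sum, map_sum, map_nsmul]
  exact ⟨fun h m z => by rw [← a, h z], fun h m z => unit_ext (by rw [a, h z])⟩

theorem hom_Θ (h : P.Ok T.deg) (a : P.N) :
    (P.Θ a).IsWeightedHomogeneous (l1' P) (P.wd a).degree := by
  have := hom_unit.1 (h.hom a)
  rwa [show (fun c => (P.wg T.deg c).degree) = l1' P from lev1 P] at this

theorem hom_rn {C C' R : Type} [CommRing R] {w : C → ℕ} {w' : C' → ℕ} {g : C → C'}
    (hg : ∀ c, w' (g c) = w c) {Q : MvPolynomial C R} {d : ℕ} (h : Q.IsWeightedHomogeneous w d) :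
    (rename g Q).IsWeightedHomogeneous w' d := fun m z => by
  obtain ⟨u, rfl, e⟩ := coeff_rename_ne_zero _ _ _ z
  rw [← h e, Finsupp.weight_apply, Finsupp.weight_apply,
    Finsupp.sum_mapDomain_index (by simp) (fun _ _ _ => add_smul ..)]
  simp only [hg]

theorem l2_pos (h : T2.Ok) (v : T2.C ⊕ NN P W blk x) : 0 < l2' T2 P W blk x v := by
  rcases v with c | z
  · exact h.toTri.lev_pos c
  · exact Nat.sub_pos_of_lt z.2.2.2.2

theorem hs_s1 (h : θ.Ok X) (F : T.C) : Hs (l2' T2 P W blk x) (T.lev F) (s1 P W blk x θ ν F) :=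
  Hs.sum _ fun G e => by
    have a := h.le F G (mem_filter.1 e).2
    rw [← Nat.sub_add_cancel a.1]
    exact (Hs.map a.2).mul (Hs.C (Rn.hom_smul (isWeightedHomogeneous_X ℤ _ (Sum.inl G)) _))

theorem hs_s0 (h : ∀ a, (ρ a).IsWeightedHomogeneous T2.lev (P.wd a).degree) (a : P.N) :
    Hs (l2' T2 P W blk x) (P.wd a).degree (s0 P W blk x ρ a) := by
  refine (Hs.sum _ fun z e => ?_).add (Hs.C (hom_rn (fun _ => rfl) (h a)))
  have := Hs.monomial (isWeightedHomogeneous_X ℤ (l2' T2 P W blk x) (.inr z)) (ind z.1.2)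
  rwa [Cm.deg_ind'', show l2' T2 P W blk x (.inr z) = _ - #z.1.2 from rfl,
    Nat.add_sub_cancel' z.2.2.2.2.le, (mem_filter.1 e).2] at this

theorem Hy.sg (h : Hy P θ ρ k X) (v : T.C ⊕ P.N) :
    Hs (l2' T2 P W blk x) (l1' P v) (zz (sg P W blk x θ ν ρ k v)) := by
  rcases v with F | a
  · refine ((Hs.map (h.θ.be F)).add fun μ m z => hs_s1 W blk x ν h.θ F μ m fun e => z ?_).zz
    rw [coeff_smul, coeff_smul, e, smul_zero]
  · exact ((Hs.map (h.k a)).add (hs_s0 W blk x h.ρ a)).zz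

theorem Hy.th (h : Hy P θ ρ k X) (a : P.N) :
    Hs (l2' T2 P W blk x) (P.wd a).degree (th P W blk x θ ν ρ k a) :=
  Hs.aeval (h.sg W blk x ν) (hom_Θ h.ok a)

theorem zz_map {ι : Type} (Q : MvPolynomial τ ℤ) :
    zz (map C Q : MvPolynomial τ (MvPolynomial ι ℤ)) = map C (zr Q) := by
  ext μ m; simp [coeff_map]

theorem zz_s1 (F : T.C) : zz (s1 P W blk x θ ν F) = ∑ G with θ.fam G = some F,
    map C (zr (θ.mon G)) * C ((ν : ℝ) ^ (T2.lev G - 1) • MvPolynomial.X (.inl G)) := by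
  simp only [s1, map_sum, map_mul, zz_map, map_C]
  refine sum_congr rfl fun G _ => congrArg (_ * C ·) ?_
  simp [smul_eq_C_mul]

theorem zz_s0 (a : P.N) : zz (s0 P W blk x ρ a) = ∑ z : NN P W blk x with z.1.1 = a,
    monomial (ind z.1.2) (MvPolynomial.X (.inr z)) + C (rename .inl (zr (ρ a))) := by
  simp only [s0, map_sum, map_add, map_monomial, map_X, map_C, map_rename]

theorem zz_inl (F : T.C) : zz (sg P W blk x θ ν ρ k (.inl F)) =
    map C (zr (θ.be F)) + (ν : ℝ) • zz (s1 P W blk x θ ν F) := by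
  simp only [sg, Sum.elim_inl, map_add, zz_map, map_nsmul, Nat.cast_smul_eq_nsmul]

theorem zz_inr (a : P.N) : zz (sg P W blk x θ ν ρ k (.inr a)) =
    map C (zr (k a)) + zz (s0 P W blk x ρ a) := by
  simp only [sg, Sum.elim_inr, map_add, zz_map]

/-- old coordinates and the pending families over `p` -/
def Sp (p : P.N → Prop) : Set (T2.C ⊕ NN P W blk x) := {w | ∀ z, w = .inr z → p z.1.1}

theorem mem_inl {p : P.N → Prop} (Q : MvPolynomial T2.C ℝ) :
    rename .inl Q ∈ supported ℝ (Sp (T2 := T2) W blk x p) := by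
  induction Q using MvPolynomial.induction_on with
  | C a => rw [rename_C]; exact Subalgebra.algebraMap_mem _ a
  | add p q a b => rw [map_add]; exact add_mem a b
  | mul_X p c h => rw [map_mul, rename_X]; exact mul_mem h (X_mem_supported.2 nofun)

theorem cs_s0 {p : P.N → Prop} {a : P.N} (h : p a) :
    Cs (Sp W blk x p) (zz (s0 P W blk x ρ a)) := by
  rw [zz_s0]
  refine (Cs.sum _ fun z e => Cs.mon (X_mem_supported.2 ?_) _).add (Cs.mon (mem_inl W blk x _) 0)
  rintro _ ⟨⟩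
  exact (mem_filter.1 e).2 ▸ h

theorem cs_sg {p : P.N → Prop} {v : T.C ⊕ P.N} (h : ∀ a, v = .inr a → p a) :
    Cs (Sp W blk x p) (zz (sg P W blk x θ ν ρ k v)) := by
  rcases v with F | a
  · rw [zz_inl, zz_s1]
    refine (Cs.map _).add fun μ => ?_
    rw [coeff_smul]
    exact Subalgebra.smul_mem _ (Cs.sum _ (fun G _ => (Cs.map _).mul (Cs.mon
      (Subalgebra.smul_mem _ (X_mem_supported.2 fun _ e => by cases e) _) 0)) μ) _
  · rw [zz_inr]; exact (Cs.map _).add (cs_s0 W blk x (h a rfl))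

theorem cs_th (h : P.Tri) (a : P.N) :
    Cs (Sp W blk x fun a' => P.rk a' < P.rk a) (th P W blk x θ ν ρ k a) :=
  Cs.aeval (mem_supported_vars _) fun _ hv => cs_sg W blk x ν fun a' e => h a a' (e ▸ hv)

theorem th_congr (h : P.Tri) {k' : P.N → MvPolynomial τ ℤ} {a : P.N}
    (e : ∀ a', P.rk a' < P.rk a → k a' = k' a') :
    th P W blk x θ ν ρ k a = th P W blk x θ ν ρ k' a := by
  classical
  refine hom_congr_vars (f₁ := (aeval _ : _ →ₐ[ℝ] _).toRingHom)
    (f₂ := (aeval _ : _ →ₐ[ℝ] _).toRingHom) (by ext1 r; simp) (fun v hv _ => ?_) rfl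
  rcases v with F | a'
  · simp [sg]
  · simp [sg, e a' (h a a' hv)]

theorem Hy.nb (h : Hy P θ ρ k X) : (nb P W blk x θ ν ρ k).Ok T2.deg where
  ne z := Finsupp.single_ne_zero.2 (Nat.sub_pos_of_lt z.2.2.2.2).ne'
  hom z := hom_unit.2 (by
    have := (h.th W blk x ν z.1.1).coeff (ind z.1.2)
    rw [Cm.deg_ind'', ← lev2 P W blk x θ ν ρ k] at this
    exact (Finsupp.degree_single () ((P.wd z.1.1).degree - #z.1.2)).symm ▸ this)
  live _ c _ := h.t2.ne c
  tri z z' e := mem_supported.1 (cs_th W blk x ν h.ok.tri z.1.1 _) e z' rfl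

theorem Hy.sy_io (h : Hy P θ ρ k X) (ξ : T2.C ⊕ NN P W blk x → Finset τ → ℝ)
    (Q : MvPolynomial (T.C ⊕ P.N) ℝ) (B : Finset τ) : sy (l1' P) Q (io P W blk x θ ν ρ k ξ) B =
      coeff (ind B) (ev (ex blk x) (Yp (l2' T2 P W blk x) ξ)
        (aeval (fun v => zz (Pl.sg P W blk x θ ν ρ k v)) Q)) := sy_ev (h.sg W blk x ν) _ _ _ _

theorem ev_inl (h : T2.Ok) (e : τ → ℝ) (ξ : T2.C ⊕ NN P W blk x → Finset τ → ℝ) (F : T.C) :
    ev e (Yp (l2' T2 P W blk x) ξ) (zz (sg P W blk x θ ν ρ k (.inl F))) =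
      θ.Y e (fun _ => ν) (Yp T2.lev fun G => ξ (.inl G)) F := by
  rw [zz_inl, zz_s1, map_add, map_smul, map_sum, ev_map, Tan.Y, smul_sum]
  refine congrArg _ (sum_congr rfl fun G _ => ?_)
  have a := aeval_dil (A := MvPolynomial τ ℝ) (Uf.Yp_hom T2.lev (fun G => ξ (.inl G)) G) (C ν)
    MvPolynomial.X
  simp only [Pi.one_apply, pow_one, aeval_X_left_apply] at a
  rw [map_mul, ev_map, ev_C, map_smul, aeval_X, scl, scl, a, ← mul_smul_comm, smul_smul,
    ← pow_succ', Nat.sub_add_cancel (h.toTri.lev_pos G), smul_eq_C_mul, map_pow]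
  rfl

end Crest.Agent.N49.Mv.Pl

end
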