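import Crest.Agent.N49.Mv.Pu1

/-!
# Row 49 (helper38): the errors after the substitution of a move
-/

set_option autoImplicit false
set_option linter.unusedSectionVars false

open Finset MvPolynomial

noncomputable section

namespace Crest.Agent.N49.Mv.Pl

open Tw Sy Md Sd

variable {τ L : Type} [Fintype τ] [DecidableEq τ] [Fintype L] [DecidableEq L] {T T2 : TS Unit}
  {P : Bk T.C Unit} {W : Finset (Finset τ)} {blk : τ → L} {x : L} {θ : Md.Tan T T2 τ} {ν : ℕ}
  {ρ : P.N → MvPolynomial T2.C ℤ} {k : P.N → MvPolynomial τ ℤ} {X : ℝ} {s : ℕ} {B : Finset τ}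

theorem ex_prod (A : Finset τ) :
    ∏ a ∈ A, ex blk x a = if x ∈ A.image blk then 0 else 1 := by
  split_ifs with h
  · obtain ⟨a, e, rfl⟩ := mem_image.1 h
    exact prod_eq_zero e (if_pos rfl)
  · exact prod_eq_one fun a e => if_neg fun z => h (mem_image.2 ⟨a, e, z⟩)

theorem ex_int (a : τ) : ∃ n : ℤ, ex blk x a = n :=
  ⟨if blk a = x then 0 else 1, by unfold ex; split_ifs <;> simp⟩

theorem x_sdiff {A : Finset τ} (h : x ∈ B.image blk) (z : x ∉ A.image blk) :
    x ∈ (B \ A).image blk := by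
  obtain ⟨a, e, rfl⟩ := mem_image.1 h
  exact mem_image_of_mem _ (mem_sdiff.2 ⟨e, fun k => z (mem_image_of_mem _ k)⟩)

theorem x_iff (w : Wf s W blk) (hB : B ∈ W) {i : τ} (hi : i ∈ B) (e : blk i = x) {A : Finset τ}
    (a : A ⊆ B) : i ∈ A ↔ x ∈ A.image blk :=
  ⟨fun k => mem_image.2 ⟨i, k, e⟩, fun k => by
    obtain ⟨j, c, d⟩ := mem_image.1 k
    rwa [← w.inj B hB (a c) hi (d.trans e.symm)]⟩

theorem ev_lin {ι : Type} {lev : ι → ℕ} (w : Wf s W blk) (hB : B ∈ W) (hx : x ∈ B.image blk)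
    {ξ ξ1 ξ2 : ι → Finset τ → ℝ} (a b : ℝ)
    (h1 : ∀ c, ∀ A ∈ W, x ∉ A.image blk → #A = lev c → ξ1 c A = ξ c A ∧ ξ2 c A = ξ c A)
    (h : ∀ c, ∀ A ∈ W, x ∈ A.image blk → #A = lev c → ξ c A = a * ξ1 c A + b * ξ2 c A)
    (Q : MvPolynomial τ (MvPolynomial ι ℝ)) : coeff (ind B) (ev (ex blk x) (Yp lev ξ) Q) =
      a * coeff (ind B) (ev (ex blk x) (Yp lev ξ1) Q) +
        b * coeff (ind B) (ev (ex blk x) (Yp lev ξ2) Q) := by
  simp only [ev_sy, mul_sum, ← sum_add_distrib, ex_prod]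
  refine sum_congr rfl fun A _ => ?_
  split_ifs with z
  · simp
  obtain ⟨i, hi, e⟩ := mem_image.1 (x_sdiff hx z)
  have c := fun A' (k : A' ⊆ B \ A) => w.dw B hB A' (k.trans sdiff_subset)
  have d := fun A' (k : A' ⊆ B \ A) => x_iff w (c _ subset_rfl) hi e k
  simp only [one_mul]
  exact sy_lin' _ hi a b (fun v A' k l n => h1 v A' (c _ k) (mt (d _ k).2 n) l)
    fun v A' k l n => h v A' (c _ k) ((d _ k).1 n) l

theorem io_congr {ξ ξ' : T2.C ⊕ NN P W blk x → Finset τ → ℝ}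
    (h : ∀ c, ∀ A ⊆ B, #A = l2' T2 P W blk x c → ξ c A = ξ' c A) (v : T.C ⊕ P.N) :
    io P W blk x θ ν ρ k ξ v B = io P W blk x θ ν ρ k ξ' v B :=
  ev_congr (S := Set.univ) _ (fun _ => by simp) fun c _ => h c

theorem io_inl (ξ : T2.C ⊕ NN P W blk x → Finset τ → ℝ) (F : T.C) (hx : x ∈ B.image blk) :
    io P W blk x θ ν ρ k ξ (.inl F) B = ν * coeff (ind B)
      (ev (ex blk x) (Yp (l2' T2 P W blk x) ξ) (zz (s1 P W blk x θ ν F))) := by
  rw [io, zz_inl, map_add, map_smul, ev_map, coeff_add, Uf.coeff_ind_scl, ex_prod, if_pos hx,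
    zero_mul, zero_add, coeff_smul, smul_eq_mul]

theorem io_inr (ξ : T2.C ⊕ NN P W blk x → Finset τ → ℝ) (a : P.N) (hx : x ∉ B.image blk) :
    io P W blk x θ ν ρ k ξ (.inr a) B = (coeff (ind B) (k a) : ℤ) + coeff (ind B)
      (ev (ex blk x) (Yp (l2' T2 P W blk x) ξ) (zz (s0 P W blk x ρ a))) := by
  rw [io, zz_inr, map_add, ev_map, coeff_add, Uf.coeff_ind_scl, ex_prod, if_neg hx, one_mul,
    coeff_map]
  rfl

/-- the errors of the old families -/
theorem old (h : Hy P θ ρ k X) (hν : 1 ≤ ν)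
    (bd : ∀ G F, θ.fam G = some F → |θ.sc G| * l1 (zr (θ.mon G)) * ν ^ T2.lev G ≤ 1)
    (ξ : T2.C ⊕ NN P W blk x → Finset τ → ℝ) (F : T.C) (hx : x ∈ B.image blk) {t : ℝ} (ht : 0 ≤ t)
    (hu : ∀ G, ∀ A ⊆ B, x ∈ A.image blk → #A = T2.lev G → |ue T2 (fun G => ξ (.inl G)) G A| ≤ t) :
    |sy (l1' P) (rename .inl (T.Φ F)) (io P W blk x θ ν ρ k ξ) B| ≤ Fintype.card T2.C * t := by
  rw [h.sy_io, ev_aeval, aeval_rename]
  simp only [Function.comp_def, ev_inl W blk x ν h.t2]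
  rw [uft τ T T2 θ X h.θ, coeff_add, Uf.coeff_ind_scl, ex_prod, if_pos hx, zero_mul, zero_add,
    coeff_sum]
  refine (abs_sum_le_sum_abs _ _).trans ((sum_le_card_nsmul _ _ t fun G e => ?_).trans ?_)
  swap
  · rw [nsmul_eq_mul]
    exact mul_le_mul_of_nonneg_right (by exact_mod_cast card_le_univ _) ht
  rw [coeff_smul, smul_eq_mul, coeff_ind_mul, abs_mul]
  refine le_trans ?_ (mul_le_of_le_one_left ht (bd G F (mem_filter.1 e).2))
  rw [mul_assoc, mul_assoc]
  refine mul_le_mul_of_nonneg_left ((abs_sum_le_sum_abs _ _).trans (le_trans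
    (sum_le_sum (g := fun A => |coeff (ind A) (zr (θ.mon G))| * (ν ^ T2.lev G * t)) fun A _ => ?_)
    ?_)) (abs_nonneg _)
  · rw [Uf.coeff_ind_scl, Uf.coeff_ind_scl, ex_prod, prod_const]
    split_ifs with z
    · simp only [zero_mul, abs_zero]; positivity
    rw [one_mul, abs_mul, abs_mul]
    refine mul_le_mul_of_nonneg_left ?_ (abs_nonneg _)
    by_cases l : #(B \ A) = T2.lev G
    · rw [l, abs_of_nonneg (by positivity)]
      exact mul_le_mul_of_nonneg_left (hu G _ sdiff_subset (x_sdiff hx z) l) (by positivity)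
    · rw [show coeff (ind (B \ A)) (aeval (Yp T2.lev fun G => ξ (.inl G)) (T2.Φ G)) = 0 from
        sy_hom T2.lev (h.t2.hom_lev G) _ l, abs_zero, mul_zero]
      positivity
  · rw [← sum_mul]
    refine mul_le_mul_of_nonneg_right ?_ (by positivity)
    rw [← sum_image (g := ind) (f := fun μ => |coeff μ (zr (θ.mon G))|) fun _ _ _ _ => ind_inj]
    exact sum_le_l1 _ _

theorem cc_aeval {ι ι' : Type} (σ : ι' → MvPolynomial τ (MvPolynomial ι ℝ))
    (Q : MvPolynomial ι' ℝ) : coeff 0 (aeval σ Q) = aeval (fun v => coeff 0 (σ v)) Q := by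
  simp only [← constantCoeff_eq]
  induction Q using MvPolynomial.induction_on with
  | C a => simp
  | add p q a b => simp only [map_add, a, b]
  | mul_X p c a => simp only [map_mul, a, aeval_X]

theorem co_hom {R : Type} [CommRing R] {Q : MvPolynomial τ R} {d : ℕ} (h : Q.IsHomogeneous d)
    {A : Finset τ} (e : #A ≠ d) : coeff (ind A) Q = 0 :=
  h.coeff_eq_zero (by rwa [Cm.deg_ind''])

theorem lv_pos (h : P.Ok T.deg) (a : P.N) : 0 < (P.wd a).degree :=
  Nat.pos_of_ne_zero fun e => h.ne a ((Finsupp.degree_eq_zero_iff _).1 e)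

theorem co_inr (a : P.N) (A : Finset τ) : coeff (ind A) (zz (sg P W blk x θ ν ρ k (.inr a))) =
    C ((coeff (ind A) (k a) : ℤ) : ℝ) + ((∑ z : NN P W blk x with z.1 = (a, A),
      MvPolynomial.X (.inr z)) + if A = ∅ then rename .inl (zr (ρ a)) else 0) := by
  rw [zz_inr, zz_s0, coeff_add, coeff_add, coeff_map, coeff_map, coeff_sum, coeff_C, sum_filter,
    sum_filter]
  refine congrArg₂ _ rfl (congrArg₂ _ (sum_congr rfl fun z _ => ?_)
    (if_congr (eq_comm.trans ind_eq_zero) rfl rfl))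
  rw [coeff_monomial, ← ite_and]
  exact if_congr ⟨fun e => Prod.ext e.1 (ind_inj e.2), fun e => by rw [e]; exact ⟨rfl, rfl⟩⟩ rfl rfl

theorem cc_sg (h : Hy P θ ρ k X) (v : T.C ⊕ P.N) : coeff 0 (zz (sg P W blk x θ ν ρ k v)) =
    rename .inl (Sum.elim (fun F => (ν : ℝ) ^ T.lev F • MvPolynomial.X (θ.top F))
      (fun a => zr (ρ a)) v) := by
  rw [← ind_empty]
  rcases v with F | a
  · have p := h.t1.toTri.lev_pos F
    obtain ⟨t1, t2, -, t3⟩ := h.θ.top F
    rw [zz_inl, zz_s1, coeff_add, coeff_map, co_hom (A := ∅) (Uf.zr_hom (h.θ.be F)) p.ne, map_zero,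
      zero_add, coeff_smul, coeff_sum, sum_eq_single_of_mem (θ.top F) (by simp [t1]) fun G e n => ?_]
    · rw [t2, t3, zr, map_one, map_one, one_mul, ind_empty, coeff_zero_C, smul_smul, ← pow_succ',
        Nat.sub_add_cancel p]
      simp
    · have a := h.θ.le F G (mem_filter.1 e).2
      have b := mt (h.θ.uq F G (mem_filter.1 e).2) n
      rw [mul_comm, coeff_C_mul, coeff_map, co_hom (Uf.zr_hom a.2) (by rw [card_empty]; omega),
        map_zero, mul_zero]
  · rw [co_inr, co_hom (A := ∅) (h.k a) (lv_pos h.ok a).ne, if_pos rfl, sum_eq_zero fun z e =>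
      absurd (congrArg Prod.snd (mem_filter.1 e).2) z.2.2.1]
    simp

theorem aeval_aeval' {ι ι' ι'' : Type} (g : ι' → ι'') (σ : ι → MvPolynomial ι' ℝ)
    (Q : MvPolynomial ι ℝ) : rename g (aeval σ Q) = aeval (fun v => rename g (σ v)) Q := by
  rw [← AlgHom.comp_apply, comp_aeval]

variable (P W blk x θ ν ρ k) in
/-- the value of the form at the background -/
def c0 (a : P.N) (B : Finset τ) : ℝ := coeff 0 (coeff (ind B) (th P W blk x θ ν ρ k a))

/-- the errors of the pending families -/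
theorem pend (h : Hy P θ ρ k X) (w : Wf s W blk) {a : P.N} {G : MvPolynomial T2.C ℝ}
    (hG : aeval (Sum.elim (fun F => (ν : ℝ) ^ T.lev F • MvPolynomial.X (θ.top F)) fun a => zr (ρ a))
      (MvPolynomial.X (.inr a) - P.Θ a) = aeval T2.Φ G)
    (ξ : T2.C ⊕ NN P W blk x → Finset τ → ℝ) (hB : B ∈ W) (hl : #B = (P.wd a).degree) {t : ℝ}
    (ht : 0 ≤ t) (hu : ∀ z : NN P W blk x, z.1.1 = a → z.1.2 ⊆ B → |sy (l2' T2 P W blk x)
      (MvPolynomial.X (.inr z) - (nb P W blk x θ ν ρ k).Θ z) ξ (B \ z.1.2)| ≤ t) :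
    |sy (l1' P) (MvPolynomial.X (.inr a) - P.Θ a) (io P W blk x θ ν ρ k ξ) B -
      sy T2.lev G (ue T2 fun G => ξ (.inl G)) B - (if x ∈ B.image blk then 0 else 1) *
        ((coeff (ind B) (k a) : ℤ) - c0 P W blk x θ ν ρ k a B)| ≤ 2 ^ #B * t := by
  have n : B ≠ ∅ := fun e => (lv_pos h.ok a).ne (by rw [← hl, e, card_empty])
  rw [h.sy_io, ev_sy, ← sum_ite_eq_of_mem' _ _ (fun _ => sy T2.lev G (ue T2 fun G => ξ (.inl G)) B)
    (empty_mem_powerset B), ← sum_ite_eq_of_mem' _ _ (fun _ => (if x ∈ B.image blk then 0 else 1) *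
      (((coeff (ind B) (k a) : ℤ) : ℝ) - c0 P W blk x θ ν ρ k a B)) (mem_powerset_self B),
    ← sum_sub_distrib, ← sum_sub_distrib]
  refine (abs_sum_le_sum_abs _ _).trans ((sum_le_card_nsmul _ _ t fun A e => ?_).trans_eq
    (by rw [card_powerset, nsmul_eq_mul, Nat.cast_pow, Nat.cast_two]))
  replace e := mem_powerset.1 e
  by_cases a0 : A = ∅
  · subst a0
    rw [if_pos rfl, if_neg n.symm, prod_empty, one_mul, ind_empty, cc_aeval, sdiff_empty]
    simp only [cc_sg h]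
    rw [← aeval_aeval' , hG, sy_rename (lev := T2.lev) (lev' := l2' T2 P W blk x) (g := .inl)
      (fun _ => rfl), ← sy_aeval T2.lev T2.lev h.t2.hom_lev]
    exact (congrArg abs ((sub_zero _).trans (sub_self _))).trans_le (by simpa using ht)
  rw [if_neg a0, sub_zero, map_sub, aeval_X, coeff_sub, co_inr, if_neg a0, add_zero, ex_prod]
  by_cases aB : A = B
  · subst aB
    rw [if_pos rfl, sdiff_self, bot_eq_empty, sy_empty (l2_pos W blk x h.t2), sum_eq_zero fun z e =>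
      absurd z.2.2.2.2 (by rw [(mem_filter.1 e).2]; exact hl.not_lt), add_zero, coeff_sub,
      coeff_zero_C]
    simpa [c0, th] using ht
  rw [if_neg aB, sub_zero]
  split_ifs with z
  · simpa using ht
  have l : #A < (P.wd a).degree := hl ▸ card_lt_card (lt_of_le_of_ne e aB)
  rw [co_hom (h.k a) l.ne, Int.cast_zero, map_zero, zero_add, one_mul,
    sum_eq_single_of_mem (⟨(a, A), w.dw B hB A e, a0, z, l⟩ : NN P W blk x) (by simp) fun y c d =>
      absurd (Subtype.ext (mem_filter.1 c).2 : y = ⟨(a, A), _⟩) d]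
  exact hu ⟨(a, A), _⟩ rfl e

end Crest.Agent.N49.Mv.Pl

end
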