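import Crest.Agent.N49.Mv.Pu2

/-!
# Row 49 (helper38): the background of the pending families; pull-back of the relation
-/

set_option autoImplicit false
set_option linter.unusedSectionVars false

open Finset MvPolynomial

noncomputable section

namespace Crest.Agent.N49.Mv.Pl

open Tw Sy Md Sd

variable {τ L : Type} [Fintype τ] [DecidableEq τ] [Fintype L] [DecidableEq L] {T T2 : TS Unit}
  {P : Bk T.C Unit} {W : Finset (Finset τ)} {blk : τ → L} {x : L} {θ : Md.Tan T T2 τ} {ν : ℕ}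
  {ρ : P.N → MvPolynomial T2.C ℤ} {k k' : P.N → MvPolynomial τ ℤ} {X : ℝ} {s : ℕ} {B : Finset τ}

variable (P W blk x) in
/-- the background with given coefficients -/
def kp (κ : P.N × Finset τ → ℤ) (a : P.N) : MvPolynomial τ ℤ :=
  ∑ A ∈ W with x ∉ A.image blk ∧ #A = (P.wd a).degree, monomial (ind A) (κ (a, A))

theorem kp_hom (κ : P.N × Finset τ → ℤ) (a : P.N) :
    (kp P W blk x κ a).IsHomogeneous (P.wd a).degree := IsHomogeneous.sum _ _ _ fun A e =>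
  isHomogeneous_monomial _ ((Cm.deg_ind'' A).trans (mem_filter.1 e).2.2)

theorem kp_coeff (κ : P.N × Finset τ → ℤ) {a : P.N} (hB : B ∈ W) (hx : x ∉ B.image blk)
    (hl : #B = (P.wd a).degree) : coeff (ind B) (kp P W blk x κ a) = κ (a, B) := by
  rw [kp, coeff_sum, sum_eq_single_of_mem B (mem_filter.2 ⟨hB, hx, hl⟩) fun A _ n => by
    rw [coeff_monomial, if_neg fun e => n (ind_inj e)], coeff_monomial, if_pos rfl]

theorem kp_inj (h : P.Tri) {κ κ' : P.N × Finset τ → ℤ} (e : ∀ a, ∀ B ∈ W, x ∉ B.image blk →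
    #B = (P.wd a).degree → κ (a, B) - round (c0 P W blk x θ ν ρ (kp P W blk x κ) a B) =
      κ' (a, B) - round (c0 P W blk x θ ν ρ (kp P W blk x κ') a B)) :
    kp P W blk x κ = kp P W blk x κ' := by
  have : ∀ r a, P.rk a < r → kp P W blk x κ a = kp P W blk x κ' a := fun r => by
    induction r with
    | zero => intro a h0; omega
    | succ r ih =>
      refine fun a h0 => sum_congr rfl fun A c => congrArg _ ?_
      have := e a A (mem_filter.1 c).1 (mem_filter.1 c).2.1 (mem_filter.1 c).2.2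
      rwa [c0, c0, th_congr W blk x ν h fun a' d => ih a' (by omega), sub_left_inj] at this
  exact funext fun a => this _ a (Nat.lt_succ_self _)

/-- the mixed words are rounded, the background is the rest -/
theorem fix (h : P.Tri) (y : T2.C → Finset τ → ℤ) (Y : T.C ⊕ P.N → Finset τ → ℤ) :
    ∃ (κ : P.N × Finset τ → ℤ) (Y' : T2.C ⊕ NN P W blk x → Finset τ → ℤ), (∀ G, Y' (.inl G) = y G) ∧
      (∀ z B, #B = l2' T2 P W blk x (.inr z) → |sy (l2' T2 P W blk x) (MvPolynomial.X (.inr z) -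
        (nb P W blk x θ ν ρ (kp P W blk x κ)).Θ z) (wr Y') B| ≤ 1 / 2) ∧
      ∀ a, ∀ B ∈ W, x ∉ B.image blk → #B = (P.wd a).degree →
        io P W blk x θ ν ρ (kp P W blk x κ) (wr Y') (.inr a) B = Y (.inr a) B := by
  let g : ((P.N × Finset τ) ⊕ (NN P W blk x × Finset τ) → ℤ) → T2.C ⊕ NN P W blk x →
    Finset τ → ℤ := fun z => Sum.elim y fun n B => z (.inr (n, B))
  obtain ⟨z, hz⟩ := exists_fix (N := (P.N × Finset τ) ⊕ (NN P W blk x × Finset τ))
    (V := fun _ => ℤ) (Sum.elim (fun p => 2 * P.rk p.1 + 1) fun p => 2 * P.rk p.1.1.1)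
    (fun z => Sum.elim (fun p => Y (.inr p.1) p.2 - round (coeff (ind p.2) (ev (ex blk x)
      (Yp (l2' T2 P W blk x) (wr (g z))) (zz (s0 P W blk x ρ p.1))))) fun p =>
        round (sy (l2' T2 P W blk x) (coeff (ind p.1.1.2) (th P W blk x θ ν ρ
          (kp P W blk x fun p => z (.inl p)) p.1.1.1)) (wr (g z)) p.2)) 0 (by
      rintro z z' (p | p) e
      · refine congrArg (fun t => _ - round t) (ev_congr _ (cs_s0 W blk x (p := (· = p.1)) rfl) ?_)
        rintro (G | n) hc A - -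
        · rfl
        · exact congrArg Int.cast (e (.inr (n, A)) (by
            have := hc n rfl
            simp only [Sum.elim_inl, Sum.elim_inr, this]; omega))
      · refine congrArg round ?_
        rw [th_congr W blk x ν h (k := kp P W blk x fun p => z (.inl p)) (a := p.1.1.1)
          (k' := kp P W blk x fun p => z' (.inl p)) fun a' d => sum_congr rfl fun A _ => congrArg _ (e (.inl (a', A)) (by
            simp only [Sum.elim_inl, Sum.elim_inr]; omega))]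
        refine sy_congr _ (cs_th W blk x ν h _ _) ?_
        rintro (G | n) hc A - -
        · rfl
        · exact congrArg Int.cast (e (.inr (n, A)) (by
            have := hc n rfl
            simp only [Sum.elim_inr]; omega)))
  refine ⟨fun p => z (.inl p), g z, fun _ => rfl, fun n B l => ?_, fun a B hB hx l => ?_⟩
  · refine (congrArg abs ((sy_sub (l2' T2 P W blk x) _ _ _ _).trans (congrArg (· - _)
      ((sy_X (l2' T2 P W blk x) _ _ (.inr n)).trans (if_pos l))))).trans_le ?_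
    rw [abs_sub_comm]
    exact (congrArg (fun t : ℤ => |_ - (t : ℝ)|) (congrFun hz (.inr (n, B))).symm).trans_le
      (abs_sub_round _)
  · obtain ⟨m, hm⟩ := ev_int (lev := l2' T2 P W blk x) (ex_int (blk := blk) (x := x)) (g z)
      (s0 P W blk x ρ a) B
    rw [io_inr _ _ hx, kp_coeff _ hB hx l, ← congrFun hz (.inl (a, B))]
    simp [hm]

theorem ue1 (ξ : T.C ⊕ P.N → Finset τ → ℝ) (v : T.C ⊕ P.N) :
    ue (Bk.ext T P) ξ v B = sy (l1' P) ((Bk.ext T P).Φ v) ξ B :=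
  congrArg (fun l => sy l _ ξ B) (lev1 P)

theorem ue2 (ξ : T2.C ⊕ NN P W blk x → Finset τ → ℝ) (v : T2.C ⊕ NN P W blk x) :
    ue (Bk.ext T2 (nb P W blk x θ ν ρ k)) ξ v B =
      sy (l2' T2 P W blk x) ((Bk.ext T2 (nb P W blk x θ ν ρ k)).Φ v) ξ B :=
  congrArg (fun l => sy l _ ξ B) (lev2 P W blk x θ ν ρ k)

theorem ue1_inl (ξ : T.C ⊕ P.N → Finset τ → ℝ) (F : T.C) :
    ue (Bk.ext T P) ξ (.inl F) B = sy (l1' P) (rename .inl (T.Φ F)) ξ B := ue1 ξ _

theorem ue1_inr (ξ : T.C ⊕ P.N → Finset τ → ℝ) (a : P.N) :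
    ue (Bk.ext T P) ξ (.inr a) B = sy (l1' P) (MvPolynomial.X (.inr a) - P.Θ a) ξ B := ue1 ξ _

theorem ue2_inr (ξ : T2.C ⊕ NN P W blk x → Finset τ → ℝ) (z : NN P W blk x) :
    ue (Bk.ext T2 (nb P W blk x θ ν ρ k)) ξ (.inr z) B = sy (l2' T2 P W blk x)
      (MvPolynomial.X (.inr z) - (nb P W blk x θ ν ρ k).Θ z) ξ B := ue2 ξ _

theorem ue2_inl (ξ : T2.C ⊕ NN P W blk x → Finset τ → ℝ) (G : T2.C) :
    ue (Bk.ext T2 (nb P W blk x θ ν ρ k)) ξ (.inl G) B = ue T2 (fun G => ξ (.inl G)) G B :=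
  (ue2 ξ _).trans (sy_rename (lev := T2.lev) (lev' := l2' T2 P W blk x) (g := .inl)
    (fun _ => rfl) _ _ _)

variable (P W blk θ ν ρ) in
/-- the data of a move -/
structure Hm (s : ℕ) (G : P.N → MvPolynomial T2.C ℝ) (g : ℝ) : Prop where
  wf : Wf s W blk
  one : 1 ≤ ν
  bd : ∀ G F, θ.fam G = some F → |θ.sc G| * l1 (zr (θ.mon G)) * ν ^ T2.lev G ≤ 1
  eq : ∀ a, aeval (Sum.elim (fun F => (ν : ℝ) ^ T.lev F • MvPolynomial.X (θ.top F))
    fun a => zr (ρ a)) (MvPolynomial.X (.inr a) - P.Θ a) = aeval T2.Φ (G a)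
  l1 : ∀ a, l1 (G a) ≤ g
  dg : ∀ a, ∀ m ∈ (G a).support, m.degree ≤ s

variable {G : P.N → MvPolynomial T2.C ℝ} {g r : ℝ} {Y : T.C ⊕ P.N → Finset τ → ℤ}
  {Y' : T2.C ⊕ NN P W blk x → Finset τ → ℤ}

theorem pw_le (w : Wf s W blk) (hB : B ∈ W) : (2 : ℝ) ^ #B ≤ 2 ^ s :=
  pow_le_pow_right₀ one_le_two (w.le B hB)

theorem fb_io (w : Wf s W blk) (e : ∀ v, ∀ B ∈ W, x ∉ B.image blk → #B = l1' P v →
    io P W blk x θ ν ρ k (wr Y') v B = Y v B) {ξ : T2.C ⊕ NN P W blk x → Finset τ → ℝ}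
    (h : Fb (Bk.ext T2 (nb P W blk x θ ν ρ k)) W blk x Y' ξ) :
    Fb (Bk.ext T P) W blk x Y (io P W blk x θ ν ρ k ξ) := fun v B hB hx l =>
  (io_congr (ξ' := wr Y') (fun c A a d => h c A (w.dw B hB A a)
    (fun z => hx (image_subset_image a z)) (d.trans (congrFun (lev2 ..) c).symm)) v).trans
      (e v B hB hx (l.trans (congrFun (lev1 P) v)))

/-- the background is within a bounded distance from the value of the form -/
theorem c0_le (h : Hy P θ ρ k X) (m : Hm P W blk θ ν ρ s G g) (h1 : 1 ≤ r) {R : ℝ}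
    (e : ∀ v, ∀ B ∈ W, x ∉ B.image blk → #B = l1' P v → io P W blk x θ ν ρ k (wr Y') v B = Y v B)
    (c : ∀ G, ∀ A ∈ W, #A = T2.lev G → |ue T2 (fun G => wr Y' (.inl G)) G A| ≤ r)
    (d : ∀ z B, #B = l2' T2 P W blk x (.inr z) → |sy (l2' T2 P W blk x) (MvPolynomial.X (.inr z) -
      (nb P W blk x θ ν ρ k).Θ z) (wr Y') B| ≤ 1 / 2) {a : P.N} (hB : B ∈ W)
    (hx : x ∉ B.image blk) (l : #B = (P.wd a).degree)
    (u : |ue (Bk.ext T P) (wr Y) (.inr a) B| ≤ R) :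
    |((coeff (ind B) (k a) : ℤ) : ℝ) - c0 P W blk x θ ν ρ k a B| ≤
      R + g * (2 ^ s * r) ^ s + 2 ^ s := by
  have p := pend h m.wf (m.eq a) (wr Y') hB l (t := 1) zero_le_one fun z i j =>
    (d z _ (by rw [card_sdiff_of_subset j, l, ← i]; rfl)).trans (by norm_num)
  have q := (abs_sy_le T2.lev h1 (fun G A i j => c G A (m.wf.dw B hB A i) j) (m.dg a)).trans
    (mul_le_mul (m.l1 a) (pow_le_pow_left₀ (by positivity) (mul_le_mul_of_nonneg_right
      (pw_le m.wf hB) (by positivity)) s) (by positivity) ((l1_nonneg _).trans (m.l1 a)))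
  rw [if_neg hx, one_mul, mul_one, sy_congr' _ (y' := wr Y) _ fun v A i j =>
    e v A (m.wf.dw B hB A i) (fun z => hx (image_subset_image i z)) j] at p
  have := pw_le m.wf hB
  have u' : |sy (l1' P) (MvPolynomial.X (.inr a) - P.Θ a) (wr Y) B| ≤ R :=
    (congrArg abs (ue1_inr (wr Y) a)).symm.trans_le u
  rw [abs_le] at p q u' ⊢
  constructor <;> linarith [p.1, p.2, q.1, q.2, u'.1, u'.2]

theorem err (h : Hy P θ ρ k X) (m : Hm P W blk θ ν ρ s G g) (h1 : 1 ≤ r) (g0 : 0 ≤ g)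
    (c : ∀ G, ∀ A ∈ W, #A = T2.lev G → |ue T2 (fun G => wr Y' (.inl G)) G A| ≤ r)
    {ξ : T2.C ⊕ NN P W blk x → Finset τ → ℝ}
    (f : Fb (Bk.ext T2 (nb P W blk x θ ν ρ k)) W blk x Y' ξ) {t : ℝ} (ht : 0 ≤ t)
    (u : ∀ v, ∀ A ∈ W, x ∈ A.image blk → #A = l2' T2 P W blk x v →
      |ue (Bk.ext T2 (nb P W blk x θ ν ρ k)) ξ v A| ≤ t) (v : T.C ⊕ P.N) (hB : B ∈ W)
    (hx : x ∈ B.image blk) (l : #B = l1' P v) :
    |ue (Bk.ext T P) (io P W blk x θ ν ρ k ξ) v B| ≤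
      t * (Fintype.card T2.C + g * (2 ^ s * r) ^ s + 2 ^ s) := by
  have u1 : ∀ G, ∀ A ⊆ B, x ∈ A.image blk → #A = T2.lev G →
      |ue T2 (fun G => ξ (.inl G)) G A| ≤ t := fun G A i j d =>
    (congrArg abs (ue2_inl ξ G)).symm.trans_le (u (.inl G) A (m.wf.dw B hB A i) j d)
  have z : 0 ≤ t * (g * (2 ^ s * r) ^ s) := by positivity
  have z' : 0 ≤ t * 2 ^ s := by positivity
  rcases v with F | a
  · rw [ue1_inl]
    exact (old h m.one m.bd ξ F hx ht u1).trans (by linarith)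
  have p := pend h m.wf (m.eq a) ξ hB l ht fun z i j =>
    (congrArg abs (ue2_inr ξ z)).symm.trans_le (u (.inr z) _ (m.wf.dw B hB _ sdiff_subset)
      (x_sdiff hx z.2.2.2.1) (by rw [card_sdiff_of_subset j, l, ← i]; rfl))
  obtain ⟨i, hi, e⟩ := mem_image.1 hx
  have q := (abs_sy_lin (lev := T2.lev) (u := ue T2 fun G => ξ (.inl G)) hi h1 ht (fun G A a d => by
    have b := x_iff m.wf hB hi e a
    split_ifs with n
    · exact u1 G A a (b.1 n) d
    · exact (congrArg abs (sy_congr' T2.lev (y := fun G => ξ (.inl G))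
        (y' := fun G => wr Y' (.inl G)) _ fun G' A' a' d' => f (.inl G') A'
        (m.wf.dw B hB _ (a'.trans a)) (fun z => n (b.2 (image_subset_image a' z))) d')).trans_le
        (c G A (m.wf.dw B hB A a) d)) (m.dg a)).trans (mul_le_mul_of_nonneg_left
    (mul_le_mul (m.l1 a) (pow_le_pow_left₀ (by positivity) (mul_le_mul_of_nonneg_right
      (pw_le m.wf hB) (by positivity)) s) (by positivity) g0) ht)
  have := mul_le_mul_of_nonneg_right (pw_le m.wf hB) ht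
  have : 0 ≤ t * Fintype.card T2.C := by positivity
  rw [if_pos hx, zero_mul, sub_zero] at p
  rw [ue1_inr]
  rw [abs_le] at p q ⊢
  constructor <;> linarith [p.1, p.2, q.1, q.2]

theorem io_int (ξ : T2.C ⊕ NN P W blk x → Finset τ → ℤ) : io P W blk x θ ν ρ k (wr ξ) =
    wr fun v B => round (io P W blk x θ ν ρ k (wr ξ) v B) := funext fun v => funext fun B => by
  obtain ⟨n, e⟩ := ev_int (lev := l2' T2 P W blk x) (ex_int (blk := blk) (x := x)) ξ
    (sg P W blk x θ ν ρ k v) B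
  rw [wr, io, e, round_intCast]

/-- **pull-back of the relation** -/
theorem rx (h : Hy P θ ρ k X) (m : Hm P W blk θ ν ρ s G g) (h1 : 1 ≤ r) (g0 : 0 ≤ g)
    (e : ∀ v, ∀ B ∈ W, x ∉ B.image blk → #B = l1' P v → io P W blk x θ ν ρ k (wr Y') v B = Y v B)
    (c : ∀ G, ∀ A ∈ W, #A = T2.lev G → |ue T2 (fun G => wr Y' (.inl G)) G A| ≤ r)
    {la la' : L → ℝ} {Λ Bd Bd' : ℝ} (h2 : ∀ A ∈ W, |∏ a ∈ A, la (blk a)| ≤ Λ) (Λ0 : 0 ≤ Λ)
    (h3 : ∀ ℓ, la' ℓ = 1)
    (h4 : Λ * (Fintype.card T2.C + g * (2 ^ s * r) ^ s + 2 ^ s) * Bd ≤ Bd') {q : ℕ}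
    {F : (T.C ⊕ P.N → Finset τ → ℝ) → ℝ} (hR : Rx (Bk.ext T P) W blk la x Y q Bd F) :
    Rx (Bk.ext T2 (nb P W blk x θ ν ρ k)) W blk la' x Y' q Bd'
      (fun ξ => F (io P W blk x θ ν ρ k ξ)) ∧ (IsEmpty P.N → 1 ≤ q → q ∣ ν →
    Rx (Bk.ext T2 (nb P W blk x θ ν ρ k)) W blk la' x Y' 1 Bd'
      fun ξ => F (io P W blk x θ ν ρ k ξ)) := by
  obtain ⟨I, i1, i2, i3⟩ := hR
  have f := @fb_io _ _ _ _ _ _ _ _ _ _ _ _ _ _ _ _ _ _ _ m.wf e
  have l2 := congrFun (lev2 P W blk x θ ν ρ k)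
  have a := fun (a b : ℝ) ξ1 ξ2 ξ f1 f2 f3 (z : ∀ c, ∀ A ∈ W, x ∈ A.image blk →
      #A = (Bk.ext T2 (nb P W blk x θ ν ρ k)).lev c → ξ c A = a * ξ1 c A + b * ξ2 c A) =>
    i1 a b _ _ _ (f (ξ := ξ1) f1) (f (ξ := ξ2) f2) (f (ξ := ξ) f3) fun v B hB hx _ =>
      ev_lin m.wf hB hx a b (fun c A p p' d => ⟨(f1 c A p p' (d.trans (l2 c).symm)).trans
        (f3 c A p p' (d.trans (l2 c).symm)).symm, (f2 c A p p' (d.trans (l2 c).symm)).trans
        (f3 c A p p' (d.trans (l2 c).symm)).symm⟩)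
        (fun c A p p' d => z c A p p' (d.trans (l2 c).symm)) _
  have b := fun ξ (t : ℝ) f1 (ht : 0 ≤ t) (z : ∀ c, ∀ A ∈ W, x ∈ A.image blk →
      #A = (Bk.ext T2 (nb P W blk x θ ν ρ k)).lev c → |(∏ a ∈ A, la' (blk a)) *
        ue (Bk.ext T2 (nb P W blk x θ ν ρ k)) ξ c A| ≤ t) =>
    (i3 _ (t * (Λ * (Fintype.card T2.C + g * (2 ^ s * r) ^ s + 2 ^ s))) (f (ξ := ξ) f1)
      (by positivity) fun v B hB hx l => by
        rw [abs_mul, mul_left_comm]
        exact mul_le_mul (h2 B hB) (err h m h1 g0 c f1 ht (fun v A p p' d => by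
          simpa [h3] using z v A p p' (d.trans (l2 v).symm)) v hB hx
          (l.trans (congrFun (lev1 P) v))) (abs_nonneg _) Λ0).trans
      ((mul_assoc _ _ _).trans_le (mul_le_mul_of_nonneg_left h4 ht))
  refine ⟨⟨fun ξ => I (io P W blk x θ ν ρ k ξ), a, fun ξ f1 => ?_, b⟩, fun n q1 ⟨j, hj⟩ =>
    ⟨fun ξ => I (io P W blk x θ ν ρ k ξ) / q, fun a' b' ξ1 ξ2 ξ f1 f2 f3 z => ?_, fun ξ f1 => ?_,
      fun ξ t f1 ht z => by simpa using b ξ t f1 ht z⟩⟩
  · have u := io_int (θ := θ) (ν := ν) (ρ := ρ) (k := k) ξ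
    obtain ⟨n, hn⟩ := i2 _ (u ▸ f f1)
    exact ⟨n, (congrArg I u).trans hn⟩
  · exact (congrArg (· / (q : ℝ)) (a a' b' ξ1 ξ2 ξ f1 f2 f3 z)).trans (by ring)
  · let ζ : T.C ⊕ P.N → Finset τ → ℤ := fun v B => if x ∈ B.image blk then Sum.elim (fun F => j *
      round (coeff (ind B) (ev (ex blk x) (Yp (l2' T2 P W blk x) (wr ξ))
        (zz (s1 P W blk x θ ν F))))) (fun _ => 0) v else Y v B
    have z : Fb (Bk.ext T P) W blk x Y (wr ζ) := fun v B _ hx _ => congrArg _ (if_neg hx)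
    obtain ⟨n', hn⟩ := i2 ζ z
    refine ⟨n', (congrArg (· / (q : ℝ)) (i1 q 0 _ _ _ z z (f f1) ?_)).trans (by
      rw [hn, zero_mul, add_zero, mul_div_cancel_left₀ _ (by positivity)])⟩
    rintro (F | a) B _ hx _
    · obtain ⟨n, e⟩ := ev_int (lev := l2' T2 P W blk x) (ex_int (blk := blk) (x := x)) ξ
        (s1 P W blk x θ ν F) B
      refine (io_inl _ _ hx).trans ((congrArg _ e).trans ?_)
      change _ = q * (ζ (.inl F) B : ℝ) + _
      simp only [ζ, if_pos hx, Sum.elim_inl, e, round_intCast]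
      rw [hj]; push_cast; ring
    · exact n.elim a

end Crest.Agent.N49.Mv.Pl

end
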