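import Crest.Agent.N49.Mv.Pu3
import Crest.Agent.N49.Md.Idf
import Crest.Agent.N49.Md.Gxf
import Crest.Agent.N49.Md.Szb
import Crest.Agent.N49.Sy.Sok

/-!
# Row 49 (helper38): the relation after a move
-/

set_option autoImplicit false
set_option linter.unusedSectionVars false

open Finset MvPolynomial

noncomputable section

namespace Crest.Agent.N49.Mv

open Tw Sy Md Sd Rm

namespace Pl

variable {τ L : Type} [Fintype τ] [DecidableEq τ] [Fintype L] [DecidableEq L]

theorem Y_e {T T2 : TS Unit} (θ : Md.Tan T T2 τ) {e e' : τ → ℝ} (m : τ → ℝ)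
    (Z : T2.C → MvPolynomial τ ℝ) (F : T.C) {B : Finset τ} (h : ∀ a ∈ B, e a = e' a) :
    coeff (ind B) (θ.Y e m Z F) = coeff (ind B) (θ.Y e' m Z F) := by
  simp only [Tan.Y, coeff_add, coeff_sum, coeff_ind_mul, Uf.coeff_ind_scl e, Uf.coeff_ind_scl e']
  exact congrArg₂ _ (by rw [prod_congr rfl h]) (sum_congr rfl fun G _ => sum_congr rfl fun A k => by
    rw [prod_congr rfl fun a c => h a (mem_powerset.1 k c)])

/-- integer word functions -/
def sz (B : Bs L) (W : Finset (Finset τ)) (y : B.SC W → ℤ) (c : B.T.C) (A : Finset τ) : ℤ :=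
  if h : B.st c < B.M + 1 ∧ A ∈ W ∧ #A = B.T.lev c then y ⟨(c, A), h⟩ else 0

theorem wr_sz (B : Bs L) (W : Finset (Finset τ)) (y : B.SC W → ℤ) :
    wr (sz B W y) = sx B.T _ W fun w => (y w : ℝ) := funext fun c => funext fun A => by
  unfold wr sz sx; split_ifs <;> simp

variable {B : Bs L} {W : Finset (Finset τ)} {blk : τ → L} {x : L} {P : Bk B.T.C Unit}
  {f : Fr B.T τ L} {ν s h : ℕ} {ρ : P.N → MvPolynomial f.T.C ℤ} {k : P.N → MvPolynomial τ ℤ}

theorem pt_io (o : f.Ok s h) (w : Wf s W blk) (hm : f.m = fun _ => ν)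
    (ξ : f.T.C ⊕ NN P W blk x → Finset τ → ℝ) : pt B W x P (io P W blk x f.θ ν ρ k ξ) =
      ka B W blk f (pt f.toBs W x (nb P W blk x f.θ ν ρ k) ξ) := funext fun v => by
  rcases v with v | ℓ
  · refine Eq.trans ?_ (Cm.ka_inl B W blk f _ v).symm
    refine (congrArg (coeff (ind v.1.2)) (ev_inl W blk x ν o.old.ok _ ξ v.1.1)).trans ?_
    rw [hm]
    refine Cm.Y_congr _ _ _ (fun G A a => ?_) _
    rw [Cm.coeff_Yp, Cm.coeff_Yp]
    split_ifs with l
    · exact (sx_coe (fun w' => pt f.toBs W x (nb P W blk x f.θ ν ρ k) ξ (.inl w'))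
        ⟨(G, A), Nat.lt_succ_of_le (o.old.stg.le G).1, w.dw _ v.2.2.1 A a, l⟩).symm
    · rfl
  · exact Eq.trans rfl (Cm.ka_inr B W blk f (pt f.toBs W x (nb P W blk x f.θ ν ρ k) ξ) ℓ).symm

theorem num {s n : ℕ} (h : 2 ≤ n) :
    (n * s + n + (n + (s + n) * s + s + 2) + 2) * (n * ((n + 1) ^ s + 1)) ≤ n ^ (9 * (s + 1)) := by
  have a : s ≤ n ^ (s + 1) := (Nat.lt_two_pow_self.le.trans (Nat.pow_le_pow_left h s)).trans
    (Nat.pow_le_pow_right (by omega) (by omega))
  have b : n ≤ n ^ (s + 1) := Nat.le_self_pow (by omega) _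
  have c : (n + 1) ^ s ≤ (n ^ (s + 1)) ^ 2 := by
    rw [← pow_mul, mul_comm, pow_mul]
    exact (Nat.pow_le_pow_left (by nlinarith) s).trans (Nat.pow_le_pow_right (by positivity) (by omega))
  rw [mul_comm 9, pow_mul]
  generalize n ^ (s + 1) = u at *
  have d : n * s ≤ u * u := Nat.mul_le_mul b a
  have e : s * s ≤ u * u := Nat.mul_le_mul a a
  have g : 2 * u ≤ u * u := Nat.mul_le_mul_right _ (by omega)
  have i : 8 ≤ u ^ 3 := Nat.pow_le_pow_left (show 2 ≤ u by omega) 3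
  have j := Nat.mul_le_mul_left (u * u) i
  calc _ ≤ (u * u * u ^ 3) * (u * (u ^ 2 * u)) :=
        Nat.mul_le_mul (by nlinarith) (Nat.mul_le_mul b (by nlinarith))
    _ = _ := by ring

theorem num2 (s n : ℕ) : (2 : ℝ) ^ n + 2 ^ n * (2 ^ s * 2 ^ n) ^ s + 2 ^ s + 1 / 2 ≤
    2 ^ (n + (s + n) * s + s + 2) := by
  have a := fun j (e : j ≤ n + (s + n) * s + s) => pow_le_pow_right₀ (one_le_two (α := ℝ)) e
  have := a n (by omega)
  have := a (n + (s + n) * s) (by omega)
  have := a s (by omega)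
  have := a 0 (by omega)
  rw [← pow_add, ← pow_mul, ← pow_add, pow_add _ _ 2]
  linarith

end Pl

open Pl in
theorem pul (s : ℕ) : PUL s := by
  refine ⟨9 * (s + 1), fun τ L _ _ _ _ B W blk x P n l q ν h μ H D F E ρ G f e H1 hB hP hl q1 qν hR
    _ hH hf hw hc hu hO hC => ?_⟩
  have n2 := hB.two
  have w := hB.wf
  have t2 := hf.old.ok
  have la1 : ∀ ℓ, f.la ℓ = 1 := fun ℓ => le_antisymm (by simpa using (hw.la ℓ).2)
    (by simpa using (hw.la ℓ).1)
  have hy' : ∀ κ, Hy P f.θ (fun a => rename e (ρ a)) (kp P W blk x κ) (2 ^ h) := fun κ =>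
    ⟨hB.ok.old.ok, t2, hP.ok, hf.θ, fun a => hom_rn hu.lev (hH.hρ a), kp_hom κ⟩
  have hm : Hm P W blk f.θ ν (fun a => rename e (ρ a)) s (fun a => rename e (G a)) (2 ^ n) :=
    ⟨w, hw.one, fun G F z => by simpa using hw.bd G F z, fun a => by
      have := congrArg (rename e) (hH.eq a)
      rw [aeval_aeval', aeval_aeval'] at this
      rw [aeval_rename]
      refine Eq.trans (congrArg (aeval · _) (funext fun v => ?_)) (this.trans
        (congrArg (aeval · _) (funext fun c => (hu.Φ c).symm)))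
      rcases v with c | a
      · change _ = rename e (map (Int.castRingHom ℝ) (ν ^ B.T.lev c • X (.inl c)))
        simp [hu.top, smul_eq_C_mul]
      · exact map_rename _ _ _,
    fun a => (l1_rename _ _).trans (hH.l1 a), fun a m k => (deg_le_of_hom t2.toTri.lev_pos
      (hom_rn hu.lev (hH.hG a)) m k).trans ((hP.lv a).trans hl)⟩
  have A : ∀ y ∈ H1, ∃ κ, ∃ Y' : f.T.C ⊕ NN P W blk x → Finset τ → ℤ,
      (∀ c, Y' (.inl c) = sz f.toBs W y c) ∧ (∀ z A, #A = l2' f.T P W blk x (.inr z) →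
        |sy (l2' f.T P W blk x) (X (.inr z) - (nb P W blk x f.θ ν (fun a => rename e (ρ a))
          (kp P W blk x κ)).Θ z) (wr Y') A| ≤ 1 / 2) ∧
      (∀ c, ∀ A ∈ W, #A = f.T.lev c → |ue f.T (fun c => wr Y' (.inl c)) c A| ≤ 2 ^ n) ∧
      ∃ Y : B.T.C ⊕ P.N → Finset τ → ℤ, (∀ v, ∀ A ∈ W, x ∉ A.image blk → #A = l1' P v →
        io P W blk x f.θ ν (fun a => rename e (ρ a)) (kp P W blk x κ) (wr Y') v A = Y v A) ∧
      (∀ a, ∀ A ∈ W, x ∉ A.image blk → #A = (P.wd a).degree →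
        |ue (Bk.ext B.T P) (wr Y) (.inr a) A| ≤ 2 ^ n) ∧
      ∀ d, Rx (Bk.ext B.T P) W blk B.la x Y q (2 ^ n) fun ξ => F d (pt B W x P ξ) := fun y hy => by
    obtain ⟨y0, h0, e0⟩ := hO y hy
    obtain ⟨Y, a1, a2, a3⟩ := hR y0 h0
    obtain ⟨κ, Y', b1, b2, b3⟩ := fix (W := W) (blk := blk) (x := x) (θ := f.θ) (ν := ν)
      (ρ := fun a => rename e (ρ a)) hP.ok.tri (sz f.toBs W y) Y
    have c : (fun c => wr Y' (.inl c)) = sx f.T _ W fun w => (y w : ℝ) :=
      Eq.trans (funext fun c => funext fun A => congrArg Int.cast (congrFun (b1 c) A))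
        (wr_sz f.toBs W y)
    refine ⟨κ, Y', b1, b2, fun c' A i j => ?_, Y, ?_, a2, a3⟩
    · have := hC y hy ⟨(c', A), Nat.lt_succ_of_le (hf.old.stg.le c').1, i, j⟩
      rw [c]
      refine le_trans (le_of_eq (congrArg abs ?_)) this
      change _ = (∏ a ∈ A, f.la (blk a)) * _
      simp only [la1, prod_const_one, one_mul]
      rfl
    rintro (c' | a) A i j m
    · let v : B.SC W := ⟨(c', A), Nat.lt_succ_of_le (hB.ok.old.stg.le c').1, i, m⟩
      have := (Cm.ka_inl B W blk f _ v).symm.trans (congrFun e0 (.inl v))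
      rw [hw.m] at this
      refine (congrArg (coeff (ind A)) (ev_inl W blk x ν t2 _ _ c')).trans ?_
      rw [c, Y_e f.θ (e := ex blk x) (e' := fun _ => 1) _ _ _ fun a u => if_neg fun z => j (mem_image.2 ⟨a, u, z⟩)]
      exact this.trans (congrArg Int.cast (a1 v).symm)
    · exact b3 a A i j m
  choose! κ hκ using A
  let d : (f.SC W → ℤ) → P.N × {A // A ∈ W} → ℤ := fun y p =>
    if x ∉ p.2.1.image blk ∧ #p.2.1 = (P.wd p.1).degree then κ y (p.1, p.2.1) - round (c0 P W blk x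
      f.θ ν (fun a => rename e (ρ a)) (kp P W blk x (κ y)) p.1 p.2.1) else 0
  obtain ⟨i, -, hi⟩ := (Idf.sy_ok hf.toOk w).pr_pigeon (Fintype.piFinset fun _ =>
    Icc (-(2 : ℤ) ^ (n + (s + n) * s + s + 2)) (2 ^ (n + (s + n) * s + s + 2)))
    ⟨0, by simp⟩ H1 d fun y hy => Fintype.mem_piFinset.2 fun p => by
      rw [mem_Icc, ← abs_le]
      simp only [d]
      split_ifs with z
      · obtain ⟨Y', -, b2, b3, Y, b4, b5, -⟩ := hκ y hy
        have a := c0_le (hy' (κ y)) hm (one_le_pow₀ one_le_two) b4 b3 b2 p.2.2 z.1 z.2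
          (b5 _ _ p.2.2 z.1 z.2)
        rw [kp_coeff _ p.2.2 z.1 z.2] at a
        have := (abs_sub_le _ _ _).trans ((add_le_add a (abs_sub_round _)).trans (num2 s n))
        exact_mod_cast this
      · simp
  obtain ⟨κ0, h0⟩ : ∃ κ0, ∀ y ∈ H1, d y = i → kp P W blk x (κ y) = kp P W blk x κ0 := by
    by_cases z : ∃ y ∈ H1, d y = i
    · obtain ⟨y0, -, e0⟩ := z
      refine ⟨κ y0, fun y _ e1 => kp_inj (θ := f.θ) (ν := ν) (ρ := fun a => rename e (ρ a))
        hP.ok.tri fun a A b c u => ?_⟩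
      simpa only [d, if_pos (And.intro c u)] using congrFun (e1.trans e0.symm) (a, ⟨A, b⟩)
    · exact ⟨0, fun y a b => absurd ⟨y, a, b⟩ z⟩
  have cW : Fintype.card (P.N × {A // A ∈ W}) ≤ n * ((n + 1) ^ s + 1) := by
    rw [Fintype.card_prod, Fintype.card_coe]
    exact Nat.mul_le_mul hP.card ((card_W szb w).trans (by have := hB.cτ; gcongr))
  have nu := num (s := s) n2
  have nu1 := (Nat.le_mul_of_pos_left _ (by omega)).trans nu
  have nu2 := (Nat.le_mul_of_pos_right _ (by positivity)).trans nu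
  have S : ∀ q', (q' = q ∨ q' = 1 ∧ IsEmpty P.N) → RS f.toBs W blk x (nb P W blk x f.θ ν
      (fun a => rename e (ρ a)) (kp P W blk x κ0)) {y ∈ H1 | d y = i} q' (n ^ (9 * (s + 1)))
      fun d p => F d (ka B W blk f p) := fun q' hq y hy => by
    obtain ⟨Y', b1, b2, b3, Y, b4, -, b6⟩ := hκ y hy.1
    rw [h0 y hy.1 hy.2] at b2 b4
    refine ⟨Y', fun v => (congrFun (b1 _) _).trans (dif_pos v.2), fun z A _ _ u =>
      (congrArg abs (ue2_inr _ z)).trans_le ((b2 z A (u.trans (Finsupp.degree_single _ _))).trans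
        ((by norm_num : (1 : ℝ) / 2 ≤ 1).trans (one_le_pow₀ one_le_two))), fun d => ?_⟩
    have := rx (hy' κ0) hm (one_le_pow₀ one_le_two) (by positivity) b4 b3 (Λ := 2 ^ (n * s))
      (Bd' := 2 ^ n ^ (9 * (s + 1))) (fun A u => by
        rw [abs_prod, pow_mul]
        refine (prod_le_prod (g := fun _ => 2 ^ n) (fun _ _ => abs_nonneg _) fun a _ => ?_).trans
          ((prod_const _).trans_le <| pow_le_pow_right₀ (one_le_pow₀ one_le_two) (w.le A u))
        rw [abs_of_nonneg (le_trans (by positivity) (hB.ok.la _).1)]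
        exact (hB.ok.la _).2) (by positivity) la1 (by
        have c : (Fintype.card f.T.C : ℝ) ≤ 2 ^ n := by exact_mod_cast hc
        have := num2 s n
        refine le_trans (mul_le_mul_of_nonneg_right (mul_le_mul_of_nonneg_left
          (show _ ≤ (2 : ℝ) ^ (n + (s + n) * s + s + 2) by linarith) (by positivity))
          (by positivity)) ?_
        rw [← pow_add, ← pow_add]
        exact pow_le_pow_right₀ one_le_two (by omega)) (b6 d)
    simp only [pt_io hf w hw.m] at this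
    rcases hq with rfl | ⟨rfl, z⟩
    · exact this.1
    · exact this.2 z q1 qν
  refine ⟨_, _, fun y hy => hy.1, ⟨(hy' κ0).nb W blk x ν, ?_, fun z => ?_⟩, hi.trans ?_,
    S q (.inl rfl), fun z => S 1 (.inr ⟨rfl, z⟩)⟩
  · refine le_trans (Fintype.card_le_of_injective (fun z : NN P W blk x =>
      (z.1.1, (⟨z.1.2, z.2.1⟩ : {A // A ∈ W}))) fun z z' u => ?_) (cW.trans nu1)
    exact Subtype.ext (Prod.ext (congrArg (·.1) u :) (congrArg (·.2.1) u :))
  · refine (Finsupp.degree_single _ _).trans_le ?_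
    have := hP.lv z.1.1
    have := card_pos.2 (nonempty_iff_ne_empty.2 z.2.2.1)
    omega
  · refine mul_le_mul_of_nonneg_right ?_ (TT.pr_nonneg _)
    rw [Fintype.card_piFinset, prod_const, card_univ, Int.card_Icc]
    generalize n + (s + n) * s + s + 2 = m at *
    have a : ((2 : ℤ) ^ m + 1 - -2 ^ m).toNat ≤ 2 ^ (m + 2) := by
      have : (0 : ℤ) < 2 ^ m := by positivity
      rw [Int.toNat_le]; push_cast; rw [pow_add]; omega
    exact_mod_cast (Nat.pow_le_pow_left a _).trans (by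
      rw [← pow_mul]
      exact Nat.pow_le_pow_right two_pos ((Nat.mul_le_mul (by omega) cW).trans nu))

end Crest.Agent.N49.Mv

end
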