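import Crest.Agent.N49.Mv.Defs
import Crest.Agent.N49.Md.Co
import Crest.Agent.N49.Md.Bgp
import Crest.Agent.N49.Md.Szb
import Crest.Agent.N49.Gb.Un2
import Crest.Agent.N49.Un.Pre
import Crest.Agent.N49.Rn.Nstg
import Crest.Agent.N49.Tn.Stg
import Crest.Agent.N49.Tw.Mono
import Crest.Agent.N49.Rf.Ext2

/-!
# Row 49 (helper15): dilate, add new families, recentre (glue)
-/

set_option autoImplicit false
set_option linter.unusedSectionVars false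

open Matrix MvPolynomial Finset

noncomputable section

namespace Crest.Agent.N49.Mv

open Po Tw Sy Sd Md Rm

variable {τ L : Type} [Fintype τ] [DecidableEq τ] [Fintype L] [DecidableEq L]

theorem P_dk (T : TS Unit) (U : Finset (τ →₀ ℕ)) {k k' : (τ →₀ ℕ) → ℝ} (e : k = k')
    (A : Set (T.Cw (Sh.mono (fun _ => ()) U 0 (dk k)) → ℤ)) :
    (T.tw (Sh.mono (fun _ => ()) U 0 (dk k)) (T.tw0 _)).P A =
      (T.sh (Sh.mono (fun _ => ()) U 0 (dk k'))).P A := by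
  subst e
  have w : ∀ y, (T.tw (Sh.mono (fun _ => ()) U 0 (dk k)) (T.tw0 _)).wt y =
      (T.sh (Sh.mono (fun _ => ()) U 0 (dk k))).wt y := fun y =>
    congrArg (gs _) (funext fun _ => congrArg (MvPolynomial.eval (zc y))
      (congrArg (Sh.cf _ (MvPolynomial (T.Cw _) ℝ) _) (TS.eval₂_tw0 _ _)))
  exact congrArg₂ (· / ·) (tsum_congr fun y => congrArg (· * _) (w y)) (tsum_congr w)

theorem la1_bd {B : Bs L} {W : Finset (Finset τ)} {blk : τ → L} {s h ν : ℕ} {μ : ℝ}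
    (o : B.Ok s h) (wf : Wf s W blk) (h1 : 1 ≤ ν) (m0 : 0 < μ)
    (sm : ν ^ s * μ * 2 ^ (h * s + s) ≤ 1) : ∀ A ∈ W, #A ≤ s ∧ 0 < la1 blk B.la ν μ A ∧
      2 ^ s * la1 blk B.la ν μ A ^ 2 ≤ 1 := fun A hA => by
  have l0 : ∀ ℓ, 0 < B.la ℓ := fun ℓ => lt_of_lt_of_le (by positivity) (o.la ℓ).1
  have n1 : (1 : ℝ) ≤ ν := by exact_mod_cast h1
  have p : 0 < la1 blk B.la ν μ A := by
    have := prod_pos fun a (_ : a ∈ A) => l0 (blk a)
    unfold la1; positivity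
  have a : ∏ a ∈ A, B.la (blk a) ≤ 2 ^ (h * s) := by
    refine (prod_le_prod (fun a _ => (l0 _).le) fun a _ => (o.la (blk a)).2).trans ?_
    rw [prod_const, ← pow_mul]
    exact pow_le_pow_right₀ one_le_two (Nat.mul_le_mul_left _ (wf.le A hA))
  have b : la1 blk B.la ν μ A * 2 ^ s ≤ 1 := by
    refine le_trans ?_ sm
    rw [pow_add, ← mul_assoc]
    refine mul_le_mul_of_nonneg_right (mul_le_mul (mul_le_mul_of_nonneg_right
      (pow_le_pow_right₀ n1 (wf.le A hA)) m0.le) a (prod_nonneg fun a _ => (l0 _).le)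
      (by positivity)) (by positivity)
  have c : la1 blk B.la ν μ A ≤ 1 :=
    le_trans (le_mul_of_one_le_right p.le (one_le_pow₀ one_le_two)) b
  exact ⟨wf.le A hA, p, by nlinarith⟩

theorem arith {η p N0 N1 P1 P3 : ℝ} (η0 : 0 < η) (η1 : η ≤ 1 / 10) (p0 : 0 ≤ p)
    (u0 : (1 - η) * p ≤ N0) (hn : N0 ≤ N1) (u1 : N1 ≤ (1 + η) * P1) (u2 : 0 ≤ P1)
    (p3 : -η ≤ P3 - P1) : p / 2 - 11 * η ≤ P3 - 10 * η := by
  have a := mul_le_mul_of_nonneg_right η1 p0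
  have b := mul_le_mul_of_nonneg_right η1 u2
  nlinarith

theorem core (hS : SYP) (hR : RESN) (hL : LIFT) (hH : HMM) {B : Bs L} {W : Finset (Finset τ)}
    {blk : τ → L} {E : Nw B.T} {ν s h N C C2 : ℕ} {a η : ℝ} (m0 : MAST B.M C)
    (m1 : MAST (B.M * (s + 1) ^ s) C) (m2 : MARHT (B.M * (s + 1) ^ s) C)
    (m3 : MAST (mM s B.M) C2) (o : B.Ok s h) (wf : Wf s W blk) (w : E.Wf s) (h1 : 1 ≤ ν)
    (sm : ν ^ s * E.μ * 2 ^ (h * s + s) ≤ 1) (hN : ((Fintype.card τ + 1) ^ s + 1) ^ 2 ≤ N)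
    (η0 : 0 < η) (η1 : η ≤ 1 / 10) (ha : a ≤ 1 / 2 ^ (2 * h * s)) (r0 : B.Rg C N a η)
    (r1 : E.T.RgS (E.st B.st B.M s) (B.M * (s + 1) ^ s) C N a η)
    (tg : ∀ Ψ0, E.T.Adm (fr s W (la1 blk B.la ν E.μ)) (E.st B.st B.M s) Ψ0 →
      (E.T.tw _ Ψ0).P {b | ¬ (E.T.tan _ Ψ0 1 b).RgS (E.T.ts _ (E.st B.st B.M s)
        (B.M * (s + 1) ^ s)) (mM s B.M) C2 N a η} ≤ η) (H : Set (B.SC W → ℤ)) :
    ∃ r Ψ b hp, Rd B s h W blk (la1 blk B.la ν E.μ) E ν r Ψ ∧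
      (rf B s W _ E ν r Ψ b hp).toBs.Ok s 0 ∧ (rf B s W _ E ν r Ψ b hp).Rg C2 N a η ∧ ∃ H', Ov (ka B W blk (rf B s W _ E ν r Ψ b hp)) H' H ∧
      (B.SY W blk).pr H / 2 - 11 * η ≤ ((rf B s W _ E ν r Ψ b hp).SY W blk).pr H' := by
  obtain ⟨r, Ψ, ad, sf, hn⟩ := hR τ L B W blk s h ν E H o wf w h1
  obtain ⟨⟨z0, z1, z2, z3, tk, -⟩, ⟨J, _, _, ψ, N', Q, cj, sp⟩, lf'⟩ :=
    hL τ s N W _ wf.dw (la1_bd o wf h1 w.pos sm) hN
  obtain ⟨ad0, tp⟩ := lf' E.T _ Ψ ad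
  have oE := (nstg s B.M B.T B.st E o.old w).1
  have hp : ∀ c, 0 < E.T.lev c := oE.ok.toTri.lev_pos
  have e1 : η ≤ 1 := by linarith
  have a1 : a ≤ 1 := ha.trans (by simpa using Un.half_le (Nat.zero_le _))
  have l0 : ∀ ℓ, 0 < B.la ℓ ∧ B.la ℓ ≤ 2 ^ h := fun ℓ =>
    ⟨lt_of_lt_of_le (by positivity) (o.la ℓ).1, (o.la ℓ).2⟩
  obtain ⟨q1, -, q2, -⟩ := szb τ L blk B.la s h N a l0 (le_trans (by nlinarith) hN) ha
  have zB := q1 _ (q2 W wf).1 (q2 W wf).2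
  have aB := o.old.stg.adm zB.toOk
  have M0 := (TS.lw_mas o.old.stg aB zB.toOk).1
    (m0 _ _ _ _ _ _ _ _ _ (r0.hy o.old.stg η0 e1 aB zB le_rfl le_rfl))
  have M1 := (TS.lw_mas oE.stg ad z2.toOk).1
    (m1 _ _ _ _ _ _ _ _ _ (r1.hy oE.stg η0 e1 ad z2 le_rfl a1))
  have a3 := (tid _ _ E.T _ (dr W) _ _ 1 z1.toOk ad0 z0.toOk).1
  have y3 := r1.hy oE.stg η0 e1 a3 z3 le_rfl a1
  have pu := m2 _ _ _ J _ _ _ _ _ _ _ _ _ ψ N' Q cj y3 sp
  rw [tp] at pu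
  have p3 := (abs_le.1 (pu.P {y | dl B W (la1 blk B.la ν E.μ) E ν r y ∈ H})).1
  obtain ⟨b, hb, pb⟩ := bgp _ _ E.T _ (dr W) _ _ _ 1 z1.toOk 1 η
    {b | (E.T.tan _ (lf s W _ E.T Ψ) 1 b).RgS (E.T.ts _ (E.st B.st B.M s)
      (B.M * (s + 1) ^ s)) (mM s B.M) C2 N a η}
    (E.T.hm _ _ (mu s W _) ⁻¹' {y | dl B W (la1 blk B.la ν E.μ) E ν r y ∈ H}) oE.stg ad0 z0.toOk tk
    z3.toOk η0 η1 (m1 _ _ _ _ _ _ _ _ _ (r1.hy oE.stg η0 e1 ad0 z0 le_rfl a1))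
    (m1 _ _ _ _ _ _ _ _ _ y3) (fun b hb => by
      have g := (tst _ _ _ _ _ _ _ _ b oE.stg ad0 z0.toOk tk).1
      exact m3 _ _ _ _ _ _ _ _ _ (TS.RgS.hy hb g η0 e1 (g.adm z1.toOk) z1 le_rfl a1)) (tg _ ad0)
  obtain ⟨g, ok, -⟩ := tst _ _ _ _ _ _ _ _ b oE.stg ad0 z0.toOk tk
  have oT : (rf B s W _ E ν r Ψ b hp).toBs.Ok s 0 := by
    refine ⟨⟨ok, ?_, g, fun c => ?_, Nat.one_le_pow _ _ (Nat.succ_pos _)⟩, fun _ => ?_⟩
    · ext x x'
      change E.T.K x.1.1 x'.1.1 * (1 : Matrix _ _ ℝ) x.1.2 x'.1.2 = (1 : Matrix _ _ ℝ) x x'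
      rw [oE.K]
      by_cases e : x = x'
      · subst e; simp
      · rw [Matrix.one_apply_ne e]
        by_cases e1 : x.1.1 = x'.1.1
        · rw [Matrix.one_apply_ne (i := x.1.2) fun e2 => e (Subtype.ext (Prod.ext e1 e2)), mul_zero]
        · rw [Matrix.one_apply_ne e1, zero_mul]
    · exact le_trans (le_of_eq (Finsupp.degree_single _ _)) ((Nat.sub_le _ _).trans (oE.lev _))
    · simp [rf]
  refine ⟨r, Ψ, b, hp, ⟨o, wf, w, h1, z0.toOk, ad0, sf⟩, oT, hb,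
    {y' | ∃ y ∈ H, ka B W blk (rf B s W _ E ν r Ψ b hp) (TT.cf y') = TT.cf y}, fun _ k => k, ?_⟩
  rw [hS τ L _ W blk s 0 _ oT wf, hS τ L B W blk s h H o wf]
  have u0 := Gb.le_N (TS.tw_tri o.old.stg.cl aB zB.toOk) M0 (ind_nonneg
    {y | (fun w : B.SC W => wv blk B.la B.T y w.1.1 (ind w.1.2)) ∈ H})
  have u1 := Gb.N_le (TS.tw_tri oE.stg.cl ad z2.toOk) M1
    (ind_nonneg {y | dl B W (la1 blk B.la ν E.μ) E ν r y ∈ H})
  have u2 := TS.E_nonneg (T := E.T.tw _ Ψ)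
    (ind_nonneg {y | dl B W (la1 blk B.la ν E.μ) E ν r y ∈ H})
  refine le_trans ?_ (le_of_eq (P_dk _ _ (k' := fun μ => ((fun _ => (1 : ℝ)) μ.support ^ 2)⁻¹)
    (funext fun μ => by simp [Md.kw, rf]) _).symm)
  refine le_trans (le_trans ?_ pb) ((TS.sh_tri g.cl z1.toOk).P_mono ?_)
  · exact arith η0 η1 (TS.E_nonneg (ind_nonneg _)) u0 hn u1 u2 p3
  · rintro y ⟨Y, hY, k1, k2⟩
    exact ⟨_, hY, hH τ L B s h W blk _ E ν r Ψ b hp z1.toOk Y y o wf k1 k2⟩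

theorem sz_le {t m s : ℕ} (h : 2 ≤ m) (e : t ≤ m) : (t + 1) ^ s + 1 ≤ m ^ (2 * s + 1) := by
  have : (t + 1) ^ s ≤ m ^ (2 * s) := by
    rw [pow_mul]; exact Nat.pow_le_pow_left (by nlinarith) _
  exact (Nat.succ_le_succ this).trans (Un.pw_one h _)

theorem rcn_of (hS : SYP) (hR : RESN) (hL : LIFT) (hH : HMM) (hT : TAY) (hM : STM) (ma : Un.MA)
    (tg : ∀ M C, TANG M C) (s M C' : ℕ) : RCN s M C' := by
  obtain ⟨Ca, ma0, -⟩ := ma M
  obtain ⟨Cb, ma1, ma2⟩ := ma (M * (s + 1) ^ s)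
  obtain ⟨Cc, ma3, -⟩ := ma (mM s M)
  obtain ⟨Ct, c, tg⟩ := tg (M * (s + 1) ^ s) (C' + Cc)
  refine ⟨Ca + Cb + Ct, 4 * s + c + 9, ?_⟩
  rintro τ L _ _ _ _ B W blk E ν h n Y H sb hn hY rfl w cN h1 hν sm hμ hc r0 r1
  have n2 : 2 ≤ n := sb.two.trans hn
  have Y2 : 2 ≤ Y := sb.two.trans hY
  have oE := (nstg s B.M B.T B.st E sb.ok.old w).1
  have hN : ((Fintype.card τ + 1) ^ s + 1) ^ 2 ≤ n ^ (4 * s + 4) := by
    refine (Nat.pow_le_pow_left (sz_le n2 (sb.cτ.trans hn)) 2).trans ?_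
    rw [← pow_mul]; exact Un.pw_le n2 (by omega)
  have NK : n ^ (4 * s + 4) < n ^ (4 * s + c + 9) := Nat.pow_lt_pow_right n2 (by omega)
  have n4 : n + 4 ≤ n ^ (4 * s + 4) := by
    have := Un.pw_add n2 (show 1 < 3 by omega) (show 2 < 3 by omega)
    have := Un.pw_le n2 (show 3 ≤ 4 * s + 4 by omega)
    nlinarith
  have hs : 2 * h * s ≤ n ^ (4 * s + 4) := by
    have := Un.le_pw n2 s
    calc 2 * h * s ≤ n * n * n ^ s := Nat.mul_le_mul (Nat.mul_le_mul n2 hn) this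
      _ = n ^ (s + 2) := by ring
      _ ≤ _ := Un.pw_le n2 (by omega)
  have p0 : ∀ k : ℕ, (0 : ℝ) < 1 / 2 ^ k := fun k => by positivity
  have p1 : ∀ k : ℕ, (1 : ℝ) / 2 ^ k ≤ 1 := fun k => by simpa using Un.half_le (Nat.zero_le k)
  have e4 : (1 : ℝ) / 2 ^ n ^ (4 * s + 4) ≤ 1 / 2 ^ n / 16 :=
    (Un.half_le n4).trans (le_of_eq (by rw [pow_add]; field_simp; norm_num))
  obtain ⟨⟨z0, -, -, -, tk, cw⟩, -⟩ := hL τ s _ W _ sb.wf.dw (la1_bd sb.ok sb.wf h1 w.pos sm) hN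
  obtain ⟨r, Ψ, b, hp, rd, oT, rg, H', ov, dn⟩ := core hS hR hL hH (C := Ca + Cb + Ct)
    (C2 := C' + Cc) (a := 1 / 2 ^ n ^ (4 * s + 4)) (η := 1 / 2 ^ n ^ (4 * s + 4))
    (ma0.mono (by omega)) (ma1.mono (by omega)) (ma2.mono (by omega)) (ma3.mono (by omega)) sb.ok
    sb.wf w h1 sm hN (p0 _) (by linarith [p1 n]) (Un.half_le hs)
    (r0.mono sb.ok.old.stg.tri (p0 _) (p1 _) le_rfl NK.le (Un.half_le NK.le) (Un.half_le NK.le))
    (r1.mono oE.stg.tri (p0 _) (p1 _) le_rfl NK.le (Un.half_le NK.le) (Un.half_le NK.le))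
    (fun Ψ0 ad => tg _ E.T _ _ Ψ0 1 _ (n ^ (4 * s + c + 9)) _ (1 / 2 ^ n ^ (4 * s + c + 9)) _ oE.stg
      ad (z0.mono le_rfl (p1 _)) ⟨tk.pd, tk.blk, fun x => le_trans (mul_le_mul_of_nonneg_right
        (p1 _) (by positivity)) (tk.lo x)⟩ (p0 _) (p1 _) (p0 _) (p1 _) NK (by
          rw [mul_comm, div_pow, one_pow, ← pow_mul]
          have a : (n ^ (4 * s + 4) + 2) ^ c ≤ 2 ^ ((n ^ (4 * s + 4) + 2) * c) := by
            rw [pow_mul]; exact Nat.pow_le_pow_left Nat.lt_two_pow_self.le _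
          refine le_trans (le_of_eq (by push_cast; rfl)) (Un.half_mul a ?_)
          have b1 : n ^ (4 * s + 4) + 2 ≤ n ^ (4 * s + 4 + 1) := by
            have := Nat.mul_le_mul_left (n ^ (4 * s + 4)) n2
            rw [pow_succ n (4 * s + 4)]; omega
          have b2 : (n ^ (4 * s + 4) + 2) * c ≤ n ^ (4 * s + 4 + 1 + c) := by
            rw [pow_add n _ c]; exact Nat.mul_le_mul b1 (Un.le_pw n2 c)
          have b3 : n ^ (4 * s + 4) * 4 ≤ n ^ (4 * s + 4 + 2) := by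
            rw [pow_add n (4 * s + 4) 2]; exact Nat.mul_le_mul_left _ (by nlinarith)
          exact (Nat.add_le_add b3 b2).trans (Un.pw_add n2 (by omega) (by omega)))
      (r1.mono oE.stg.tri (p0 _) (p1 _) (by omega) le_rfl le_rfl (Un.half_le NK.le))) H
  have YK : Y ≤ Y ^ (4 * s + c + 9) := Nat.le_self_pow (by omega) _
  have s1 : (ν : ℝ) ^ s * E.μ ≤ 1 :=
    le_trans (le_mul_of_one_le_right (by have := w.pos; positivity) (one_le_pow₀ one_le_two)) sm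
  obtain ⟨t1, t2, t3⟩ := hT τ L B s h W blk _ E ν r Ψ b hp (2 ^ Y ^ (4 * s + c + 9)) rd s1
    (le_trans (by simpa using Un.half_le YK) hμ) (by positivity)
  have cw' : Fintype.card (Option (fr s W (la1 blk B.la ν E.μ)).W) ≤ h ^ (2 * s + 1) := by
    rw [Fintype.card_option]; exact (Nat.succ_le_succ cw).trans (sz_le sb.two sb.cτ)
  refine ⟨_, _, H', ⟨⟨oT.old, fun _ => ⟨p1 _, one_le_pow₀ one_le_two⟩⟩, t1,
    fun _ => ⟨h1, hν.trans (Nat.pow_le_pow_right two_pos YK)⟩, ?_⟩, rfl,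
    hM τ L B s h W blk _ E ν r Ψ b hp rd, t2, ?_, rg.mono oT.old.stg.tri (p0 _) (p1 _) (by omega)
      (by omega) (Un.half_le (by omega)) (Un.half_le (by omega)), t3, ov, by linarith [p0 n]⟩
  · refine ((co_nw sb.ok.old w hμ (cN.trans hY) hc).trans (co_tan (Y := 0) (Z := 0) tst oE.ok.toTri
      oE.lev rd.adm rd.fr (cw'.trans (Nat.pow_le_pow_left hY _)) tk one_pos (by simp) (by simp)
      (by simp) b) sb.ok.old.ok.toTri oE.ok.toTri fun _ => rfl).mono sb.ok.old.ok.toTri ?_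
    have a1 : Y + 2 * Y ≤ Y ^ 3 := by
      have := Nat.mul_le_mul_left Y (Nat.mul_le_mul Y2 Y2)
      rw [show Y ^ 3 = Y * (Y * Y) by ring]; omega
    have a2 : 1 + (s + 1) * (Y + 2 * Y) ≤ Y ^ (s + 1 + 3 + 1) := by
      rw [add_comm]
      refine le_trans (Nat.succ_le_succ ?_) (Un.pw_one Y2 _)
      rw [pow_add Y (s + 1) 3]; exact Nat.mul_le_mul (Un.le_pw Y2 _) a1
    have a3 := Nat.mul_le_mul_left (Y ^ (2 * s + 1)) a2
    rw [← pow_add] at a3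
    simp only [add_zero, mul_one]
    exact (Nat.add_le_add a1 a3).trans (Un.pw_add Y2 (by omega) (by omega))
  · refine (Fintype.card_subtype_le _).trans ?_
    rw [Fintype.card_prod]
    have a1 : Fintype.card E.T.C ≤ 2 ^ (h + 1) := by
      have := sb.cC
      have := (Nat.lt_two_pow_self (n := h)).le
      rw [show Fintype.card E.T.C = _ + _ from Fintype.card_sum, pow_succ]; omega
    refine (Nat.mul_le_mul a1 (cw'.trans Nat.lt_two_pow_self.le)).trans ?_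
    rw [← pow_add]
    refine Nat.pow_le_pow_right two_pos ?_
    have := Un.pw_one sb.two 1
    exact le_trans (Nat.add_le_add_right (by simpa using this) _)
      (Un.pw_add sb.two (a := 2) (by omega) (by omega))

end Crest.Agent.N49.Mv

end
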