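import Crest.Agent.N49.Sy.Alg
import Crest.Agent.N49.Rn.L1

/-!
# Row 49 (helper38): symbols of substitutions, integrality and size of symbols
-/

set_option autoImplicit false

open Finset MvPolynomial

noncomputable section

namespace Crest.Agent.N49.Sy

open Tw

variable {ι ι' L : Type} [DecidableEq L] [Fintype L] (lev : ι → ℕ) (lev' : ι' → ℕ)

/-- symbols commute with graded substitutions -/
theorem sy_aeval {f : ι → MvPolynomial ι' ℝ} (hf : ∀ c, (f c).IsWeightedHomogeneous lev' (lev c))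
    (y : ι' → Finset L → ℝ) (P : MvPolynomial ι ℝ) (S : Finset L) :
    sy lev P (fun c B => sy lev' (f c) y B) S = sy lev' (aeval f P) y S := by
  induction P using MvPolynomial.induction_on generalizing S with
  | C a => rw [aeval_C, algebraMap_eq, sy_C, sy_C]
  | add p q hp hq => rw [map_add, sy_add, sy_add, hp, hq]
  | mul_X p c hp =>
    rw [map_mul, sy_mul, sy_mul, aeval_X]
    refine sum_congr rfl fun A _ => ?_
    rw [hp, sy_X]
    split_ifs with e
    · rfl
    · rw [sy_hom lev' (hf c) y e]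

/-- symbols of integer polynomials at integer configurations are integers -/
theorem sy_int (P : MvPolynomial ι ℤ) {y : ι → Finset L → ℝ} {S : Finset L}
    (hy : ∀ c, ∀ B ⊆ S, ∃ n : ℤ, y c B = n) :
    ∃ n : ℤ, sy lev (map (Int.castRingHom ℝ) P) y S = n := by
  induction P using MvPolynomial.induction_on generalizing S with
  | C a => exact ⟨if S = ∅ then a else 0, by rw [map_C, sy_C]; split_ifs <;> simp⟩
  | add p q hp hq =>
    obtain ⟨⟨a, ha⟩, b, hb⟩ := And.intro (hp hy) (hq hy)
    exact ⟨a + b, by rw [map_add, sy_add, ha, hb, Int.cast_add]⟩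
  | mul_X p c hp =>
    have : ∀ A ∈ S.powerset, ∃ n : ℤ, sy lev (map (Int.castRingHom ℝ) p) y A *
        sy lev (X c) y (S \ A) = n := fun A k => by
      obtain ⟨a, ha⟩ := hp fun c B e => hy c B (e.trans (mem_powerset.1 k))
      obtain ⟨b, hb⟩ := hy c (S \ A) sdiff_subset
      exact ⟨a * if #(S \ A) = lev c then b else 0, by rw [ha, sy_X, hb]; split_ifs <;> simp⟩
    choose! n hn using this
    exact ⟨∑ A ∈ S.powerset, n A, by
      rw [map_mul, map_X, sy_mul, Int.cast_sum]; exact sum_congr rfl hn⟩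

theorem l1_Yp {u : ι → Finset L → ℝ} {S : Finset L} {r : ℝ} (h0 : 0 ≤ r)
    (hu : ∀ c, ∀ B ⊆ S, #B = lev c → |u c B| ≤ r) (c : ι) :
    l1 (Yp lev (fun c B => if B ⊆ S then u c B else 0) c) ≤ 2 ^ #S * r := by
  refine (l1_sum _ _).trans ?_
  simp only [l1_monomial, apply_ite abs, abs_zero]
  rw [← sum_filter]
  refine (sum_le_card_nsmul _ _ r fun B k => hu c B (mem_filter.1 k).2
    (mem_powersetCard.1 (mem_filter.1 k).1).2).trans ?_
  rw [nsmul_eq_mul]
  refine mul_le_mul_of_nonneg_right ?_ h0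
  exact_mod_cast (card_le_card fun B k => mem_powerset.2 (mem_filter.1 k).2).trans_eq
    (card_powerset S)

/-- the size of a symbol -/
theorem abs_sy_le {P : MvPolynomial ι ℝ} {u : ι → Finset L → ℝ} {S : Finset L} {r : ℝ} {s : ℕ}
    (h1 : 1 ≤ r) (hu : ∀ c, ∀ B ⊆ S, #B = lev c → |u c B| ≤ r)
    (hs : ∀ m ∈ P.support, m.degree ≤ s) : |sy lev P u S| ≤ l1 P * (2 ^ #S * r) ^ s := by
  rw [sy_congr' lev (y' := fun c B => if B ⊆ S then u c B else 0) P fun c B k _ => (if_pos k).symm]
  exact (abs_coeff_le _ _).trans (l1_aeval (l1_Yp lev (zero_le_one.trans h1) hu)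
    (one_le_mul_of_one_le_of_one_le (one_le_pow₀ one_le_two) h1) hs)

end Crest.Agent.N49.Sy

end
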